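import Crest.Agent.R287.Seq

/-! Row 287: chains of `C` steps; clean cycles, cycles without `U` or without `V` steps. -/

set_option autoImplicit false

namespace Crest.Agent.R287

lemma mod_ne_of_lt {i j m : ℕ} (h1 : i < j) (h2 : j < i + m) : i % m ≠ j % m := by
  intro h
  have := Nat.le_of_dvd (by omega) ((Nat.modEq_iff_dvd' h1.le).1 h)
  omega

namespace Sys
variable {N Cl Gr α : Type} [DecidableEq Gr] (S : Sys N Cl Gr α)

/-- groups of the positions in `[s, e)` -/
def img (z : ℕ → N) (s e : ℕ) : Finset Gr := (Finset.Ico s e).image (fun i => S.gr (z i))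

lemma mem_img {z : ℕ → N} {s e : ℕ} {K : Gr} :
    K ∈ S.img z s e ↔ ∃ i, s ≤ i ∧ i < e ∧ S.gr (z i) = K := by
  simp [img, and_assoc]

lemma img_empty (z : ℕ → N) {s e : ℕ} (h : e ≤ s) : S.img z s e = ∅ := by
  simp [img, h]

lemma img_one (z : ℕ → N) (s : ℕ) : S.img z s (s + 1) = {S.gr (z s)} := by
  simp [img]

lemma img_two (z : ℕ → N) (s : ℕ) : S.img z s (s + 1 + 1) = {S.gr (z s), S.gr (z (s + 1))} := by
  ext K
  simp only [mem_img, Finset.mem_insert, Finset.mem_singleton]
  constructor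
  · rintro ⟨i, h1, h2, rfl⟩
    rcases (show i = s ∨ i = s + 1 by omega) with rfl | rfl <;> simp
  · rintro (rfl | rfl)
    · exact ⟨s, by omega, by omega, rfl⟩
    · exact ⟨s + 1, by omega, by omega, rfl⟩

lemma img_split (z : ℕ → N) {s c e : ℕ} (h1 : s ≤ c) (h2 : c ≤ e) :
    S.img z s e = S.img z s c ∪ S.img z c e := by
  unfold img
  rw [← Finset.image_union, Finset.Ico_union_Ico_eq_Ico h1 h2]

/-- consecutive `C` steps through pairwise different sink groups -/
structure Chain (z : ℕ → N) (s e : ℕ) : Prop where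
  sink : ∀ i, s ≤ i → i < e → S.sink (S.gr (z i))
  inj : ∀ i j, s ≤ i → i < j → j < e → S.gr (z i) ≠ S.gr (z j)
  cB : ∀ i, s ≤ i → i + 1 < e → S.Y (z i) (z (i + 1)) ≤ S.o (z i)
  cE : ∀ i, s ≤ i → i + 1 < e → S.Y (z i) (z (i + 1)) ≤ S.o (z (i + 1))

variable {S}

lemma Chain.mono {z : ℕ → N} {s e s' e' : ℕ} (h : S.Chain z s e) (h1 : s ≤ s') (h2 : e' ≤ e) :
    S.Chain z s' e' :=
  ⟨fun i e1 e2 => h.sink i (by omega) (by omega),
    fun i j e1 e2 e3 => h.inj i j (by omega) e2 (by omega),
    fun i e1 e2 => h.cB i (by omega) (by omega), fun i e1 e2 => h.cE i (by omega) (by omega)⟩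

lemma Chain.split {z : ℕ → N} {s e : ℕ} (h : S.Chain z s e) {c : ℕ} (h1 : s ≤ c) (h2 : c ≤ e) :
    S.C (S.img z s e) ≤ S.C (S.img z s c) + S.C (S.img z c e) := by
  rw [S.img_split z h1 h2]
  refine S.C_union _ _ (Finset.disjoint_left.2 fun K e1 e2 => ?_)
  obtain ⟨i, e3, e4, rfl⟩ := S.mem_img.1 e1
  obtain ⟨j, e5, e6, e7⟩ := S.mem_img.1 e2
  exact h.inj i j e3 (by omega) e6 e7.symm

lemma fw_step (z : ℕ → N) {i : ℕ} (h : S.gr (z i) ≠ S.gr (z (i + 1))) :
    S.eta z i - S.w (z i) < S.pos z (i + 1) + S.w (z (i + 1)) := by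
  have := S.Y_lt_of_ne (S.cl_ne h)
  rw [pos_succ]; unfold eta; omega

lemma Chain.pair {z : ℕ → N} {s e : ℕ} (h : S.Chain z s e) {i : ℕ} (h1 : s ≤ i) (h2 : i + 1 < e) :
    S.C (S.img z i (i + 1 + 1)) ≤
      S.eta z (i + 1) - S.w (z (i + 1)) - (S.pos z i + S.w (z i)) := by
  have := S.C_pair (h.sink i h1 (by omega)) (h.sink (i + 1) (by omega) h2) (h.cB i h1 h2)
    (h.cE i h1 h2) (h.inj i (i + 1) h1 (by omega) h2)
  rw [img_two]; unfold eta; rw [pos_succ]; omega

lemma Chain.one {z : ℕ → N} {s e : ℕ} (h : S.Chain z s e) {i : ℕ} (h1 : s ≤ i) (h2 : i < e) :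
    S.C (S.img z i (i + 1)) ≤ S.eta z i - S.w (z i) - S.pos z i := by
  have := S.single0 _ (h.sink i h1 h2)
  rw [img_one]; unfold eta; omega

lemma Chain.even' {z : ℕ → N} (n : ℕ) : ∀ s j, j = s + 2 * n + 1 → S.Chain z s (j + 1) →
    S.C (S.img z s (j + 1)) ≤ S.eta z j - S.w (z j) - (S.pos z s + S.w (z s)) := by
  induction n with
  | zero =>
    rintro s j rfl h
    exact h.pair le_rfl (by omega)
  | succ n ih =>
    intro s j hj h
    have e1 := ih (s + 1 + 1) j (by omega) (h.mono (by omega) le_rfl)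
    have e2 := h.split (c := s + 1 + 1) (by omega) (by omega)
    have e3 := h.pair (i := s) le_rfl (by omega)
    have e4 := fw_step z (h.inj (s + 1) (s + 1 + 1) (by omega) (by omega) (by omega))
    omega

lemma Chain.even {z : ℕ → N} {s j : ℕ} (h : S.Chain z s (j + 1)) (h1 : s < j)
    (h2 : (j - s) % 2 = 1) :
    S.C (S.img z s (j + 1)) ≤ S.eta z j - S.w (z j) - (S.pos z s + S.w (z s)) :=
  Chain.even' ((j - s) / 2) s j (by omega) h

lemma Chain.left {z : ℕ → N} {s j : ℕ} (h : S.Chain z s (j + 1)) (h1 : s ≤ j) :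
    S.C (S.img z s (j + 1)) ≤ S.eta z j - S.w (z j) - S.pos z s := by
  rcases Nat.mod_two_eq_zero_or_one (j - s) with h2 | h2
  · rcases Nat.eq_or_lt_of_le h1 with rfl | h3
    · exact h.one le_rfl (by omega)
    · have e1 := h.split (c := s + 1) (by omega) (by omega)
      have e2 := h.one (i := s) le_rfl (by omega)
      have e3 := (h.mono (s' := s + 1) (by omega) le_rfl).even (by omega) (by omega)
      have e4 := fw_step z (h.inj s (s + 1) (by omega) (by omega) (by omega))
      omega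
  · have e1 := h.even (by omega) h2
    have e2 := S.wpos _ (h.sink s le_rfl (by omega))
    omega

lemma Chain.right {z : ℕ → N} {s j : ℕ} (h : S.Chain z s (j + 1)) (h1 : s ≤ j) :
    S.C (S.img z s (j + 1)) ≤ S.eta z j - (S.pos z s + S.w (z s)) := by
  rcases Nat.mod_two_eq_zero_or_one (j - s) with h2 | h2
  · rcases Nat.eq_or_lt_of_le h1 with rfl | h3
    · have := h.one (i := s) le_rfl (by omega)
      omega
    · obtain ⟨j, rfl⟩ : ∃ j', j = j' + 1 := ⟨j - 1, by omega⟩
      have e1 := h.split (c := j + 1) (by omega) (by omega)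
      have e2 := h.one (i := j + 1) (by omega) (by omega)
      have e3 := (h.mono (e' := j + 1) le_rfl (by omega)).even (by omega) (by omega)
      have e4 := fw_step z (h.inj j (j + 1) (by omega) (by omega) (by omega))
      omega
  · have e1 := h.even (by omega) h2
    have e2 := S.wpos _ (h.sink j h1 (by omega))
    omega

lemma Chain.blockV {z : ℕ → N} {s j : ℕ} (h : S.Chain z s (j + 1)) (h1 : s ≤ j)
    (hV : S.o (z (j + 1)) < S.Y (z j) (z (j + 1)))
    (hg : s < j → S.gr (z j) ≠ S.gr (z (j + 1))) :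
    S.C (S.img z s (j + 1)) ≤ 2 * (S.pos z (j + 1) - S.pos z s) := by
  have e1 := S.V_single (h.sink j h1 (by omega)) hV
  have e2 := S.V_le hV
  have e3 := S.pos_succ z j
  rcases Nat.eq_or_lt_of_le h1 with rfl | h3
  · rw [img_one]; omega
  · have e4 := S.V_dep (h.sink j h1 (by omega)) hV (hg h3)
    have e5 := S.wpos _ (h.sink j h1 (by omega))
    have e6 := S.pos_mono z h1 fun i a1 a2 => h.cB i a1 (by omega)
    have e7 := h.split (c := j) h1 (by omega)
    rw [img_one] at e7
    obtain ⟨j, rfl⟩ : ∃ j', j = j' + 1 := ⟨j - 1, by omega⟩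
    have e8 := (h.mono (e' := j + 1) le_rfl (by omega)).left (by omega)
    have e9 := fw_step z (h.inj j (j + 1) (by omega) (by omega) (by omega))
    omega

lemma Chain.blockU {z : ℕ → N} {p j : ℕ} (h : S.Chain z (p + 1) (j + 1)) (h1 : p + 1 ≤ j)
    (hU : S.o (z p) < S.Y (z p) (z (p + 1)))
    (hg : p + 1 < j → S.gr (z p) ≠ S.gr (z (p + 1))) :
    S.C (S.img z (p + 1) (j + 1)) ≤ 2 * (S.eta z j - S.eta z p) := by
  have e1 := S.U_single (h.sink (p + 1) le_rfl (by omega)) hU
  have e2 := S.U_le hU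
  have e3 : S.eta z (p + 1) = S.eta z p + S.o (z (p + 1)) - S.Y (z p) (z (p + 1)) := by
    unfold eta; rw [pos_succ]; ring
  rcases Nat.eq_or_lt_of_le h1 with rfl | h3
  · rw [img_one]; omega
  · have e4 := S.U_dep (h.sink (p + 1) le_rfl (by omega)) hU (hg h3)
    have e5 := S.wpos _ (h.sink (p + 1) le_rfl (by omega))
    have e6 := S.eta_mono z h1 fun i a1 a2 => h.cE i a1 (by omega)
    have e7 := h.split (c := p + 1 + 1) (by omega) (by omega)
    rw [img_one] at e7
    have e8 := (h.mono (s' := p + 1 + 1) (by omega) le_rfl).right (by omega)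
    have e9 := fw_step z (h.inj (p + 1) (p + 1 + 1) (by omega) (by omega) (by omega))
    omega

variable (S)

/-- position `i + 1` is high -/
def High (z : ℕ → N) (i : ℕ) : Prop :=
  S.Y (z i) (z (i + 1)) ≤ S.o (z (i + 1)) ∧ S.Y (z (i + 1)) (z (i + 1 + 1)) ≤ S.o (z (i + 1))

/-- the standing assumptions once no high node can be cut out for free -/
structure Red (z : ℕ → N) (m : ℕ) (A : Finset Gr) : Prop where
  hm : 0 < m
  per : ∀ i, z (i + m) = z i
  sink : ∀ K ∈ A, S.sink K
  pres : ∀ K ∈ A, ∃ i, S.gr (z i) = K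
  own : ∀ i, S.High z i → S.gr (z (i + 1)) ∈ A
  uniq : ∀ i j, S.High z i → S.gr (z j) = S.gr (z (i + 1)) → j % m = (i + 1) % m

variable {S}

lemma Red.inter_img {z : ℕ → N} {m : ℕ} {A : Finset Gr} (h : S.Red z m A) (r : ℕ) :
    A ∩ S.img z r (r + m) = A := by
  refine Finset.inter_eq_left.2 fun K hK => ?_
  obtain ⟨i, rfl⟩ := h.pres K hK
  obtain ⟨s, e1, e2, e3, -⟩ := exists_window h.per h.hm r i
  exact S.mem_img.2 ⟨s, e1, e2, by rw [e3]⟩

lemma Red.ne {z : ℕ → N} {m : ℕ} {A : Finset Gr} (h : S.Red z m A) {i j : ℕ} (hi : S.High z i)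
    (h1 : j ≠ i + 1) (h2 : j < i + 1 + m) (h3 : i + 1 < j + m) :
    S.gr (z j) ≠ S.gr (z (i + 1)) := by
  intro e
  have := h.uniq i j hi e
  rcases Nat.lt_or_gt_of_ne h1 with a | a
  · exact mod_ne_of_lt a h3 this
  · exact mod_ne_of_lt a h2 this.symm

lemma exists_last {P : ℕ → Prop} {r v : ℕ} (hr : P r) (h : r < v) :
    ∃ u, r ≤ u ∧ u < v ∧ P u ∧ ∀ i, u < i → i < v → ¬ P i := by
  classical
  refine ⟨Nat.findGreatest P (v - 1), Nat.le_findGreatest (by omega) hr, ?_,
    Nat.findGreatest_spec (m := r) (by omega) hr, fun i e1 e2 => ?_⟩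
  · have := Nat.findGreatest_le (P := P) (v - 1); omega
  · exact Nat.findGreatest_is_greatest e1 (by omega)

theorem Red.allV {z : ℕ → N} {m : ℕ} {A : Finset Gr} (h : S.Red z m A)
    (hU : ∀ i, S.Y (z i) (z (i + 1)) ≤ S.o (z i)) {r : ℕ}
    (hV : S.o (z (r + 1)) < S.Y (z r) (z (r + 1))) : S.C A ≤ 2 * S.pos z m := by
  have key : ∀ v, r ≤ v → v ≤ r + m → S.o (z (v + 1)) < S.Y (z v) (z (v + 1)) →
      S.C (A ∩ S.img z (r + 1) (v + 1)) ≤ 2 * (S.pos z (v + 1) - S.pos z (r + 1)) := by
    intro v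
    induction v using Nat.strong_induction_on with
    | _ v ih =>
    intro h1 h2 hv
    rcases Nat.eq_or_lt_of_le h1 with rfl | h3
    · rw [S.img_empty z le_rfl]; simp [S.C_empty]
    obtain ⟨u, u1, u2, u3, u4⟩ :=
      exists_last (P := fun i => S.o (z (i + 1)) < S.Y (z i) (z (i + 1))) hV h3
    have hu := ih u u2 u1 (by omega) u3
    have hh : ∀ i, u < i → i < v → S.High z i := fun i e1 e2 => ⟨not_lt.1 (u4 i e1 e2), hU _⟩
    have main : ∀ s, u + 1 ≤ s → s ≤ u + 2 → s ≤ v + 1 → (s = u + 1 → S.gr (z s) ∈ A ∧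
        S.gr (z s) ∉ S.img z (r + 1) (u + 1)) → (s = u + 2 → S.gr (z (u + 1)) ∈ A →
        S.gr (z (u + 1)) ∈ S.img z (r + 1) (u + 1)) →
        S.C (A ∩ S.img z (r + 1) (v + 1)) ≤ 2 * (S.pos z (v + 1) - S.pos z (r + 1)) := by
      intro s s1 s2 s2' s3 s4
      have hA : ∀ i, s ≤ i → i < v + 1 → S.gr (z i) ∈ A := by
        intro i e1 e2
        by_cases e : i = u + 1
        · subst e
          obtain rfl : s = u + 1 := by omega
          exact (s3 rfl).1
        · obtain ⟨i, rfl⟩ : ∃ i', i = i' + 1 := ⟨i - 1, by omega⟩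
          exact h.own i (hh i (by omega) (by omega))
      have hc : S.Chain z s (v + 1) := by
        refine ⟨fun i e1 e2 => h.sink _ (hA i e1 e2), fun i j e1 e2 e3 => ?_, fun i _ _ => hU i,
          fun i e1 e2 => not_lt.1 (u4 i (by omega) (by omega))⟩
        obtain ⟨j, rfl⟩ : ∃ j', j = j' + 1 := ⟨j - 1, by omega⟩
        exact h.ne (hh j (by omega) (by omega)) (by omega) (by omega) (by omega)
      have heq : A ∩ S.img z (r + 1) (v + 1) =
          A ∩ S.img z (r + 1) (u + 1) ∪ S.img z s (v + 1) := by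
        ext K
        simp only [Finset.mem_inter, Finset.mem_union]
        constructor
        · rintro ⟨e1, e2⟩
          obtain ⟨i, e3, e4, rfl⟩ := S.mem_img.1 e2
          by_cases e5 : i < u + 1
          · exact Or.inl ⟨e1, S.mem_img.2 ⟨i, e3, e5, rfl⟩⟩
          · by_cases e6 : s ≤ i
            · exact Or.inr (S.mem_img.2 ⟨i, e6, e4, rfl⟩)
            · obtain rfl : i = u + 1 := by omega
              exact Or.inl ⟨e1, s4 (by omega) e1⟩
        · rintro (⟨e1, e2⟩ | e2)
          · obtain ⟨i, e3, e4, rfl⟩ := S.mem_img.1 e2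
            exact ⟨e1, S.mem_img.2 ⟨i, e3, by omega, rfl⟩⟩
          · obtain ⟨i, e3, e4, rfl⟩ := S.mem_img.1 e2
            exact ⟨hA i e3 e4, S.mem_img.2 ⟨i, by omega, e4, rfl⟩⟩
      have hd : Disjoint (A ∩ S.img z (r + 1) (u + 1)) (S.img z s (v + 1)) := by
        refine Finset.disjoint_left.2 fun K e1 e2 => ?_
        obtain ⟨i, e3, e4, rfl⟩ := S.mem_img.1 e2
        by_cases e : i = u + 1
        · subst e
          obtain rfl : s = u + 1 := by omega
          exact (s3 rfl).2 (Finset.mem_inter.1 e1).2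
        · obtain ⟨j, e5, e6, e7⟩ := S.mem_img.1 (Finset.mem_inter.1 e1).2
          obtain ⟨i, rfl⟩ : ∃ i', i = i' + 1 := ⟨i - 1, by omega⟩
          exact h.ne (hh i (by omega) (by omega)) (by omega) (by omega) (by omega) e7
      have e1 := S.C_union _ _ hd
      rw [← heq] at e1
      have e2 := S.pos_mono z (a := u + 1) (b := s) s1 fun i _ _ => hU i
      by_cases e : s = v + 1
      · subst e
        rw [S.img_empty z le_rfl, S.C_empty] at e1
        omega
      · have e3 := hc.blockV (by omega) hv fun e4 => by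
          obtain ⟨v, rfl⟩ : ∃ v', v = v' + 1 := ⟨v - 1, by omega⟩
          exact (h.ne (hh v (by omega) (by omega)) (by omega) (by omega) (by omega)).symm
        omega
    by_cases e : S.gr (z (u + 1)) ∈ A ∧ S.gr (z (u + 1)) ∉ S.img z (r + 1) (u + 1)
    · exact main (u + 1) le_rfl (by omega) (by omega) (fun _ => e) (by omega)
    · exact main (u + 2) (by omega) le_rfl (by omega) (by omega) (fun _ e1 => by tauto)
  have := key (r + m) (by omega) le_rfl (by
    rw [show r + m + 1 = r + 1 + m by omega, h.per, h.per]; exact hV)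
  rw [show r + m + 1 = r + 1 + m by omega, h.inter_img, S.pos_per h.per] at this
  omega

theorem Red.allU {z : ℕ → N} {m : ℕ} {A : Finset Gr} (h : S.Red z m A)
    (hV : ∀ i, S.Y (z i) (z (i + 1)) ≤ S.o (z (i + 1))) {r : ℕ}
    (hU : S.o (z r) < S.Y (z r) (z (r + 1))) : S.C A ≤ 2 * S.pos z m := by
  have key : ∀ v, r ≤ v → v ≤ r + m → S.o (z v) < S.Y (z v) (z (v + 1)) →
      S.C (A ∩ S.img z (r + 1) (v + 1)) ≤ 2 * (S.eta z v - S.eta z r) := by
    intro v
    induction v using Nat.strong_induction_on with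
    | _ v ih =>
    intro h1 h2 hv
    rcases Nat.eq_or_lt_of_le h1 with rfl | h3
    · rw [S.img_empty z le_rfl]; simp [S.C_empty]
    obtain ⟨u, u1, u2, u3, u4⟩ :=
      exists_last (P := fun i => S.o (z i) < S.Y (z i) (z (i + 1))) hU h3
    have hu := ih u u2 u1 (by omega) u3
    have hh : ∀ i, u ≤ i → i + 1 < v → S.High z i := fun i e1 e2 =>
      ⟨hV _, not_lt.1 (u4 (i + 1) (by omega) e2)⟩
    have main : ∀ e, v ≤ e → e ≤ v + 1 → (e = v + 1 → S.gr (z v) ∈ A ∧
        S.gr (z v) ∉ S.img z (r + 1) (u + 1)) → (e = v → S.gr (z v) ∈ A →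
        S.gr (z v) ∈ S.img z (r + 1) (u + 1)) →
        S.C (A ∩ S.img z (r + 1) (v + 1)) ≤ 2 * (S.eta z v - S.eta z r) := by
      intro s s1 s2 s3 s4
      have hA : ∀ i, u + 1 ≤ i → i < s → S.gr (z i) ∈ A := by
        intro i e1 e2
        by_cases e : i = v
        · subst e
          exact (s3 (by omega)).1
        · obtain ⟨i, rfl⟩ : ∃ i', i = i' + 1 := ⟨i - 1, by omega⟩
          exact h.own i (hh i (by omega) (by omega))
      have hc : S.Chain z (u + 1) s := by
        refine ⟨fun i e1 e2 => h.sink _ (hA i e1 e2), fun i j e1 e2 e3 => ?_,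
          fun i e1 e2 => not_lt.1 (u4 i (by omega) (by omega)), fun i _ _ => hV i⟩
        obtain ⟨i, rfl⟩ : ∃ i', i = i' + 1 := ⟨i - 1, by omega⟩
        exact (h.ne (hh i (by omega) (by omega)) (by omega) (by omega) (by omega)).symm
      have heq : A ∩ S.img z (r + 1) (v + 1) =
          A ∩ S.img z (r + 1) (u + 1) ∪ S.img z (u + 1) s := by
        ext K
        simp only [Finset.mem_inter, Finset.mem_union]
        constructor
        · rintro ⟨e1, e2⟩
          obtain ⟨i, e3, e4, rfl⟩ := S.mem_img.1 e2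
          by_cases e5 : i < u + 1
          · exact Or.inl ⟨e1, S.mem_img.2 ⟨i, e3, e5, rfl⟩⟩
          · by_cases e6 : i < s
            · exact Or.inr (S.mem_img.2 ⟨i, by omega, e6, rfl⟩)
            · obtain rfl : i = v := by omega
              exact Or.inl ⟨e1, s4 (by omega) e1⟩
        · rintro (⟨e1, e2⟩ | e2)
          · obtain ⟨i, e3, e4, rfl⟩ := S.mem_img.1 e2
            exact ⟨e1, S.mem_img.2 ⟨i, e3, by omega, rfl⟩⟩
          · obtain ⟨i, e3, e4, rfl⟩ := S.mem_img.1 e2
            exact ⟨hA i e3 e4, S.mem_img.2 ⟨i, by omega, by omega, rfl⟩⟩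
      have hd : Disjoint (A ∩ S.img z (r + 1) (u + 1)) (S.img z (u + 1) s) := by
        refine Finset.disjoint_left.2 fun K e1 e2 => ?_
        obtain ⟨i, e3, e4, rfl⟩ := S.mem_img.1 e2
        by_cases e : i = v
        · subst e
          exact (s3 (by omega)).2 (Finset.mem_inter.1 e1).2
        · obtain ⟨j, e5, e6, e7⟩ := S.mem_img.1 (Finset.mem_inter.1 e1).2
          obtain ⟨i, rfl⟩ : ∃ i', i = i' + 1 := ⟨i - 1, by omega⟩
          exact h.ne (hh i (by omega) (by omega)) (by omega) (by omega) (by omega) e7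
      have e1 := S.C_union _ _ hd
      rw [← heq] at e1
      obtain ⟨s, rfl⟩ : ∃ s', s = s' + 1 := ⟨s - 1, by omega⟩
      have e2 := S.eta_mono z (a := s) (b := v) (by omega) fun i _ _ => hV i
      by_cases e : s = u
      · subst e
        rw [S.img_empty z le_rfl, S.C_empty] at e1
        omega
      · have e3 := hc.blockU (by omega) u3 fun e4 =>
          h.ne (hh u (by omega) (by omega)) (by omega) (by omega) (by omega)
        omega
    by_cases e : S.gr (z v) ∈ A ∧ S.gr (z v) ∉ S.img z (r + 1) (u + 1)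
    · exact main (v + 1) (by omega) le_rfl (fun _ => e) (by omega)
    · exact main v le_rfl (by omega) (by omega) (fun _ e1 => by tauto)
  have := key (r + m) (by omega) le_rfl (by
    rw [show r + m + 1 = r + 1 + m by omega, h.per, h.per]; exact hU)
  rw [show r + m + 1 = r + 1 + m by omega, h.inter_img, S.eta_per h.per] at this
  omega

theorem Red.clean {z : ℕ → N} {m : ℕ} {A : Finset Gr} (h : S.Red z m A) (hm : 2 ≤ m)
    (hU : ∀ i, S.Y (z i) (z (i + 1)) ≤ S.o (z i))
    (hV : ∀ i, S.Y (z i) (z (i + 1)) ≤ S.o (z (i + 1))) : S.C A ≤ 2 * S.pos z m := by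
  have hh : ∀ i, S.High z i := fun i => ⟨hV _, hU _⟩
  have hA : ∀ i, S.gr (z i) ∈ A := by
    intro i
    have := h.own (i + m - 1) (hh _)
    rwa [show i + m - 1 + 1 = i + m by omega, h.per] at this
  have hne : ∀ i j, i < j → j < i + m → S.gr (z i) ≠ S.gr (z j) := by
    intro i j e1 e2
    obtain ⟨j, rfl⟩ : ∃ j', j = j' + 1 := ⟨j - 1, by omega⟩
    exact h.ne (hh j) (by omega) (by omega) (by omega)
  have hc : ∀ s, S.Chain z s (s + m) := fun s =>
    ⟨fun i _ _ => h.sink _ (hA i), fun i j e1 e2 e3 => hne i j e2 (by omega), fun i _ _ => hU i,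
      fun i _ _ => hV i⟩
  have hI : ∀ s, S.img z s (s + m) = A := by
    intro s
    refine Finset.Subset.antisymm (fun K hK => ?_) (Finset.inter_eq_left.1 (h.inter_img s))
    obtain ⟨i, -, -, rfl⟩ := S.mem_img.1 hK
    exact hA i
  have hG := S.cyc_nonneg m z h.hm h.per
  obtain ⟨q, rfl⟩ : ∃ q, m = q + 1 := ⟨m - 1, by omega⟩
  have hfw : ∀ i, S.eta z (i + q) - S.w (z (i + q)) <
      S.pos z i + S.pos z (q + 1) + S.w (z i) := by
    intro i
    have := fw_step z (hne (i + q) (i + q + 1) (by omega) (by omega))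
    rwa [add_assoc i q 1, S.pos_per h.per, h.per] at this
  rcases Nat.mod_two_eq_zero_or_one q with h2 | h2
  · by_cases hw : ∃ i, S.w (z i) ≤ S.pos z (q + 1)
    · obtain ⟨i, hi⟩ := hw
      have e1 := (hc i).left (j := i + q) (by omega)
      have e2 := hfw i
      rw [add_assoc, hI] at e1
      omega
    push Not at hw
    rcases eq_or_lt_of_le hG with hG0 | hG0
    · exfalso
      have e1 := S.pos_mono z (a := 0 + 1) (b := 0 + (q + 1)) (by omega) fun i _ _ => hU i
      have e2 := S.eta_mono z (a := 0 + 1) (b := 0 + (q + 1)) (by omega) fun i _ _ => hV i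
      rw [S.pos_per h.per] at e1
      rw [S.eta_per h.per] at e2
      have e3 := S.pos_succ z 0
      have e4 := hU 0
      have e5 := hV 0
      unfold eta at e2
      exact S.C_free (h.sink _ (hA 0)) (by omega) (by omega) (hne 0 (0 + 1) (by omega) (by omega))
    · have hex : ∃ i, S.pos z i + S.w (z i) ≤ S.pos z (i + 1) + S.w (z (i + 1)) := by
        by_contra H
        push Not at H
        have : ∀ i, S.pos z (i + 1) + S.w (z (i + 1)) < S.pos z 0 + S.w (z 0) := by
          intro i
          induction i with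
          | zero => exact H 0
          | succ i ih => exact (H (i + 1)).trans ih
        have e1 := this q
        have e2 := h.per 0
        rw [zero_add] at e2
        rw [e2, S.pos_zero] at e1
        omega
      obtain ⟨i, hi⟩ := hex
      have hw0 := S.wpos _ (h.sink _ (hA i))
      have hrig : S.o (z i) - S.w (z i) < S.pos z (q + 1) := by
        by_contra H
        have e1 : ∀ t, S.F z i t = S.F z (i + (q + 1)) t := by
          refine eq_of_agree (a := S.pos z (i + (q + 1))) hw0 (S.F_per z i) ?_ fun t e2 e3 => ?_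
          · have := S.F_per z (i + (q + 1))
            rwa [h.per] at this
          · refine S.F_agree' z (by omega) (fun i _ _ => hU i) (fun i _ _ => hV i) t e2 ?_
            rw [S.pos_per h.per] at e3
            unfold eta; omega
        have e2 := S.rigid (z i) (S.pos z (q + 1)) (h.sink _ (hA i)) fun t => by
          have := e1 (t + S.pos z (q + 1) + S.pos z i)
          rw [S.F_shift_per h.per] at this
          unfold F at this
          convert this using 2 <;> ring
        have := Int.le_of_dvd hG0 e2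
        have := hw i
        omega
      have e1 := (hc i).split (c := i + 1) (by omega) (by omega)
      have e2 := (hc i).one (i := i) le_rfl (by omega)
      have e3 := ((hc i).mono (s' := i + 1) (e' := i + q + 1) (by omega) (by omega)).even
        (by omega) (by omega)
      have e4 := hfw i
      rw [hI, ← add_assoc] at e1
      unfold eta at e2
      omega
  · have e1 := (hc 0).even (j := 0 + q) (by omega) (by omega)
    have e2 := hfw 0
    rw [add_assoc, hI] at e1
    omega

end Sys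

end Crest.Agent.R287
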