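import Crest.Agent.R287.Orbit

/-!
Row 287: the periodic word of a cycle.  In the coordinates of `i`, the overlap of `st i` with its
successor occupies `[0, ov i)`, `st i` occupies `[ov i - |st i|, ov i)` and `st (nx i)` occupies
`[0, |st (nx i)|)`.
-/

set_option autoImplicit false

namespace Crest.Agent.R287

/-- one period, starting right after the end of `st i` -/
def uw (I : List Str) (sg : List ℕ) (i : ℕ) : Str :=
  (orb I sg i).flatMap (fun j => (st I (nx sg j)).drop (ov I sg j))

def X (I : List Str) (sg : List ℕ) (i : ℕ) (t : ℤ) : Option ℕ :=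
  (uw I sg i)[((t - ov I sg i) % wo I sg i).toNat]?

/-- the window `[a, b)` of `X i` is a vertex of the staircase -/
def Vtx (I : List Str) (sg : List ℕ) (i : ℕ) (a b : ℤ) : Prop :=
  ∃ q ∈ Wl I sg i, (q.length : ℤ) = b - a ∧ ∀ t : ℕ, t < q.length → q[t]? = X I sg i (a + t)

/-- overlap of the tail of `i` with the head of `j` -/
def Yo (I : List Str) (sg : List ℕ) (i j : ℕ) : ℕ := ovp (st I i) (st I (nx sg j))

variable {I : List Str} {sg : List ℕ}

/-- `q` is written at position `a` of `f` -/
def CylAt (f : ℤ → Option ℕ) (q : Str) (a : ℤ) : Prop :=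
  ∀ t : ℕ, t < q.length → q[t]? = f (a + t)

theorem CylAt.take {f : ℤ → Option ℕ} {q : Str} {a : ℤ} (h : CylAt f q a) (k : ℕ) :
    CylAt f (q.take k) a := by
  intro t ht
  rw [List.length_take] at ht
  rw [List.getElem?_take_of_lt (by omega)]
  exact h t (by omega)

theorem CylAt.drop {f : ℤ → Option ℕ} {q : Str} {a : ℤ} (h : CylAt f q a) (k : ℕ) :
    CylAt f (q.drop k) (a + k) := by
  intro t ht
  rw [List.length_drop] at ht
  rw [List.getElem?_drop, h (k + t) (by omega)]
  congr 1
  push_cast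
  ring

theorem CylAt.eq {f : ℤ → Option ℕ} {q r : Str} {a : ℤ} (hq : CylAt f q a) (hr : CylAt f r a)
    (hl : q.length = r.length) : q = r := by
  refine List.ext_getElem? fun t => ?_
  by_cases ht : t < q.length
  · rw [hq t ht, hr t (hl ▸ ht)]
  · rw [List.getElem?_eq_none (by omega), List.getElem?_eq_none (by omega)]

theorem CylAt.suffix {f : ℤ → Option ℕ} {q r : Str} {a a' : ℤ} (hq : CylAt f q a)
    (hr : CylAt f r a') (h1 : a ≤ a') (h2 : a' + r.length = a + q.length) : r <:+ q := by
  obtain ⟨k, rfl⟩ : ∃ k : ℕ, a' = a + k := ⟨(a' - a).toNat, by omega⟩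
  rw [hr.eq (hq.drop k) (by rw [List.length_drop]; omega)]
  exact List.drop_suffix _ _

theorem CylAt.infix {f : ℤ → Option ℕ} {q r : Str} {a a' : ℤ} (hq : CylAt f q a)
    (hr : CylAt f r a') (h1 : a ≤ a') (h2 : a' + r.length ≤ a + q.length) : r <:+: q := by
  obtain ⟨k, hk⟩ : ∃ k : ℕ, a' + r.length = a + k := ⟨(a' + r.length - a).toNat, by omega⟩
  refine ((hq.take k).suffix hr h1 ?_).isInfix.trans (List.take_prefix _ _).isInfix
  rw [List.length_take]
  omega

theorem CylAt.take_suffix {f : ℤ → Option ℕ} {q r : Str} {a a' : ℤ} (hq : CylAt f q a)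
    (hr : CylAt f r a') (h1 : a ≤ a') {k : ℕ} (hk : k ≤ r.length) (h2 : a' + k = a + q.length) :
    r.take k <:+ q := by
  refine hq.suffix (hr.take k) h1 ?_
  rw [List.length_take]
  omega

theorem CylAt.shift {f g : ℤ → Option ℕ} {q : Str} {a c : ℤ} (hq : CylAt g q a)
    (hc : ∀ t, g (t - c) = f t) : CylAt f q (c + a) := by
  intro t ht
  rw [hq t ht, ← hc]
  congr 1
  ring

theorem cyl_per_ext {β : Type*} {f g : ℤ → β} {p : ℤ} (hp : 0 < p) (hf : Function.Periodic f p)
    (hg : Function.Periodic g p) (a : ℤ) (h : ∀ t, a ≤ t → t < a + p → f t = g t) (t : ℤ) :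
    f t = g t := by
  have h1 := Int.emod_nonneg (t - a) hp.ne'
  have h2 := Int.emod_lt_of_pos (t - a) hp
  have h3 : t = a + (t - a) % p + ((t - a) / p) * p := by
    have := Int.emod_add_mul_ediv (t - a) p
    linarith
  rw [h3]
  exact ((hf.int_mul _) _).trans ((h _ (by omega) (by omega)).trans ((hg.int_mul _) _).symm)

/-- Fine–Wilf -/
theorem cyl_fw {β : Type*} {f g : ℤ → β} {p q : ℤ} (hp : 0 < p) (hq : 0 < q)
    (hf : Function.Periodic f p) (hg : Function.Periodic g q) (a : ℤ)
    (h : ∀ t, a ≤ t → t < a + p + q → f t = g t) (t : ℤ) : f t = g t := by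
  let H : ℤ → β := fun t => f (a + (t - a) % (p + q))
  have hH0 : ∀ t, a ≤ t → t < a + p + q → H t = f t := by
    intro t h1 h2
    simp only [H]
    rw [Int.emod_eq_of_lt (by omega) (by omega)]
    congr 1
    ring
  have hHpq : Function.Periodic H (p + q) := by
    intro t
    simp only [H]
    rw [show t + (p + q) - a = t - a + (p + q) by ring, Int.add_emod_right]
  have hHp : Function.Periodic H p := by
    refine cyl_per_ext (f := fun t => H (t + p)) (g := H) (p := p + q) (by omega)
      (fun t => ?_) hHpq a fun t h1 h2 => ?_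
    · show H (t + (p + q) + p) = H (t + p)
      rw [show t + (p + q) + p = t + p + (p + q) by ring, hHpq]
    · show H (t + p) = H t
      by_cases h3 : t < a + q
      · rw [hH0 _ (by omega) (by omega), hH0 _ h1 (by omega), hf]
      · rw [show t + p = t - q + (p + q) by ring, hHpq, hH0 _ (by omega) (by omega),
          hH0 _ h1 (by omega), h _ (by omega) (by omega), h _ h1 (by omega), hg.sub_eq]
  have hHq : Function.Periodic H q := by
    intro t
    rw [← hHp, show t + q + p = t + (p + q) by ring, hHpq]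
  rw [cyl_per_ext hp hf hHp a (fun t h1 h2 => (hH0 t h1 (by omega)).symm) t]
  exact cyl_per_ext hq hHq hg a
    (fun t h1 h2 => (hH0 t h1 (by omega)).trans (h t h1 (by omega))) t

theorem cyl_uw_length (I : List Str) (sg : List ℕ) (i : ℕ) : (uw I sg i).length = wo I sg i := by
  simp only [uw, wo, List.length_flatMap, List.length_drop]
  rfl

theorem cyl_wo_pos (h : Good I sg) {i : ℕ} (hi : i < I.length) (h0 : i ≠ 0) : 0 < wo I sg i :=
  (ext_pos h hi h0).trans_le (ext_le_wo I sg i)

theorem cyl_ov_le (I : List Str) (sg : List ℕ) (i : ℕ) : ov I sg i ≤ (st I (nx sg i)).length :=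
  ovp_le _ _

theorem cyl_ov_ext (I : List Str) (sg : List ℕ) (i : ℕ) :
    ov I sg i + ext I sg i = (st I (nx sg i)).length := by
  have := cyl_ov_le I sg i
  unfold ext
  omega

theorem cyl_uw_nx (h : Good I sg) {i : ℕ} (hi : i < I.length) :
    uw I sg (nx sg i) = (uw I sg i).rotate (ext I sg i) := by
  obtain ⟨l, hl⟩ : ∃ l, orb I sg i = i :: l := by
    unfold orb per
    rw [List.range_succ_eq_map, List.map_cons]
    exact ⟨_, rfl⟩
  unfold uw
  rw [orb_nx h hi, hl, List.rotate_cons_succ, List.rotate_zero, List.flatMap_append,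
    List.flatMap_cons, List.flatMap_cons, List.flatMap_nil, List.append_nil]
  have : ext I sg i = ((st I (nx sg i)).drop (ov I sg i)).length := by
    rw [List.length_drop]
    rfl
  rw [this, List.rotate_append_length_eq]

theorem cyl_suffix_aux (I : List Str) (sg : List ℕ) (i k : ℕ) :
    st I ((nx sg)^[k] i) <:+ st I i ++ ((List.range k).map fun k => (nx sg)^[k] i).flatMap
      (fun j => (st I (nx sg j)).drop (ov I sg j)) := by
  induction k with
  | zero => simp
  | succ k ih =>
    rw [List.range_succ, List.map_append, List.flatMap_append, ← List.append_assoc,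
      Function.iterate_succ_apply']
    obtain ⟨u, hu⟩ := (ovp_suffix (st I ((nx sg)^[k] i)) (st I (nx sg ((nx sg)^[k] i)))).trans ih
    refine ⟨u, ?_⟩
    rw [← hu]
    simp only [List.map_cons, List.map_nil, List.flatMap_cons, List.flatMap_nil, List.append_nil,
      List.append_assoc]
    congr 1
    exact (List.take_append_drop _ _).symm

theorem cyl_wo_eq (I : List Str) (sg : List ℕ) (i : ℕ) :
    wo I sg i = ∑ l ∈ Finset.range (per I sg i), ext I sg ((nx sg)^[l] i) := by
  unfold wo orb
  generalize per I sg i = k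
  induction k with
  | zero => simp
  | succ k ih =>
    rw [List.range_succ, List.map_append, List.map_append, List.sum_append, ih,
      Finset.sum_range_succ]
    simp

theorem cyl_wo_dvd (h : Good I sg) {i : ℕ} (hi : i < I.length) {k : ℕ}
    (hk : (nx sg)^[k] i = i) : wo I sg i ∣ ∑ l ∈ Finset.range k, ext I sg ((nx sg)^[l] i) := by
  obtain ⟨m, rfl⟩ : per I sg i ∣ k := by
    rw [per_eq h hi]
    exact Function.IsPeriodicPt.minimalPeriod_dvd hk
  clear hk
  induction m with
  | zero => simp
  | succ m ih =>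
    rw [Nat.mul_succ, add_comm, Finset.sum_range_add, ← cyl_wo_eq]
    refine Nat.dvd_add dvd_rfl ?_
    convert ih using 2 with l
    rw [add_comm, Function.iterate_add_apply, iter_per h hi]

theorem X_per (I : List Str) (sg : List ℕ) (i : ℕ) (t : ℤ) :
    X I sg i (t + wo I sg i) = X I sg i t := by
  unfold X
  rw [show t + wo I sg i - ov I sg i = t - ov I sg i + wo I sg i by ring, Int.add_emod_right]

theorem X_zero (h : Good I sg) (t : ℤ) : X I sg 0 t = none := by
  unfold X
  rw [List.getElem?_eq_none]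
  rw [cyl_uw_length, wo_zero h]
  exact Nat.zero_le _

theorem X_isSome (h : Good I sg) {i : ℕ} (hi : i < I.length) (h0 : i ≠ 0) (t : ℤ) :
    X I sg i t ≠ none := by
  unfold X
  have h1 := cyl_wo_pos h hi h0
  have h2 := Int.emod_lt_of_pos (t - ov I sg i) (show (0 : ℤ) < wo I sg i by omega)
  rw [Ne, List.getElem?_eq_none_iff, cyl_uw_length]
  omega

theorem X_nx (h : Good I sg) {i : ℕ} (hi : i < I.length) (t : ℤ) :
    X I sg (nx sg i) t = X I sg i (t + (st I (nx sg i)).length - ov I sg (nx sg i)) := by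
  by_cases h0 : i = 0
  · subst h0
    rw [h.nx0, X_zero h, X_zero h]
  have h1 := cyl_wo_pos h hi h0
  have h1' : (0 : ℤ) < wo I sg i := by omega
  unfold X
  rw [wo_congr (j := nx sg i) h hi ((mem_orb h hi).2 ⟨1, rfl⟩), cyl_uw_nx h hi]
  have h2 := Int.emod_lt_of_pos (t - ov I sg (nx sg i)) h1'
  have h3 := Int.emod_nonneg (t - ov I sg (nx sg i)) h1'.ne'
  rw [List.getElem?_rotate (by rw [cyl_uw_length]; omega), cyl_uw_length]
  congr 1
  have h4 := cyl_ov_ext I sg i
  have h5 := Int.emod_nonneg
    (t + (st I (nx sg i)).length - ov I sg (nx sg i) - ov I sg i) h1'.ne'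
  zify
  rw [Int.toNat_of_nonneg h3, Int.toNat_of_nonneg h5, Int.emod_add_emod]
  congr 1
  omega

theorem X_tail (h : Good I sg) {i : ℕ} (hi : i < I.length) (t : ℕ) (ht : t < (st I i).length) :
    X I sg i ((ov I sg i : ℤ) - (st I i).length + t) = (st I i)[t]? := by
  have h0 : i ≠ 0 := by
    rintro rfl
    rw [h.zero] at ht
    simp at ht
  have h1 := cyl_wo_pos h hi h0
  have h2 : st I i <:+ st I i ++ uw I sg i := by
    have := cyl_suffix_aux I sg i (per I sg i)
    rwa [iter_per h hi] at this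
  obtain ⟨v, hv⟩ := h2
  have h3 : v.length = wo I sg i := by
    have := congrArg List.length hv
    rw [List.length_append, List.length_append, cyl_uw_length] at this
    omega
  have h4 : ∀ t : ℕ, (st I i)[t]? = (st I i ++ uw I sg i)[t + wo I sg i]? := by
    intro t
    rw [← hv, List.getElem?_append_right (by omega), h3, Nat.add_sub_cancel]
  induction hn : (st I i).length - t using Nat.strong_induction_on generalizing t with
  | _ n ih =>
    rw [h4, ← X_per]
    by_cases h5 : t + wo I sg i < (st I i).length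
    · rw [List.getElem?_append_left h5, ← ih _ (by omega) _ h5 rfl]
      congr 1
      push_cast
      ring
    · rw [List.getElem?_append_right (by omega)]
      unfold X
      rw [Int.emod_eq_of_lt (by omega) (by omega)]
      congr 1
      omega

theorem X_head (h : Good I sg) {i : ℕ} (hi : i < I.length) (t : ℕ)
    (ht : t < (st I (nx sg i)).length) : X I sg i t = (st I (nx sg i))[t]? := by
  rw [← X_tail h (h.lt i hi) t ht, X_nx h hi]
  congr 1
  ring

theorem cyl_tail (h : Good I sg) {i : ℕ} (hi : i < I.length) :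
    CylAt (X I sg i) (st I i) ((ov I sg i : ℤ) - (st I i).length) :=
  fun t ht => (X_tail h hi t ht).symm

theorem cyl_head (h : Good I sg) {i : ℕ} (hi : i < I.length) :
    CylAt (X I sg i) (st I (nx sg i)) 0 :=
  fun t ht => by rw [zero_add, X_head h hi t ht]

theorem cyl_ne_zero (h : Good I sg) {i j : ℕ} (hi : i < I.length) (h0 : i ≠ 0) {c : ℤ}
    (hc : ∀ t, X I sg j (t - c) = X I sg i t) : j ≠ 0 := by
  rintro rfl
  exact X_isSome h hi h0 0 ((hc 0).symm.trans (X_zero h _))

theorem cyl_eq_of_end (h : Good I sg) {i j : ℕ} (hi : i < I.length) (hj : j < I.length)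
    (h0 : i ≠ 0) {c : ℤ} (hc : ∀ t, X I sg j (t - c) = X I sg i t)
    (he : c + ov I sg j = ov I sg i) : j = i := by
  have hj0 := cyl_ne_zero h hi h0 hc
  have h1 := cyl_tail h hi
  have h2 := (cyl_tail h hj).shift hc
  rcases le_total (st I i).length (st I j).length with h3 | h3
  · exact (h.free _ _ (Nat.pos_of_ne_zero h0) hi hj (h2.infix h1 (by omega) (by omega))).symm
  · exact h.free _ _ (Nat.pos_of_ne_zero hj0) hj hi (h1.infix h2 (by omega) (by omega))

theorem X_same (h : Good I sg) {i j : ℕ} (hi : i < I.length) (hj : j ∈ orb I sg i) :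
    ∃ δ : ℤ, ∀ t, X I sg j t = X I sg i (t + δ) := by
  obtain ⟨k, rfl⟩ := (mem_orb h hi).1 hj
  clear hj
  induction k with
  | zero => exact ⟨0, fun t => by simp⟩
  | succ k ih =>
    obtain ⟨δ, hδ⟩ := ih
    rw [Function.iterate_succ_apply']
    refine ⟨(st I (nx sg ((nx sg)^[k] i))).length - ov I sg (nx sg ((nx sg)^[k] i)) + δ,
      fun t => ?_⟩
    rw [X_nx h (iter_lt h hi k), hδ]
    congr 1
    ring

theorem Yo_agree (h : Good I sg) {i j : ℕ} (hi : i < I.length) (hj : j < I.length) (t : ℤ)
    (h0 : 0 ≤ t) (h1 : t < Yo I sg i j) :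
    X I sg i ((ov I sg i : ℤ) - Yo I sg i j + t) = X I sg j t := by
  obtain ⟨t, rfl⟩ := Int.eq_ofNat_of_zero_le h0
  have h2 : Yo I sg i j ≤ (st I (nx sg j)).length := ovp_le _ _
  have h3 : Yo I sg i j ≤ (st I i).length := ovp_le_left _ _
  obtain ⟨v, hv⟩ : (st I (nx sg j)).take (Yo I sg i j) <:+ st I i := ovp_suffix _ _
  have h4 : v.length + Yo I sg i j = (st I i).length := by
    rw [← hv, List.length_append, List.length_take]
    omega
  rw [X_head h hj t (by omega)]
  have h5 := X_tail h hi (v.length + t) (by omega)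
  rw [show (ov I sg i : ℤ) - Yo I sg i j + t
    = (ov I sg i : ℤ) - (st I i).length + (v.length + t : ℕ) by omega, h5, ← hv,
    List.getElem?_append_right (by omega), Nat.add_sub_cancel_left,
    List.getElem?_take_of_lt (by omega)]

theorem Yo_max (h : Good I sg) {i j : ℕ} (hi : i < I.length) (hj : j < I.length) (a b : ℕ) (D : ℤ)
    (h1 : D ≤ Yo I sg i a) (h2 : D ≤ Yo I sg b j)
    (h3 : ∀ t : ℤ, 0 ≤ t → t < D → X I sg i ((ov I sg i : ℤ) - D + t) = X I sg j t) :
    D ≤ Yo I sg i j := by
  by_cases hD : D ≤ 0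
  · omega
  obtain ⟨D, rfl⟩ := Int.eq_ofNat_of_zero_le (show 0 ≤ D by omega)
  have h4 : Yo I sg i a ≤ (st I i).length := ovp_le_left _ _
  have h5 : Yo I sg b j = 0 ∨ Yo I sg b j < (st I (nx sg j)).length := (ovp_spec _ _).1
  have h6 : CylAt (X I sg i) ((st I (nx sg j)).take D) (ov I sg i - D) := by
    intro t ht
    rw [List.length_take] at ht
    rw [h3 t (by omega) (by omega), X_head h hj t (by omega), List.getElem?_take_of_lt (by omega)]
  have h7 := (cyl_tail h hi).suffix h6 (by omega) (by rw [List.length_take]; omega)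
  exact_mod_cast le_ovp (by omega) h7

/-- If `X j` is `X i` moved by `c`, the end of `st j` is not strictly between the end of `st i` and the
end of its successor.  (Strong induction on `c + ov j - ov i`, pass to the predecessor of `j`, use
`Good.p2` and `Good.free`.) -/
theorem no_between (h : Good I sg) {i j : ℕ} (hi : i < I.length) (hj : j < I.length) (h0 : i ≠ 0)
    (c : ℤ) (hc : ∀ t, X I sg j (t - c) = X I sg i t) :
    ¬ ((ov I sg i : ℤ) < c + ov I sg j ∧ c + ov I sg j < (st I (nx sg i)).length) := by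
  rintro ⟨h1, h2⟩
  induction hn : (c + ov I sg j - ov I sg i).toNat using Nat.strong_induction_on
    generalizing j c with
  | _ n ih =>
    have hj0 := cyl_ne_zero h hi h0 hc
    obtain ⟨p, hp, rfl⟩ := nx_surj h hj
    have hp0 : p ≠ 0 := fun e => hj0 (by rw [e, h.nx0])
    have hcp : ∀ t, X I sg p (t - (c + ov I sg (nx sg p) - (st I (nx sg p)).length))
        = X I sg i t := by
      intro t
      rw [← hc, X_nx h hp]
      congr 1
      ring
    have h3 := ext_pos h hp hp0
    have h4 := cyl_ov_ext I sg p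
    set cp := c + ov I sg (nx sg p) - (st I (nx sg p)).length with hcp'
    have hA := (cyl_head h hp).shift hcp
    rcases lt_trichotomy (cp + ov I sg p) (ov I sg i) with h5 | h5 | h5
    · have h6 : cp < 0 := by
        by_contra h6
        have h7 := h.free _ _ (Nat.pos_of_ne_zero hj0) hj (h.lt i hi)
          ((cyl_head h hi).infix hA (by omega) (by omega))
        rw [← h7] at h2
        omega
      have h7 : (ov I sg i : ℤ) - (st I i).length ≤ cp := by
        by_contra h7
        have h8 := h.free _ _ (Nat.pos_of_ne_zero h0) hi hj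
          (hA.infix (cyl_tail h hi) (by omega) (by omega))
        have h9 : (st I i).length = (st I (nx sg p)).length := by rw [← h8]
        omega
      obtain ⟨D, hD⟩ : ∃ D : ℕ, (D : ℤ) = ov I sg i - cp := ⟨(ov I sg i - cp).toNat, by omega⟩
      have h8 := le_ovp (show D < (st I (nx sg p)).length by omega)
        ((cyl_tail h hi).take_suffix hA (by omega) (by omega) (by omega))
      have h9 := h.p2 i p hi hp
      omega
    · have h6 := cyl_eq_of_end h hi hp h0 hcp h5
      subst h6
      omega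
    · exact ih _ (by omega) hp cp hcp h5 (by omega) rfl

/-- all placements lie on one chain -/
theorem placement (h : Good I sg) {i j : ℕ} (hi : i < I.length) (hj : j < I.length) (h0 : i ≠ 0)
    (c : ℤ) (hc : ∀ t, X I sg j (t - c) = X I sg i t) :
    j ∈ orb I sg i ∧ (j = i → (wo I sg i : ℤ) ∣ c) := by
  have hw := cyl_wo_pos h hi h0
  have key : ∀ (n i : ℕ) (c : ℤ), i < I.length → i ≠ 0 → (∀ t, X I sg j (t - c) = X I sg i t) →
      c + ov I sg j - ov I sg i = n → ∃ k, (nx sg)^[k] i = j ∧
        n = ∑ l ∈ Finset.range k, ext I sg ((nx sg)^[l] i) := by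
    intro n
    induction n using Nat.strong_induction_on with
    | _ n ih =>
      intro i c hi h0 hc hn
      by_cases h1 : n = 0
      · exact ⟨0, (cyl_eq_of_end h hi hj h0 hc (by omega)).symm, by simpa using h1⟩
      have h2 := no_between h hi hj h0 c hc
      have h3 := ext_pos h hi h0
      have h4 := cyl_ov_ext I sg i
      obtain ⟨k, hk, hk'⟩ := ih (n - ext I sg i) (by omega) (nx sg i)
        (c - (st I (nx sg i)).length + ov I sg (nx sg i)) (h.lt i hi) (nx_ne_zero h hi h0)
        (fun t => by rw [X_nx h hi, ← hc]; congr 1; ring) (by omega)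
      refine ⟨k + 1, hk, ?_⟩
      rw [Finset.sum_range_succ']
      simp only [Function.iterate_succ_apply, Function.iterate_zero_apply]
      omega
  have hper : Function.Periodic (X I sg i) (wo I sg i) := X_per I sg i
  set m := |c + ov I sg j - ov I sg i| with hm
  have hm0 : 0 ≤ c + m * wo I sg i + ov I sg j - ov I sg i := by
    have h1 := neg_abs_le (c + ov I sg j - ov I sg i)
    have h2 : 0 ≤ m := abs_nonneg _
    have h3 : (1 : ℤ) ≤ wo I sg i := by omega
    nlinarith
  obtain ⟨k, hk, hk'⟩ := key (c + m * wo I sg i + ov I sg j - ov I sg i).toNat i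
    (c + m * wo I sg i) hi h0
    (fun t => by
      rw [← hper.sub_int_mul_eq m, ← hc]
      congr 1
      push_cast
      ring) (by omega)
  refine ⟨(mem_orb h hi).2 ⟨k, hk⟩, fun e => ?_⟩
  subst e
  have h1 := cyl_wo_dvd h hi hk
  rw [← hk', ← Int.natCast_dvd_natCast, Int.toNat_of_nonneg hm0, add_sub_cancel_right] at h1
  exact (dvd_add_left (dvd_mul_left _ _)).1 h1

theorem X_FW (h : Good I sg) {i j : ℕ} (hi : i < I.length) (hj : j < I.length)
    (hij : j ∉ orb I sg i) (a s : ℤ) :
    ¬ ∀ t, a ≤ t → t < a + wo I sg i + wo I sg j → X I sg i t = X I sg j (t + s) := by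
  intro hag
  have hij' : j ≠ i := fun e => hij (e ▸ self_mem_orb I sg _)
  by_cases h0 : i = 0
  · subst h0
    have := cyl_wo_pos h hj hij'
    exact X_isSome h hj hij' _ ((hag a le_rfl (by omega)).symm.trans (X_zero h _))
  have h1 := cyl_wo_pos h hi h0
  by_cases h0' : j = 0
  · subst h0'
    exact X_isSome h hi h0 _ ((hag a le_rfl (by omega)).trans (X_zero h _))
  have h2 := cyl_wo_pos h hj h0'
  have h3 := cyl_fw (f := X I sg i) (g := fun t => X I sg j (t + s)) (p := wo I sg i)
    (q := wo I sg j) (by omega) (by omega) (X_per I sg i)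
    (fun t => by
      show X I sg j (t + wo I sg j + s) = X I sg j (t + s)
      rw [add_right_comm, X_per]) a hag
  exact hij (placement h hi hj h0 (-s) fun t => by rw [h3, sub_neg_eq_add]).1

theorem X_rigid (h : Good I sg) {i : ℕ} (hi : i < I.length) (h0 : i ≠ 0) (δ : ℤ)
    (hδ : ∀ t, X I sg i (t + δ) = X I sg i t) : (wo I sg i : ℤ) ∣ δ := by
  exact (dvd_neg.1 ((placement h hi hi h0 (-δ) fun t => by rw [sub_neg_eq_add, hδ]).2 rfl))

theorem Yo_intra (h : Good I sg) {i j : ℕ} (hi : i < I.length) (hj : j ∈ orb I sg i)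
    (h1 : wo I sg i < ov I sg i) (h2 : wo I sg i < ov I sg j) :
    Yo I sg i j ≤ ov I sg i ∧ Yo I sg i j ≤ ov I sg j := by
  have h0 : i ≠ 0 := by
    rintro rfl
    rw [ov_zero h] at h1
    omega
  have hj' := orb_lt h hi hj
  have hj0 := ne_zero_of_mem_orb h hi h0 hj
  have hw := cyl_wo_pos h hi h0
  have hY : Yo I sg i j < (st I (nx sg j)).length :=
    ovp_lt _ (h.ne_nil _ (Nat.pos_of_ne_zero (nx_ne_zero h hj' hj0)) (h.lt j hj'))
  by_contra hne
  have h3 : wo I sg i < Yo I sg i j := by omega
  have h4 : ∀ t, X I sg i (t - (Yo I sg i j - ov I sg i)) = X I sg j t := by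
    refine cyl_per_ext (p := wo I sg i) (by omega) (fun t => ?_) ?_ 0 fun t ht ht' => ?_
    · show X I sg i (t + wo I sg i - _) = X I sg i (t - _)
      rw [add_sub_right_comm, X_per]
    · rw [← wo_congr h hi hj]
      exact X_per I sg j
    · rw [← Yo_agree h hi hj' t ht (by omega)]
      congr 1
      ring
  by_cases h5 : ov I sg j < Yo I sg i j
  · exact no_between h hj' hi hj0 _ h4 ⟨by omega, by omega⟩
  have h6 : ∀ t, X I sg j (t - (ov I sg i - Yo I sg i j)) = X I sg i t := by
    intro t
    rw [← h4]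
    congr 1
    ring
  have h7 := no_between h hi (h.lt j hj') h0
    (ov I sg i - Yo I sg i j + (st I (nx sg j)).length - ov I sg (nx sg j)) fun t => by
      rw [X_nx h hj', ← h6]
      congr 1
      ring
  have h8 := h.free _ _ (Nat.pos_of_ne_zero (nx_ne_zero h hi h0)) (h.lt i hi) (h.lt j hj')
    (((cyl_head h hj').shift h6).infix (cyl_head h hi) (by omega) (by omega))
  rw [h8] at h7
  omega

theorem Yo_lt (h : Good I sg) (b : ℕ) {i : ℕ} (hi : i < I.length) (h0 : i ≠ 0) :
    Yo I sg b i < ov I sg i + wo I sg i := by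
  have hY : Yo I sg b i < (st I (nx sg i)).length :=
    ovp_lt _ (h.ne_nil _ (Nat.pos_of_ne_zero (nx_ne_zero h hi h0)) (h.lt i hi))
  have h1 := cyl_ov_ext I sg i
  have h2 := ext_le_wo I sg i
  omega

theorem vtx_val (h : Good I sg) {i : ℕ} (hi : i < I.length) : Vtx I sg i 0 (ov I sg i) := by
  have h1 := cyl_ov_le I sg i
  exact ⟨_, take_mem_Wl I sg i _ le_rfl (Or.inl rfl), by rw [List.length_take]; omega,
    (cyl_head h hi).take _⟩

theorem vtx_pre (h : Good I sg) (b : ℕ) {i : ℕ} (hi : i < I.length)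
    (h1 : ov I sg i ≤ Yo I sg b i) : Vtx I sg i 0 (Yo I sg b i) := by
  have h2 : Yo I sg b i = 0 ∨ Yo I sg b i < (st I (nx sg i)).length := (ovp_spec _ _).1
  exact ⟨_, take_mem_Wl I sg i _ h1 (by omega), by rw [List.length_take]; omega,
    (cyl_head h hi).take _⟩

theorem vtx_suf (h : Good I sg) (b : ℕ) {i : ℕ} (hi : i < I.length)
    (h1 : ov I sg i ≤ Yo I sg i b) :
    Vtx I sg i ((ov I sg i : ℤ) - Yo I sg i b) (ov I sg i) := by
  have h2 : Yo I sg i b ≤ (st I i).length := ovp_le_left _ _
  refine ⟨_, drop_mem_Wl I sg i ((st I i).length - Yo I sg i b) (by omega),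
    by rw [List.length_drop]; omega, ?_⟩
  have h3 := (cyl_tail h hi).drop ((st I i).length - Yo I sg i b)
  rwa [show (ov I sg i : ℤ) - (st I i).length + ((st I i).length - Yo I sg i b : ℕ)
    = (ov I sg i : ℤ) - Yo I sg i b by omega] at h3

/-- window lemma -/
theorem dist_le_window {q r : Str} {f g : ℤ → Option ℕ} {a b a' b' : ℤ}
    (hq : (q.length : ℤ) = b - a) (hq' : ∀ t : ℕ, t < q.length → q[t]? = f (a + t))
    (hr : (r.length : ℤ) = b' - a') (hr' : ∀ t : ℕ, t < r.length → r[t]? = g (a' + t))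
    (ha : a ≤ a') (hb : b ≤ b') (hfg : ∀ t, a' ≤ t → t < b → f t = g t) :
    (dist q r : ℤ) ≤ b' - b := by
  by_cases h1 : b ≤ a'
  · have := dist_le q r
    omega
  obtain ⟨k, hk⟩ : ∃ k : ℕ, (k : ℤ) = b - a' := ⟨(b - a').toNat, by omega⟩
  have h2 : CylAt f (r.take k) a' := by
    intro t ht
    rw [List.length_take] at ht
    rw [hfg _ (by omega) (by omega), List.getElem?_take_of_lt (by omega), hr' t (by omega)]
  have h3 := dist_le_of_take (show k ≤ r.length by omega)
    (CylAt.suffix hq' h2 ha (by rw [List.length_take]; omega))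
  omega

theorem Pc_le_window {i j : ℕ} {a b a' b' s : ℤ} (h1 : Vtx I sg i a b) (h2 : Vtx I sg j a' b')
    (ha : a ≤ a' + s) (hb : b ≤ b' + s)
    (hag : ∀ t, a' + s ≤ t → t < b → X I sg i t = X I sg j (t - s)) :
    (Pc I sg i j : ℤ) ≤ b' + s - a := by
  obtain ⟨q, hq, hq1, hq2⟩ := h1
  obtain ⟨r, hr, hr1, hr2⟩ := h2
  have h3 := dist_le_window (g := fun t => X I sg j (t - s)) (a' := a' + s) (b' := b' + s) hq1 hq2
    (r := r) (by omega) (fun t ht => by rw [hr2 t ht]; congr 1; ring) ha hb hag
  have h4 := P1_le I sg hq hr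
  have h5 : Pc I sg i j ≤ P1 I sg i j := min_le_left _ _
  omega

theorem Lc_le_window {i j : ℕ} {a b a' b' s δ : ℤ} (h1 : Vtx I sg i a b) (h2 : Vtx I sg j a' b')
    (hδ : (wo I sg i : ℤ) ∣ δ) (ha : a ≤ a' + s) (hb : b ≤ b' + s) (ha' : a' + s ≤ a + δ)
    (hb' : b' + s ≤ b + δ) (hag : ∀ t, a' + s ≤ t → t < b → X I sg i t = X I sg j (t - s))
    (hag' : ∀ t, a + δ ≤ t → t < b' + s → X I sg i t = X I sg j (t - s)) :
    (Lc I sg i j : ℤ) ≤ δ := by
  obtain ⟨q, hq, hq1, hq2⟩ := h1
  obtain ⟨r, hr, hr1, hr2⟩ := h2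
  have hr3 : ∀ t : ℕ, t < r.length → r[t]? = (fun t => X I sg j (t - s)) (a' + s + t) :=
    fun t ht => by rw [hr2 t ht]; congr 1; ring
  have h3 := dist_le_window (a' := a' + s) (b' := b' + s) hq1 hq2 (by omega) hr3 ha hb hag
  have hper : Function.Periodic (X I sg i) (wo I sg i) := X_per I sg i
  obtain ⟨m, rfl⟩ := hδ
  have h4 := dist_le_window (g := X I sg i) (a := a' + s) (b := b' + s) (a' := a + wo I sg i * m)
    (b' := b + wo I sg i * m) (r := q) (by omega) hr3 (by omega)
    (fun t ht => by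
      rw [hq2 t ht, ← hper.int_mul m]
      congr 1
      push_cast
      ring) ha' hb' (fun t h1 h2 => (hag' t h1 h2).symm)
  have h5 := Lc_le I sg hq hr
  omega

end Crest.Agent.R287
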