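import Crest.Agent.Lib.Matching.MaxWeight

/-!
Row 287 (shortest common superstring, factor 2): the algorithm.

`I` is the list of strings, `I[0] = []` is a dummy; `sg` is the greedy cycle cover (a permutation of
`range I.length` fixing `0`).
-/

set_option autoImplicit false

namespace Crest.Agent.R287

abbrev Str := List ℕ

/-- largest `k ≤ |t|` such that the prefix of `t` of length `k` is a suffix of `s` -/
def ovf (s t : Str) : ℕ :=
  ((List.range (t.length + 1)).filter (fun k => decide (t.take k <:+ s))).foldr max 0

/-- largest `k < |t|` such that the prefix of `t` of length `k` is a suffix of `s` (`0` if `t = []`) -/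
def ovp (s t : Str) : ℕ :=
  ((List.range t.length).filter (fun k => decide (t.take k <:+ s))).foldr max 0

/-- number of letters to append to a text ending in `x` to get a text ending in `y` -/
def dist (x y : Str) : ℕ := y.length - ovf x y

/-- cost of a walk -/
def cost (l : List Str) : ℕ := (List.zipWith dist l l.tail).sum

/-- the text spelled by a walk starting at `[]` -/
def spell (l : List Str) : Str := (List.zipWith (fun x y => y.drop (ovf x y)) l l.tail).flatten

/-- remove duplicates, the empty string and proper infixes -/
def prep (S : List Str) : List Str :=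
  S.dedup.filter (fun s => decide (s ≠ [] ∧ ∀ t ∈ S, s <:+: t → s = t))

def inst (S : List Str) : List Str := [] :: prep S

def st (I : List Str) (i : ℕ) : Str := I.getD i []

/-- all pairs of indices -/
def pairs (I : List Str) : List (ℕ × ℕ) := (List.range I.length).product (List.range I.length)

def gpairs (I : List Str) : List (ℕ × ℕ) :=
  (pairs I).insertionSort (fun p q => ovp (st I q.1) (st I q.2) ≤ ovp (st I p.1) (st I p.2))

def gstep (A : List (ℕ × ℕ)) (p : ℕ × ℕ) : List (ℕ × ℕ) :=
  if A.any (fun q => q.1 == p.1 || q.2 == p.2) then A else p :: A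

def gassign (I : List Str) : List (ℕ × ℕ) := (gpairs I).foldl gstep [(0, 0)]

/-- greedy cycle cover -/
def greedy (I : List Str) : List ℕ :=
  (List.range I.length).map (fun i => ((gassign I).lookup i).getD 0)

def nx (sg : List ℕ) (i : ℕ) : ℕ := sg.getD i 0

section
variable (I : List Str) (sg : List ℕ)

/-- overlap of `i` with its successor -/
def ov (i : ℕ) : ℕ := ovp (st I i) (st I (nx sg i))

/-- number of new letters of the successor -/
def ext (i : ℕ) : ℕ := (st I (nx sg i)).length - ov I sg i

def per (i : ℕ) : ℕ := ((List.range I.length).find? (fun k => (nx sg)^[k + 1] i == i)).getD 0 + 1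

/-- the cycle through `i`, starting at `i` -/
def orb (i : ℕ) : List ℕ := (List.range (per I sg i)).map (fun k => (nx sg)^[k] i)

/-- weight (period) of the cycle through `i` -/
def wo (i : ℕ) : ℕ := ((orb I sg i).map (ext I sg)).sum

/-- suffixes of `st j` down to the overlap, then proper prefixes of the successor -/
def seg (j : ℕ) : List Str :=
  (List.range ((st I j).length - ov I sg j + 1)).map (fun t => (st I j).drop t) ++
    (List.range (ext I sg j - 1)).map (fun t => (st I (nx sg j)).take (ov I sg j + 1 + t))

/-- the closed staircase walk of the cycle through `i` -/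
def Wl (i : ℕ) : List Str := (orb I sg i).flatMap (seg I sg)

def Lw (i j : ℕ) : Str × Str :=
  (((Wl I sg i).product (Wl I sg j)).argmin (fun p => dist p.1 p.2 + dist p.2 p.1)).getD ([], [])

/-- cheapest round trip between the two staircases -/
def Lc (i j : ℕ) : ℕ := dist (Lw I sg i j).1 (Lw I sg i j).2 + dist (Lw I sg i j).2 (Lw I sg i j).1

def Pw (i j : ℕ) : Str × Str :=
  (((Wl I sg i).product (Wl I sg j)).argmin (fun p => p.1.length + dist p.1 p.2)).getD ([], [])

def P1 (i j : ℕ) : ℕ := (Pw I sg i j).1.length + dist (Pw I sg i j).1 (Pw I sg i j).2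

/-- cheapest path from the empty string through both staircases -/
def Pc (i j : ℕ) : ℕ := min (P1 I sg i j) (P1 I sg j i)

/-- the staircase of `i` as a closed walk from `q` to `q` -/
def loop (i : ℕ) (q : Str) : List Str :=
  (Wl I sg i).drop ((Wl I sg i).idxOf q) ++ (Wl I sg i).take ((Wl I sg i).idxOf q) ++ [q]

/-- free attachment -/
def R0 (i j : ℕ) : Bool := decide (Lc I sg i j ≤ wo I sg i)

def rstep (R : List ℕ) : List ℕ :=
  (List.range I.length).filter (fun j => R.any (fun i => R0 I sg i j))

def reach (i : ℕ) : List ℕ := (rstep I sg)^[I.length] [i]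

/-- representative of the strongly connected component -/
def grp (i : ℕ) : ℕ :=
  ((List.range I.length).find?
    (fun j => (reach I sg i).contains j && (reach I sg j).contains i)).getD i

def isSink (i : ℕ) : Bool :=
  !(reach I sg i).contains 0 && (reach I sg i).all (fun j => (reach I sg j).contains i)

/-- representatives of the sink components (the component of the dummy excluded) -/
def sinks : List ℕ := (List.range I.length).filter (fun i => grp I sg i == i && isSink I sg i)

def gamF (p : ℕ × ℕ) : ℕ :=
  max (Lc I sg p.1 p.2 - wo I sg p.1) (Pc I sg p.1 p.2 - wo I sg p.1 - wo I sg p.2)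

def gamW (K : ℕ) : ℕ × ℕ :=
  (((pairs I).filter (fun p => grp I sg p.1 == K && !(orb I sg p.1).contains p.2)).argmin
    (gamF I sg)).getD (K, 0)

/-- price of connecting the component `K` on its own -/
def gam (K : ℕ) : ℕ := gamF I sg (gamW I sg K)

def gainF (K K' : ℕ) (p : ℕ × ℕ) : ℕ :=
  gam I sg K + gam I sg K' + wo I sg p.1 + wo I sg p.2 - Pc I sg p.1 p.2

def gainW (K K' : ℕ) : ℕ × ℕ :=
  (((pairs I).filter (fun p => grp I sg p.1 == K && grp I sg p.2 == K')).argmax
    (gainF I sg K K')).getD (K, K')

/-- saving obtained by connecting `K` and `K'` together -/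
def gain (K K' : ℕ) : ℕ :=
  if (sinks I sg).contains K && (sinks I sg).contains K' && K != K' then
    gainF I sg K K' (gainW I sg K K') else 0

def gmat : List (List ℕ) :=
  (List.range I.length).map (fun u =>
    (List.range I.length).map (fun v => gain I sg (min u v) (max u v)))

/-- state: walk starting at `[]`, connected indices -/
abbrev State := List Str × List ℕ

def attach (s : State) (i j : ℕ) : State :=
  (s.1.take (s.1.idxOf (Lw I sg i j).2 + 1) ++ loop I sg i (Lw I sg i j).1 ++
    s.1.drop (s.1.idxOf (Lw I sg i j).2), s.2 ++ orb I sg i)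

def walk1 (s : State) (i j : ℕ) : State :=
  (s.1 ++ loop I sg i (Pw I sg i j).1 ++ loop I sg j (Pw I sg i j).2,
    s.2 ++ orb I sg i ++ orb I sg j)

def pwalk (s : State) (i j : ℕ) : State :=
  if P1 I sg i j ≤ P1 I sg j i then walk1 I sg s i j else walk1 I sg s j i

def pairStep (m : List ℕ) (s : State) (v : ℕ) : State :=
  if v < m.getD v 0 ∧ 0 < gain I sg v (m.getD v 0) then
    pwalk I sg s (gainW I sg v (m.getD v 0)).1 (gainW I sg v (m.getD v 0)).2 else s

def singleStep (m : List ℕ) (s : State) (K : ℕ) : State :=
  if 0 < gain I sg (min K (m.getD K 0)) (max K (m.getD K 0)) then s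
  else if s.2.contains (gamW I sg K).1 then s
  else if s.2.contains (gamW I sg K).2 then attach I sg s (gamW I sg K).1 (gamW I sg K).2
  else pwalk I sg s (gamW I sg K).1 (gamW I sg K).2

def freeStep (s : State) : State :=
  (((pairs I).find? (fun p => !s.2.contains p.1 && s.2.contains p.2 && R0 I sg p.1 p.2)).map
    (fun p => attach I sg s p.1 p.2)).getD s

def realize (m : List ℕ) : List Str :=
  ((freeStep I sg)^[I.length] ((sinks I sg).foldl (singleStep I sg m)
    ((List.range I.length).foldl (pairStep I sg m) ([[]], [0])))).1

/-- weight of a matching -/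
def hw (m : ℕ → ℕ) : ℕ := ∑ v ∈ Finset.range I.length, if v < m v then gain I sg v (m v) else 0

end

/-- the algorithm, given a maximum weight matching routine -/
def alg (mwm : List (List ℕ) → List ℕ) (S : List Str) : Str :=
  spell (realize (inst S) (greedy (inst S)) (mwm (gmat (inst S) (greedy (inst S)))))

/-- what the analysis uses about the instance and the greedy cover -/
structure Good (I : List Str) (sg : List ℕ) : Prop where
  pos : 0 < I.length
  zero : st I 0 = []
  ne_nil : ∀ i, 0 < i → i < I.length → st I i ≠ []
  free : ∀ i j, 0 < i → i < I.length → j < I.length → st I i <:+: st I j → i = j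
  lt : ∀ i, i < I.length → nx sg i < I.length
  inj : ∀ i j, i < I.length → j < I.length → nx sg i = nx sg j → i = j
  nx0 : nx sg 0 = 0
  p2 : ∀ i j, i < I.length → j < I.length →
    ovp (st I i) (st I (nx sg j)) ≤ max (ov I sg i) (ov I sg j)

end Crest.Agent.R287
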