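import Crest.Agent.R287.Str

/-! Row 287: preprocessing and the greedy cycle cover. -/

set_option autoImplicit false

namespace Crest.Agent.R287

lemma mem_prep_gr {S : List Str} {s : Str} :
    s ∈ prep S ↔ s ∈ S ∧ s ≠ [] ∧ ∀ t ∈ S, s <:+: t → s = t := by
  simp [prep]

lemma nodup_prep_gr (S : List Str) : (prep S).Nodup := (List.nodup_dedup S).filter _

lemma st_succ_gr (S : List Str) {i : ℕ} (hi : i < (prep S).length) :
    st (inst S) (i + 1) = (prep S)[i] := by
  simp [st, inst, hi]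

lemma subset_gstep_gr (A : List (ℕ × ℕ)) (p : ℕ × ℕ) : A ⊆ gstep A p := by
  unfold gstep
  split_ifs
  · exact List.Subset.refl _
  · exact List.subset_cons_self _ _

lemma mem_gstep_gr {A : List (ℕ × ℕ)} {p q : ℕ × ℕ} (h : q ∈ gstep A p) : q ∈ A ∨ q = p := by
  unfold gstep at h
  split_ifs at h
  · exact Or.inl h
  · exact (List.mem_cons.1 h).symm

lemma pairwise_gstep_gr {A : List (ℕ × ℕ)} (p : ℕ × ℕ)
    (h : A.Pairwise (fun p q => p.1 ≠ q.1 ∧ p.2 ≠ q.2)) :
    (gstep A p).Pairwise (fun p q => p.1 ≠ q.1 ∧ p.2 ≠ q.2) := by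
  unfold gstep
  split_ifs with h1
  · exact h
  · refine List.Pairwise.cons (fun q hq => ?_) h
    simp only [List.any_eq_true, Bool.or_eq_true, beq_iff_eq, not_exists, not_and, not_or] at h1
    exact ⟨fun e => (h1 q hq).1 e.symm, fun e => (h1 q hq).2 e.symm⟩

lemma blocked_gstep_gr (A : List (ℕ × ℕ)) (p : ℕ × ℕ) :
    ∃ q ∈ gstep A p, (q.1 = p.1 ∨ q.2 = p.2) ∧ (q ∈ A ∨ q = p) := by
  unfold gstep
  split_ifs with h1
  · simp only [List.any_eq_true, Bool.or_eq_true, beq_iff_eq] at h1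
    obtain ⟨q, hq, h2⟩ := h1
    exact ⟨q, hq, h2, Or.inl hq⟩
  · exact ⟨p, List.mem_cons_self, Or.inl rfl, Or.inr rfl⟩

lemma fold_gr (w : ℕ × ℕ → ℕ) (G : List (ℕ × ℕ)) (hG : G.Pairwise (fun p q => w q ≤ w p)) :
    ∀ A : List (ℕ × ℕ), A.Pairwise (fun p q => p.1 ≠ q.1 ∧ p.2 ≠ q.2) →
      A ⊆ G.foldl gstep A ∧ (G.foldl gstep A).Pairwise (fun p q => p.1 ≠ q.1 ∧ p.2 ≠ q.2) ∧
      (∀ q ∈ G.foldl gstep A, q ∈ A ∨ q ∈ G) ∧
      ∀ p ∈ G, ∃ q ∈ G.foldl gstep A, (q.1 = p.1 ∨ q.2 = p.2) ∧ (q ∈ A ∨ w p ≤ w q) := by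
  induction G with
  | nil => intro A hA; exact ⟨List.Subset.refl _, hA, fun q hq => Or.inl hq, by simp⟩
  | cons p G ih =>
    intro A hA
    obtain ⟨h1, h2, h3, h4⟩ := ih hG.of_cons (gstep A p) (pairwise_gstep_gr p hA)
    rw [List.foldl_cons]
    refine ⟨List.Subset.trans (subset_gstep_gr A p) h1, h2, fun q hq => ?_, fun p' hp' => ?_⟩
    · rcases h3 q hq with h | h
      · rcases mem_gstep_gr h with h | h
        · exact Or.inl h
        · exact Or.inr (h ▸ List.mem_cons_self)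
      · exact Or.inr (List.mem_cons_of_mem _ h)
    · rcases List.mem_cons.1 hp' with rfl | hp'
      · obtain ⟨q, hq, h5, h6⟩ := blocked_gstep_gr A p'
        exact ⟨q, h1 hq, h5, h6.imp_right (fun e => by rw [e])⟩
      · obtain ⟨q, hq, h5, h6⟩ := h4 p' hp'
        refine ⟨q, hq, h5, ?_⟩
        rcases h6 with h6 | h6
        · rcases mem_gstep_gr h6 with h | h
          · exact Or.inl h
          · exact Or.inr (h ▸ List.rel_of_pairwise_cons hG hp')
        · exact Or.inr h6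

lemma eq_of_pairwise_gr {A : List (ℕ × ℕ)} (h : A.Pairwise (fun p q => p.1 ≠ q.1 ∧ p.2 ≠ q.2))
    {p q : ℕ × ℕ} (hp : p ∈ A) (hq : q ∈ A) (e : p.1 = q.1 ∨ p.2 = q.2) : p = q := by
  by_contra hne
  have : Std.Symm (fun p q : ℕ × ℕ => p.1 ≠ q.1 ∧ p.2 ≠ q.2) := ⟨fun _ _ h => ⟨h.1.symm, h.2.symm⟩⟩
  have := h.forall hp hq hne
  tauto

lemma lookup_gr {A : List (ℕ × ℕ)} {i : ℕ} (h : ∃ q ∈ A, q.1 = i) :
    (i, (A.lookup i).getD 0) ∈ A := by
  induction A with
  | nil => simp at h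
  | cons p A ih =>
    obtain ⟨a, b⟩ := p
    by_cases e : i = a
    · subst e; simp
    · have e' : (i == a) = false := by simpa using e
      rw [List.lookup_cons, e']
      refine List.mem_cons_of_mem _ (ih ?_)
      obtain ⟨q, hq, rfl⟩ := h
      rcases List.mem_cons.1 hq with rfl | hq
      · exact (e rfl).elim
      · exact ⟨q, hq, rfl⟩

lemma all_assigned_gr {A : List (ℕ × ℕ)} {n : ℕ}
    (h : A.Pairwise (fun p q => p.1 ≠ q.1 ∧ p.2 ≠ q.2)) (hlt : ∀ q ∈ A, q.1 < n)
    (hb : ∀ i < n, ∀ j < n, ∃ q ∈ A, q.1 = i ∨ q.2 = j) {i : ℕ} (hi : i < n) : ∃ q ∈ A, q.1 = i := by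
  by_contra hne
  have hnd : (A.map Prod.fst).Nodup := List.pairwise_map.2 (h.imp (fun h => h.1))
  have h1 : (A.map Prod.fst).toFinset ⊆ (Finset.range n).erase i := by
    intro x hx
    obtain ⟨q, hq, rfl⟩ := List.mem_map.1 (List.mem_toFinset.1 hx)
    exact Finset.mem_erase.2 ⟨fun e => hne ⟨q, hq, e⟩, Finset.mem_range.2 (hlt q hq)⟩
  have h2 := Finset.card_le_card h1
  rw [List.toFinset_card_of_nodup hnd, Finset.card_erase_of_mem (Finset.mem_range.2 hi),
    Finset.card_range, List.length_map] at h2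
  have h3 : (A.map Prod.snd).toFinset.card < (Finset.range n).card := by
    have := List.toFinset_card_le (A.map Prod.snd)
    rw [List.length_map] at this
    rw [Finset.card_range]
    omega
  obtain ⟨j, hj, hj'⟩ := Finset.exists_mem_notMem_of_card_lt_card h3
  obtain ⟨q, hq, h4⟩ := hb i hi j (Finset.mem_range.1 hj)
  rcases h4 with h4 | h4
  · exact hne ⟨q, hq, h4⟩
  · exact hj' (List.mem_toFinset.2 (List.mem_map.2 ⟨q, hq, h4⟩))

lemma mem_gpairs_gr {I : List Str} {p : ℕ × ℕ} : p ∈ gpairs I ↔ p.1 < I.length ∧ p.2 < I.length := by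
  obtain ⟨a, b⟩ := p
  simp [gpairs, pairs, List.mem_insertionSort]

lemma pairwise_gpairs_gr (I : List Str) : (gpairs I).Pairwise
    (fun p q => ovp (st I q.1) (st I q.2) ≤ ovp (st I p.1) (st I p.2)) := by
  have : Std.Total (fun p q : ℕ × ℕ => ovp (st I q.1) (st I q.2) ≤ ovp (st I p.1) (st I p.2)) :=
    ⟨fun _ _ => le_total _ _⟩
  have : IsTrans (ℕ × ℕ) (fun p q => ovp (st I q.1) (st I q.2) ≤ ovp (st I p.1) (st I p.2)) :=
    ⟨fun _ _ _ h1 h2 => h2.trans h1⟩
  exact List.pairwise_insertionSort _ _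

lemma greedy_spec_gr {I : List Str} (hpos : 0 < I.length) (h0 : st I 0 = []) :
    (∀ i, i < I.length → nx (greedy I) i < I.length) ∧
    (∀ i j, i < I.length → j < I.length → nx (greedy I) i = nx (greedy I) j → i = j) ∧
    nx (greedy I) 0 = 0 ∧
    ∀ i j, i < I.length → j < I.length →
      ovp (st I i) (st I (nx (greedy I) j)) ≤ max (ov I (greedy I) i) (ov I (greedy I) j) := by
  obtain ⟨h1, h2, h3, h4⟩ := fold_gr (fun p => ovp (st I p.1) (st I p.2)) (gpairs I)
    (pairwise_gpairs_gr I) [(0, 0)] (List.pairwise_singleton _ _)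
  change _ ⊆ gassign I at h1
  change (gassign I).Pairwise _ at h2
  change ∀ q ∈ gassign I, _ at h3
  change ∀ p ∈ _, ∃ q ∈ gassign I, _ at h4
  have hlt : ∀ q ∈ gassign I, q.1 < I.length ∧ q.2 < I.length := by
    intro q hq
    rcases h3 q hq with h | h
    · rw [List.mem_singleton.1 h]; exact ⟨hpos, hpos⟩
    · exact mem_gpairs_gr.1 h
  have hmem : ∀ i, i < I.length → (i, nx (greedy I) i) ∈ gassign I := by
    intro i hi
    have e : nx (greedy I) i = ((gassign I).lookup i).getD 0 := by simp [nx, greedy, hi]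
    rw [e]
    refine lookup_gr (all_assigned_gr h2 (fun q hq => (hlt q hq).1) (fun a ha b hb => ?_) hi)
    obtain ⟨q, hq, h5, _⟩ := h4 (a, b) (mem_gpairs_gr.2 ⟨ha, hb⟩)
    exact ⟨q, hq, h5⟩
  refine ⟨fun i hi => (hlt _ (hmem i hi)).2, fun i j hi hj e => ?_, ?_, fun i j hi hj => ?_⟩
  · exact congrArg Prod.fst (eq_of_pairwise_gr h2 (hmem i hi) (hmem j hj) (Or.inr e))
  · exact congrArg Prod.snd (eq_of_pairwise_gr h2 (hmem 0 hpos) (h1 List.mem_cons_self) (Or.inl rfl))
  · obtain ⟨q, hq, h5, h6⟩ := h4 (i, nx (greedy I) j) (mem_gpairs_gr.2 ⟨hi, (hlt _ (hmem j hj)).2⟩)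
    rcases h6 with h6 | h6
    · rw [List.mem_singleton.1 h6] at h5
      rcases h5 with h5 | h5
      · have : i = 0 := h5.symm
        rw [this, h0]; simp
      · have : nx (greedy I) j = 0 := h5.symm
        rw [this, h0]; simp
    · rcases h5 with h5 | h5
      · rw [eq_of_pairwise_gr h2 hq (hmem i hi) (Or.inl h5)] at h6
        exact h6.trans (le_max_left _ _)
      · rw [eq_of_pairwise_gr h2 hq (hmem j hj) (Or.inr h5)] at h6
        exact h6.trans (le_max_right _ _)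

/-- every input string is an infix of a kept string -/
theorem inst_cover (S : List Str) (s : Str) (hs : s ∈ S) :
    ∃ i, i < (inst S).length ∧ s <:+: st (inst S) i := by
  classical
  by_cases h0 : s = []
  · exact ⟨0, by simp [inst], by rw [h0]; exact List.nil_infix⟩
  obtain ⟨t, ht, hmax⟩ := Finset.exists_max_image (S.toFinset.filter (fun t => s <:+: t))
    List.length ⟨s, by simp [hs]⟩
  simp only [Finset.mem_filter, List.mem_toFinset] at ht hmax
  have hp : t ∈ prep S := mem_prep_gr.2 ⟨ht.1, fun e => h0 (List.infix_nil.1 (e ▸ ht.2)),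
    fun t' h1 h2 => h2.eq_of_length_le (hmax t' ⟨h1, ht.2.trans h2⟩)⟩
  obtain ⟨i, hi, e⟩ := List.getElem_of_mem hp
  exact ⟨i + 1, by simp [inst, hi], by rw [st_succ_gr S hi, e]; exact ht.2⟩

/-- every kept string is an infix of every superstring -/
theorem inst_infix (S : List Str) (T : Str) (hT : ∀ s ∈ S, s <:+: T) (i : ℕ) :
    st (inst S) i <:+: T := by
  rcases i with _ | i
  · exact List.nil_infix
  · by_cases hi : i < (prep S).length
    · rw [st_succ_gr S hi]
      exact hT _ (mem_prep_gr.1 (List.getElem_mem hi)).1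
    · have : st (inst S) (i + 1) = [] := by simp [st, inst, hi]
      rw [this]
      exact List.nil_infix

theorem good_inst (S : List Str) : Good (inst S) (greedy (inst S)) := by
  have hpos : 0 < (inst S).length := by simp [inst]
  obtain ⟨h1, h2, h3, h4⟩ := greedy_spec_gr hpos rfl
  have hne : ∀ i, 0 < i → i < (inst S).length → st (inst S) i ≠ [] := by
    intro i hi hi'
    obtain ⟨i, rfl⟩ : ∃ k, i = k + 1 := ⟨i - 1, by omega⟩
    have hi2 : i < (prep S).length := by simpa [inst] using hi'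
    rw [st_succ_gr S hi2]
    exact (mem_prep_gr.1 (List.getElem_mem hi2)).2.1
  refine ⟨hpos, rfl, hne, fun i j hi hi' hj' h => ?_, h1, h2, h3, h4⟩
  rcases j with _ | j
  · exact (hne i hi hi' (List.infix_nil.1 h)).elim
  obtain ⟨i, rfl⟩ : ∃ k, i = k + 1 := ⟨i - 1, by omega⟩
  have hi2 : i < (prep S).length := by simpa [inst] using hi'
  have hj2 : j < (prep S).length := by simpa [inst] using hj'
  rw [st_succ_gr S hi2, st_succ_gr S hj2] at h
  have e := (mem_prep_gr.1 (List.getElem_mem hi2)).2.2 _ (mem_prep_gr.1 (List.getElem_mem hj2)).1 h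
  rw [(nodup_prep_gr S).getElem_inj_iff.1 e]

end Crest.Agent.R287
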