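import Crest.Agent.R287.Orbit

/-! Row 287: free attachments, components, sinks, prices and the cover cost. -/

set_option autoImplicit false

namespace Crest.Agent.R287
open Crest.Agent.Lib.Matching

/-- free attachment as a relation on `range I.length` -/
def Rel (I : List Str) (sg : List ℕ) (i j : ℕ) : Prop :=
  i < I.length ∧ j < I.length ∧ R0 I sg i j = true

/-- cheapest way of connecting the components in `A` by singles and pairs -/
noncomputable def Cc (I : List Str) (sg : List ℕ) (A : Finset ℕ) : ℤ :=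
  (∑ K ∈ A, (gam I sg K : ℤ)) -
    ((sSup {x : ℕ | ∃ m : ℕ → ℕ, IsInv I.length m ∧ (∀ v, v < I.length → v ∉ A → m v = v) ∧
      x = hw I sg m} : ℕ) : ℤ)

variable {I : List Str} {sg : List ℕ}

theorem mem_rstep {R : List ℕ} {j : ℕ} :
    j ∈ rstep I sg R ↔ j < I.length ∧ ∃ a ∈ R, R0 I sg a j = true := by
  simp [rstep]

theorem rel_of_mem_orb (h : Good I sg) {i j : ℕ} (hi : i < I.length) (hj : j ∈ orb I sg i) :
    Rel I sg i j :=
  ⟨hi, orb_lt h hi hj, by simp [R0, Lc_of_mem_orb h hi hj]⟩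

theorem lt_of_rtg {i j : ℕ} (hi : i < I.length) (hij : Relation.ReflTransGen (Rel I sg) i j) :
    j < I.length := by
  induction hij with
  | refl => exact hi
  | tail _ h _ => exact h.2.1

theorem rtg_of_mem_iter {i : ℕ} (hi : i < I.length) (k : ℕ) :
    ∀ j ∈ (rstep I sg)^[k] [i], Relation.ReflTransGen (Rel I sg) i j := by
  induction k with
  | zero =>
    intro j hj
    rw [Function.iterate_zero_apply, List.mem_singleton] at hj
    rw [hj]
  | succ k ih =>
    intro j hj
    rw [Function.iterate_succ_apply', mem_rstep] at hj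
    obtain ⟨hj, a, ha, haj⟩ := hj
    exact (ih a ha).tail ⟨lt_of_rtg hi (ih a ha), hj, haj⟩

theorem mem_iter_succ (h : Good I sg) {i : ℕ} (hi : i < I.length) {k j : ℕ}
    (hj : j ∈ (rstep I sg)^[k] [i]) : j ∈ (rstep I sg)^[k + 1] [i] := by
  have hj' := lt_of_rtg hi (rtg_of_mem_iter hi k j hj)
  rw [Function.iterate_succ_apply', mem_rstep]
  exact ⟨hj', j, hj, (rel_of_mem_orb h hj' (self_mem_orb I sg j)).2.2⟩

theorem iter_stat (h : Good I sg) {i : ℕ} (hi : i < I.length) (k : ℕ) :
    ((rstep I sg)^[k] [i]).toFinset = ((rstep I sg)^[k + 1] [i]).toFinset ∨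
      k + 2 ≤ ((rstep I sg)^[k + 1] [i]).toFinset.card := by
  have hsub : ∀ k, ((rstep I sg)^[k] [i]).toFinset ⊆ ((rstep I sg)^[k + 1] [i]).toFinset :=
    fun k j hj => List.mem_toFinset.2 (mem_iter_succ h hi (List.mem_toFinset.1 hj))
  induction k with
  | zero =>
    rw [or_iff_not_imp_left]
    intro hne
    have := Finset.card_lt_card (Finset.ssubset_iff_subset_ne.2 ⟨hsub 0, hne⟩)
    exact this
  | succ k ih =>
    rw [or_iff_not_imp_left]
    intro hne
    have h1 := Finset.card_lt_card (Finset.ssubset_iff_subset_ne.2 ⟨hsub (k + 1), hne⟩)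
    rcases ih with ih | ih
    · refine absurd ?_ hne
      ext j
      have e : ∀ a, a ∈ (rstep I sg)^[k] [i] ↔ a ∈ (rstep I sg)^[k + 1] [i] := fun a => by
        rw [← List.mem_toFinset, ih, List.mem_toFinset]
      rw [List.mem_toFinset, List.mem_toFinset, Function.iterate_succ_apply' _ (k + 1), mem_rstep]
      nth_rewrite 1 [Function.iterate_succ_apply']
      rw [mem_rstep]
      simp only [e]
    · omega

theorem mem_reach (h : Good I sg) {i j : ℕ} (hi : i < I.length) :
    j ∈ reach I sg i ↔ Relation.ReflTransGen (Rel I sg) i j := by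
  refine ⟨rtg_of_mem_iter hi _ j, fun hij => ?_⟩
  have h1 : ((rstep I sg)^[I.length] [i]).toFinset =
      ((rstep I sg)^[I.length + 1] [i]).toFinset := by
    refine (iter_stat h hi I.length).resolve_right (not_le.2 ?_)
    have : ((rstep I sg)^[I.length + 1] [i]).toFinset ⊆ Finset.range I.length := fun a ha =>
      Finset.mem_range.2 (lt_of_rtg hi (rtg_of_mem_iter hi _ a (List.mem_toFinset.1 ha)))
    have := Finset.card_le_card this
    rw [Finset.card_range] at this
    omega
  unfold reach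
  induction hij with
  | refl =>
    generalize I.length = k
    induction k with
    | zero => simp
    | succ k ih => exact mem_iter_succ h hi ih
  | tail _ hab ih =>
    rw [← List.mem_toFinset, h1, List.mem_toFinset, Function.iterate_succ_apply', mem_rstep]
    exact ⟨hab.2.1, _, ih, hab.2.2⟩

theorem grp_spec (h : Good I sg) {i : ℕ} (hi : i < I.length) :
    grp I sg i < I.length ∧ Relation.ReflTransGen (Rel I sg) i (grp I sg i) ∧
      Relation.ReflTransGen (Rel I sg) (grp I sg i) i := by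
  unfold grp
  rcases hf : (List.range I.length).find?
    (fun j => (reach I sg i).contains j && (reach I sg j).contains i) with _ | K
  · exact ⟨hi, .refl, .refl⟩
  · have h1 := List.mem_range.1 (List.mem_of_find?_eq_some hf)
    have h2 := List.find?_some hf
    simp only [Bool.and_eq_true, List.contains_iff_mem] at h2
    exact ⟨h1, (mem_reach h hi).1 h2.1, (mem_reach h h1).1 h2.2⟩

theorem grp_lt (h : Good I sg) {i : ℕ} (hi : i < I.length) : grp I sg i < I.length := by
  exact (grp_spec h hi).1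

theorem grp_eq_iff (h : Good I sg) {i j : ℕ} (hi : i < I.length) (hj : j < I.length) :
    grp I sg i = grp I sg j ↔
      Relation.ReflTransGen (Rel I sg) i j ∧ Relation.ReflTransGen (Rel I sg) j i := by
  constructor
  · intro e
    obtain ⟨-, h1, h2⟩ := grp_spec h hi
    obtain ⟨-, h3, h4⟩ := grp_spec h hj
    rw [e] at h1 h2
    exact ⟨h1.trans h4, h3.trans h2⟩
  · rintro ⟨h1, h2⟩
    unfold grp
    have e : (List.range I.length).find?
        (fun k => (reach I sg i).contains k && (reach I sg k).contains i) =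
        (List.range I.length).find?
        (fun k => (reach I sg j).contains k && (reach I sg k).contains j) := by
      refine List.find?_congr fun k hk => ?_
      have hk' := List.mem_range.1 hk
      rw [Bool.eq_iff_iff]
      simp only [Bool.and_eq_true, List.contains_iff_mem, mem_reach h hi, mem_reach h hj,
        mem_reach h hk']
      exact ⟨fun ⟨a, b⟩ => ⟨h2.trans a, b.trans h1⟩, fun ⟨a, b⟩ => ⟨h1.trans a, b.trans h2⟩⟩
    rw [← e]
    rcases hf : (List.range I.length).find?
      (fun k => (reach I sg i).contains k && (reach I sg k).contains i) with _ | K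
    · have := List.find?_eq_none.1 hf i (List.mem_range.2 hi)
      simp only [Bool.and_eq_true, List.contains_iff_mem, mem_reach h hi] at this
      exact absurd ⟨.refl, .refl⟩ this
    · rfl

theorem grp_grp (h : Good I sg) {i : ℕ} (hi : i < I.length) :
    grp I sg (grp I sg i) = grp I sg i := by
  obtain ⟨h1, h2, h3⟩ := grp_spec h hi
  exact (grp_eq_iff h h1 hi).2 ⟨h3, h2⟩

theorem grp_of_mem_orb (h : Good I sg) {i j : ℕ} (hi : i < I.length) (hj : j ∈ orb I sg i) :
    grp I sg j = grp I sg i := by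
  exact (grp_eq_iff h (orb_lt h hi hj) hi).2
    ⟨.single (rel_of_mem_orb h (orb_lt h hi hj) (orb_symm h hi hj)),
      .single (rel_of_mem_orb h hi hj)⟩

theorem sinks_nodup (I : List Str) (sg : List ℕ) : (sinks I sg).Nodup := by
  exact List.nodup_range.filter _

theorem lt_of_mem_sinks {K : ℕ} (hK : K ∈ sinks I sg) : K < I.length ∧ grp I sg K = K := by
  simp only [sinks, List.mem_filter, List.mem_range, Bool.and_eq_true, beq_iff_eq] at hK
  exact ⟨hK.1, hK.2.1⟩

theorem grp_mem_sinks_iff (h : Good I sg) {i : ℕ} (hi : i < I.length) :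
    grp I sg i ∈ sinks I sg ↔ ¬ Relation.ReflTransGen (Rel I sg) i 0 ∧
      ∀ j, Relation.ReflTransGen (Rel I sg) i j → Relation.ReflTransGen (Rel I sg) j i := by
  obtain ⟨h1, h2, h3⟩ := grp_spec h hi
  simp only [sinks, List.mem_filter, List.mem_range, Bool.and_eq_true, beq_iff_eq, h1,
    grp_grp h hi, true_and, isSink, Bool.not_eq_true', List.all_eq_true, List.contains_iff_mem,
    mem_reach h h1, ← Bool.not_eq_true]
  constructor
  · rintro ⟨h4, h5⟩
    exact ⟨fun h6 => h4 (h3.trans h6), fun j hj =>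
      ((mem_reach h (lt_of_rtg hi hj)).1 (h5 j (h3.trans hj))).trans h3⟩
  · rintro ⟨h4, h5⟩
    exact ⟨fun h6 => h4 (h2.trans h6), fun j hj =>
      (mem_reach h (lt_of_rtg h1 hj)).2 ((h5 j (h2.trans hj)).trans h2)⟩

theorem ne_zero_of_sink (h : Good I sg) {i : ℕ} (hi : i < I.length)
    (hs : grp I sg i ∈ sinks I sg) : i ≠ 0 := by
  rintro rfl
  exact ((grp_mem_sinks_iff h hi).1 hs).1 .refl

theorem free_of_sink (h : Good I sg) {i j : ℕ} (hi : i < I.length) (hj : j < I.length)
    (hs : grp I sg i ∈ sinks I sg) (hij : grp I sg i ≠ grp I sg j) : wo I sg i < Lc I sg i j := by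
  by_contra hle
  have h1 : Relation.ReflTransGen (Rel I sg) i j :=
    .single ⟨hi, hj, by simpa [R0] using not_lt.1 hle⟩
  exact hij ((grp_eq_iff h hi hj).2 ⟨h1, ((grp_mem_sinks_iff h hi).1 hs).2 j h1⟩)

theorem long_of_sink (h : Good I sg) {i : ℕ} (hi : i < I.length)
    (hs : grp I sg i ∈ sinks I sg) : wo I sg i < ov I sg i := by
  by_contra hle
  exact ((grp_mem_sinks_iff h hi).1 hs).1
    (.single ⟨hi, h.pos, by simpa [R0] using (Lc_zero_le h i).trans (not_lt.1 hle)⟩)

/-- every index reaches the dummy or the representative of a sink -/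
theorem exists_target (h : Good I sg) {i : ℕ} (hi : i < I.length) :
    Relation.ReflTransGen (Rel I sg) i 0 ∨
      ∃ K ∈ sinks I sg, Relation.ReflTransGen (Rel I sg) i K := by
  obtain ⟨j, hj, hmin⟩ := Finset.exists_min_image (reach I sg i).toFinset
    (fun j => (reach I sg j).toFinset.card) ⟨i, List.mem_toFinset.2 ((mem_reach h hi).2 .refl)⟩
  have hij := (mem_reach h hi).1 (List.mem_toFinset.1 hj)
  have hj' := lt_of_rtg hi hij
  by_cases h0 : Relation.ReflTransGen (Rel I sg) j 0
  · exact Or.inl (hij.trans h0)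
  refine Or.inr ⟨grp I sg j, (grp_mem_sinks_iff h hj').2 ⟨h0, fun k hk => ?_⟩,
    hij.trans (grp_spec h hj').2.1⟩
  have hk' := lt_of_rtg hj' hk
  have h1 : (reach I sg k).toFinset = (reach I sg j).toFinset :=
    Finset.eq_of_subset_of_card_le (fun a ha => List.mem_toFinset.2 ((mem_reach h hj').2
      (hk.trans ((mem_reach h hk').1 (List.mem_toFinset.1 ha)))))
      (hmin k (List.mem_toFinset.2 ((mem_reach h hi).2 (hij.trans hk))))
  rw [← mem_reach h hk', ← List.mem_toFinset, h1, List.mem_toFinset, mem_reach h hj']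

theorem mem_pairs {p : ℕ × ℕ} : p ∈ pairs I ↔ p.1 < I.length ∧ p.2 < I.length := by
  obtain ⟨a, b⟩ := p
  simp [pairs, List.pair_mem_product]

theorem argmin_getD {α : Type} (l : List α) (f : α → ℕ) (d : α) :
    ((l.argmin f).getD d = d ∨ (l.argmin f).getD d ∈ l) ∧
      ∀ a ∈ l, f ((l.argmin f).getD d) ≤ f a := by
  rcases hf : l.argmin f with _ | p
  · exact ⟨Or.inl rfl, by simp [List.argmin_eq_none.1 hf]⟩
  · exact ⟨Or.inr (List.argmin_mem hf), fun a ha => not_lt.1 (List.not_lt_of_mem_argmin ha hf)⟩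

theorem argmax_getD {α : Type} (l : List α) (f : α → ℕ) (d : α) :
    ((l.argmax f).getD d = d ∨ (l.argmax f).getD d ∈ l) ∧
      ∀ a ∈ l, f a ≤ f ((l.argmax f).getD d) := by
  rcases hf : l.argmax f with _ | p
  · exact ⟨Or.inl rfl, by simp [List.argmax_eq_none.1 hf]⟩
  · exact ⟨Or.inr (List.argmax_mem hf), fun a ha => not_lt.1 (List.not_lt_of_mem_argmax ha hf)⟩

theorem gamW_spec (h : Good I sg) {K : ℕ} (hK : K ∈ sinks I sg) :
    (gamW I sg K).1 < I.length ∧ (gamW I sg K).2 < I.length ∧ grp I sg (gamW I sg K).1 = K ∧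
      (gamW I sg K).2 ∉ orb I sg (gamW I sg K).1 := by
  obtain ⟨h1, h2⟩ := lt_of_mem_sinks hK
  have h0 : gamW I sg K = (K, 0) ∨ gamW I sg K ∈ (pairs I).filter
      (fun p => grp I sg p.1 == K && !(orb I sg p.1).contains p.2) := (argmin_getD _ _ _).1
  rcases h0 with h3 | h3
  · rw [h3]
    exact ⟨h1, h.pos, h2, fun h3 =>
      ne_zero_of_mem_orb h h1 (ne_zero_of_sink h h1 (h2.symm ▸ hK)) h3 rfl⟩
  · simp only [List.mem_filter, mem_pairs, Bool.and_eq_true, beq_iff_eq, Bool.not_eq_true',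
      ← Bool.not_eq_true, List.contains_iff_mem] at h3
    exact ⟨h3.1.1, h3.1.2, h3.2.1, h3.2.2⟩

theorem gam_le {i j : ℕ} (hi : i < I.length) (hj : j < I.length) (hij : j ∉ orb I sg i) :
    gam I sg (grp I sg i) ≤ gamF I sg (i, j) := by
  have h1 : (i, j) ∈ (pairs I).filter
      (fun p => grp I sg p.1 == grp I sg i && !(orb I sg p.1).contains p.2) := by
    simp [mem_pairs, hi, hj, hij]
  exact (argmin_getD _ _ _).2 _ h1

theorem gainW_spec {K K' : ℕ} (hK : K ∈ sinks I sg) (hK' : K' ∈ sinks I sg) :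
    (gainW I sg K K').1 < I.length ∧ (gainW I sg K K').2 < I.length ∧
      grp I sg (gainW I sg K K').1 = K ∧ grp I sg (gainW I sg K K').2 = K' := by
  obtain ⟨h1, h2⟩ := lt_of_mem_sinks hK
  obtain ⟨h1', h2'⟩ := lt_of_mem_sinks hK'
  have h0 : gainW I sg K K' = (K, K') ∨ gainW I sg K K' ∈ (pairs I).filter
      (fun p => grp I sg p.1 == K && grp I sg p.2 == K') := (argmax_getD _ _ _).1
  rcases h0 with h3 | h3
  · rw [h3]
    exact ⟨h1, h1', h2, h2'⟩
  · simp only [List.mem_filter, mem_pairs, Bool.and_eq_true, beq_iff_eq] at h3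
    exact ⟨h3.1.1, h3.1.2, h3.2.1, h3.2.2⟩

theorem gain_pos {K K' : ℕ} (hg : 0 < gain I sg K K') :
    K ∈ sinks I sg ∧ K' ∈ sinks I sg ∧ K ≠ K' ∧
      gain I sg K K' = gainF I sg K K' (gainW I sg K K') := by
  unfold gain at hg ⊢
  split_ifs at hg ⊢ with hc
  · simp only [Bool.and_eq_true, List.contains_iff_mem, bne_iff_ne] at hc
    exact ⟨hc.1.1, hc.1.2, hc.2, rfl⟩
  · exact absurd hg (lt_irrefl _)

theorem le_gain {i j : ℕ} (hi : i < I.length) (hj : j < I.length) (hK : grp I sg i ∈ sinks I sg)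
    (hK' : grp I sg j ∈ sinks I sg) (hij : grp I sg i ≠ grp I sg j) :
    gainF I sg (grp I sg i) (grp I sg j) (i, j) ≤ gain I sg (grp I sg i) (grp I sg j) := by
  have h1 : (i, j) ∈ (pairs I).filter
      (fun p => grp I sg p.1 == grp I sg i && grp I sg p.2 == grp I sg j) := by
    simp [mem_pairs, hi, hj]
  unfold gain
  rw [if_pos (by simp [hK, hK', hij])]
  exact (argmax_getD _ _ _).2 _ h1

theorem gmat_length (I : List Str) (sg : List ℕ) : (gmat I sg).length = I.length := by
  simp [gmat]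

theorem ent_gmat (I : List Str) (sg : List ℕ) {u v : ℕ} (hu : u < I.length) (hv : v < I.length) :
    ent (gmat I sg) u v = gain I sg (min u v) (max u v) := by
  simp [ent, gmat, List.getD_eq_getElem?_getD, hu, hv]

theorem gmat_symm (I : List Str) (sg : List ℕ) : Symm (gmat I sg) := by
  intro u hu v hv
  rw [gmat_length] at hu hv
  rw [ent_gmat I sg hu hv, ent_gmat I sg hv hu, min_comm, max_comm]

theorem wt_gmat (I : List Str) (sg : List ℕ) {m : ℕ → ℕ} (hm : IsInv I.length m) :
    wt (gmat I sg) m = 2 * hw I sg m := by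
  have h1 : ∑ v ∈ Finset.range I.length, (if m v < v then gain I sg (m v) v else 0) =
      hw I sg m := by
    refine Finset.sum_nbij' m m (fun v hv => Finset.mem_range.2 (hm v (Finset.mem_range.1 hv)).1)
      (fun v hv => Finset.mem_range.2 (hm v (Finset.mem_range.1 hv)).1)
      (fun v hv => (hm v (Finset.mem_range.1 hv)).2)
      (fun v hv => (hm v (Finset.mem_range.1 hv)).2) fun v hv => ?_
    rw [(hm v (Finset.mem_range.1 hv)).2]
  rw [two_mul]
  nth_rewrite 1 [← h1]
  rw [wt, gmat_length, hw, ← Finset.sum_add_distrib]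
  refine Finset.sum_congr rfl fun v hv => ?_
  have hv' := Finset.mem_range.1 hv
  rw [ent_gmat I sg hv' (hm v hv').1]
  rcases lt_trichotomy v (m v) with h | h | h
  · rw [if_neg h.ne', if_neg h.not_gt, if_pos h, min_eq_left h.le, max_eq_right h.le, zero_add]
  · rw [if_pos h.symm, if_neg h.not_gt, if_neg h.not_lt]
  · rw [if_neg h.ne, if_pos h, if_neg h.not_gt, min_eq_right h.le, max_eq_left h.le, add_zero]

theorem Cc_bdd (I : List Str) (sg : List ℕ) (A : Finset ℕ) :
    BddAbove {x : ℕ | ∃ m : ℕ → ℕ, IsInv I.length m ∧ (∀ v, v < I.length → v ∉ A → m v = v) ∧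
      x = hw I sg m} := by
  refine ⟨∑ v ∈ Finset.range I.length, ∑ u ∈ Finset.range I.length, gain I sg v u, ?_⟩
  rintro x ⟨m, hm, -, rfl⟩
  refine Finset.sum_le_sum fun v hv => ?_
  split_ifs
  · exact Finset.single_le_sum (f := fun u => gain I sg v u) (fun _ _ => Nat.zero_le _)
      (Finset.mem_range.2 (hm v (Finset.mem_range.1 hv)).1)
  · exact Nat.zero_le _

theorem Cc_le (I : List Str) (sg : List ℕ) (A : Finset ℕ) {m : ℕ → ℕ} (hm : IsInv I.length m)
    (hA : ∀ v, v < I.length → v ∉ A → m v = v) :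
    Cc I sg A ≤ (∑ K ∈ A, (gam I sg K : ℤ)) - hw I sg m :=
  sub_le_sub_left (Int.ofNat_le.2 (le_csSup (Cc_bdd I sg A) ⟨m, hm, hA, rfl⟩)) _

theorem Cc_eq (I : List Str) (sg : List ℕ) (A : Finset ℕ) :
    ∃ m : ℕ → ℕ, IsInv I.length m ∧ (∀ v, v < I.length → v ∉ A → m v = v) ∧
      Cc I sg A = (∑ K ∈ A, (gam I sg K : ℤ)) - hw I sg m := by
  obtain ⟨m, hm, hA, e⟩ := Nat.sSup_mem (s := {x : ℕ | ∃ m : ℕ → ℕ, IsInv I.length m ∧
    (∀ v, v < I.length → v ∉ A → m v = v) ∧ x = hw I sg m})
    ⟨_, id, fun v hv => ⟨hv, rfl⟩, fun _ _ _ => rfl, rfl⟩ (Cc_bdd I sg A)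
  exact ⟨m, hm, hA, by rw [Cc, e]⟩

theorem Cc_pair_le (I : List Str) (sg : List ℕ) {K K' : ℕ} (hK : K < K') (hK' : K' < I.length) :
    Cc I sg {K, K'} ≤ (gam I sg K : ℤ) + gam I sg K' - gain I sg K K' := by
  have h1 := Cc_le I sg {K, K'} (m := Equiv.swap K K') (fun v hv => ⟨by
    rw [Equiv.swap_apply_def]
    split_ifs <;> omega, Equiv.swap_apply_self _ _ _⟩) (fun v _ hv => by
      simp only [Finset.mem_insert, Finset.mem_singleton, not_or] at hv
      exact Equiv.swap_apply_of_ne_of_ne hv.1 hv.2)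
  rw [Finset.sum_pair hK.ne] at h1
  have h2 : gain I sg K K' ≤ hw I sg (Equiv.swap K K') := by
    have := Finset.single_le_sum (f := fun v => if v < Equiv.swap K K' v then
      gain I sg v (Equiv.swap K K' v) else 0) (fun _ _ => Nat.zero_le _)
      (Finset.mem_range.2 (hK.trans hK'))
    simpa [hK, hw] using this
  omega

theorem Cc_empty (I : List Str) (sg : List ℕ) : Cc I sg ∅ = 0 := by
  obtain ⟨m, -, hA, e⟩ := Cc_eq I sg ∅
  have : hw I sg m = 0 := Finset.sum_eq_zero fun v hv => by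
    rw [hA v (Finset.mem_range.1 hv) (Finset.notMem_empty v), if_neg (lt_irrefl v)]
  rw [e, this]
  simp

theorem Cc_singleton (I : List Str) (sg : List ℕ) (K : ℕ) : Cc I sg {K} ≤ gam I sg K := by
  obtain ⟨m, -, -, e⟩ := Cc_eq I sg {K}
  rw [e, Finset.sum_singleton]
  omega

theorem Cc_pair (h : Good I sg) {i j : ℕ} (hi : i < I.length) (hj : j < I.length)
    (hK : grp I sg i ∈ sinks I sg) (hK' : grp I sg j ∈ sinks I sg)
    (hij : grp I sg i ≠ grp I sg j) :
    Cc I sg {grp I sg i, grp I sg j} ≤ (Pc I sg i j : ℤ) - wo I sg i - wo I sg j := by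
  rcases lt_or_gt_of_ne hij with hlt | hlt
  · have h1 := Cc_pair_le I sg hlt (grp_lt h hj)
    have h2 := le_gain hi hj hK hK' hij
    simp only [gainF] at h2
    omega
  · have h1 := Cc_pair_le I sg hlt (grp_lt h hi)
    have h2 := le_gain hj hi hK' hK hij.symm
    simp only [gainF] at h2
    rw [Finset.pair_comm, Pc_comm]
    omega

theorem Cc_union (I : List Str) (sg : List ℕ) {A B : Finset ℕ} (hAB : Disjoint A B) :
    Cc I sg (A ∪ B) ≤ Cc I sg A + Cc I sg B := by
  obtain ⟨m₁, hm₁, hA, e₁⟩ := Cc_eq I sg A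
  obtain ⟨m₂, hm₂, hB, e₂⟩ := Cc_eq I sg B
  have hAB' : ∀ v ∈ A, v ∉ B := fun v hv => Finset.disjoint_left.1 hAB hv
  have h1 := Cc_le I sg (A ∪ B) (m := fun v => if v ∈ A then m₁ v else m₂ v) (fun v hv => by
    by_cases hvA : v ∈ A
    · have h2 : m₁ v ∈ A := by
        by_contra h3
        have h4 := hA _ (hm₁ v hv).1 h3
        rw [(hm₁ v hv).2] at h4
        exact h3 (h4 ▸ hvA)
      simp only [hvA, h2, if_true]
      exact hm₁ v hv
    · have h2 : m₂ v ∉ A := by
        intro h3
        have h4 := hB _ (hm₂ v hv).1 (hAB' _ h3)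
        rw [(hm₂ v hv).2] at h4
        exact hvA (h4 ▸ h3)
      simp only [hvA, h2, if_false]
      exact hm₂ v hv) (fun v hv hv' => by
    rw [Finset.mem_union, not_or] at hv'
    simp only [hv'.1, if_false]
    exact hB v hv hv'.2)
  have h2 : hw I sg (fun v => if v ∈ A then m₁ v else m₂ v) = hw I sg m₁ + hw I sg m₂ := by
    rw [hw, hw, hw, ← Finset.sum_add_distrib]
    refine Finset.sum_congr rfl fun v hv => ?_
    have hv' := Finset.mem_range.1 hv
    by_cases hvA : v ∈ A
    · simp [hvA, hB v hv' (hAB' v hvA)]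
    · simp [hvA, hA v hv' hvA]
  rw [Finset.sum_union hAB, h2] at h1
  rw [e₁, e₂]
  push_cast at h1
  linarith

/-- a maximum weight matching realises the cover cost -/
theorem le_Cc (I : List Str) (sg : List ℕ) (A : Finset ℕ) {m₀ : ℕ → ℕ}
    (hmax : ∀ m, IsInv I.length m → hw I sg m ≤ hw I sg m₀) :
    (∑ K ∈ A, (gam I sg K : ℤ)) - hw I sg m₀ ≤ Cc I sg A := by
  obtain ⟨m, hm, -, e⟩ := Cc_eq I sg A
  have := hmax m hm
  rw [e]
  omega

end Crest.Agent.R287
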