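import Crest.Agent.R287.Str

/-! Row 287: the Hamiltonian cycle (through the dummy) given by a superstring. -/

set_option autoImplicit false

namespace Crest.Agent.R287

lemma drop_prefix_tour {s R : Str} (h : s <+: R) (k : ℕ) : s.drop k <+: R.drop k := by
  obtain ⟨v, rfl⟩ := h
  rw [List.drop_append]
  exact List.prefix_append _ _

lemma occ_infix_tour {T s t : Str} {a a' : ℕ} (hs : s <+: T.drop a) (ht : t <+: T.drop a')
    (h1 : a ≤ a') (h2 : a' + t.length ≤ a + s.length) : t <:+: s := by
  have h3 := drop_prefix_tour hs (a' - a)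
  rw [List.drop_drop, show a + (a' - a) = a' by omega] at h3
  exact (List.prefix_of_prefix_length_le ht h3 (by simp; omega)).isInfix.trans
    (List.drop_suffix _ _).isInfix

lemma occ_ovp_tour {T s t : Str} {a a' : ℕ} (hs : s <+: T.drop a) (ht : t <+: T.drop a')
    (h1 : a ≤ a') (h2 : a + s.length < a' + t.length) : a + s.length ≤ a' + ovp s t := by
  by_cases h : a + s.length ≤ a'
  · omega
  have h3 := drop_prefix_tour hs (a' - a)
  rw [List.drop_drop, show a + (a' - a) = a' by omega] at h3
  have h4 := List.prefix_iff_eq_take.1 (List.prefix_of_prefix_length_le h3 ht (by simp; omega))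
  have h5 : (s.drop (a' - a)).length ≤ ovp s t :=
    le_ovp (by simp; omega) (by rw [← h4]; exact List.drop_suffix _ _)
  simp at h5
  omega

lemma tour_aux_tour (m : ℕ) (s : Fin (m + 1) → Str) (T : Str) (h0 : s 0 = [])
    (hfree : ∀ i j, i ≠ 0 → s i <:+: s j → i = j) (hT : ∀ i, s i <:+: T) :
    ∃ τ : Equiv.Perm (Fin (m + 1)),
      (∑ i, (s i).length ≤ T.length + ∑ i, ovp (s i) (s (τ i))) ∧
      ∀ K : Fin (m + 1) → Prop, (∃ i, K i) → (∀ i, K i → i.val ≠ 0) → ∃ i, K i ∧ ¬ K (τ i) := by
  classical
  have hocc : ∀ i, ∃ a, s i <+: T.drop a ∧ a + (s i).length ≤ T.length ∧ (i = 0 → a = 0) := by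
    intro i
    by_cases hi : i = 0
    · exact ⟨0, by rw [hi, h0]; exact List.nil_prefix, by rw [hi, h0]; simp, fun _ => rfl⟩
    · obtain ⟨u, v, e⟩ := hT i
      refine ⟨u.length, ?_, ?_, fun e => (hi e).elim⟩
      · rw [← e, List.append_assoc, List.drop_left]
        exact List.prefix_append _ _
      · rw [← e]; simp
  choose a ha1 ha2 ha3 using hocc
  let key : Fin (m + 1) → ℕ := fun i => if i = 0 then 0 else a i + 1
  have hlt : ∀ i j, j ≠ 0 → i ≠ j → a i ≤ a j → a i + (s i).length < a j + (s j).length := by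
    intro i j hj hij h
    by_contra h'
    exact hij (hfree j i hj (occ_infix_tour (ha1 i) (ha1 j) h (by omega))).symm
  let σ := Tuple.sort key
  have hmono : Monotone (key ∘ σ) := Tuple.monotone_sort key
  have hσ0 : σ 0 = 0 := by
    have h1 := hmono (Fin.zero_le (σ.symm 0))
    simp only [Function.comp, Equiv.apply_symm_apply, key, if_true] at h1
    by_contra h2
    rw [if_neg h2] at h1
    omega
  refine ⟨σ * finRotate (m + 1) * σ⁻¹, ?_, ?_⟩
  · have hstep : ∀ k : Fin m, (s (σ k.succ)).length + (a (σ k.castSucc) + (s (σ k.castSucc)).length)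
        ≤ (a (σ k.succ) + (s (σ k.succ)).length) + ovp (s (σ k.castSucc)) (s (σ k.succ)) := by
      intro k
      have hj : σ k.succ ≠ 0 := by
        rw [← hσ0]; exact σ.injective.ne (Fin.succ_ne_zero k)
      have hij : σ k.castSucc ≠ σ k.succ := σ.injective.ne (Fin.castSucc_lt_succ (i := k)).ne
      have h1 : a (σ k.castSucc) ≤ a (σ k.succ) := by
        have h2 := hmono (Fin.castSucc_lt_succ (i := k)).le
        simp only [Function.comp, key, if_neg hj] at h2
        by_cases h3 : σ k.castSucc = 0
        · rw [ha3 _ h3]; omega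
        · rw [if_neg h3] at h2; omega
      have := occ_ovp_tour (ha1 _) (ha1 _) h1 (hlt _ _ hj hij h1)
      omega
    have hsum := Finset.sum_le_sum (s := Finset.univ) (fun k _ => hstep k)
    rw [Finset.sum_add_distrib, Finset.sum_add_distrib (f := fun k : Fin m =>
      a (σ k.succ) + (s (σ k.succ)).length)] at hsum
    have e1 := Fin.sum_univ_succ (fun k => a (σ k) + (s (σ k)).length)
    have e2 := Fin.sum_univ_castSucc (fun k => a (σ k) + (s (σ k)).length)
    have e3 := Fin.sum_univ_succ (fun k => (s (σ k)).length)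
    have e4 := Fin.sum_univ_castSucc (fun k => ovp (s (σ k)) (s (σ (k + 1))))
    have e5 : ∑ i, (s i).length = ∑ k, (s (σ k)).length :=
      (Equiv.sum_comp σ (fun i => (s i).length)).symm
    have e6 : ∑ i, ovp (s i) (s ((σ * finRotate (m + 1) * σ⁻¹) i)) =
        ∑ k, ovp (s (σ k)) (s (σ (k + 1))) := by
      rw [← Equiv.sum_comp σ]
      simp
    have e7 := ha2 (σ (Fin.last m))
    simp only [Fin.coeSucc_eq_succ] at e4
    simp only [hσ0, h0, ha3 0 rfl, List.length_nil] at e1 e3
    rw [e5, e6]
    omega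
  · rintro K ⟨i, hi⟩ hK
    obtain ⟨k, hk, hmax⟩ := Finset.exists_max_image (Finset.univ.filter (fun k => K (σ k))) id
      ⟨σ.symm i, by simpa using hi⟩
    simp only [Finset.mem_filter, Finset.mem_univ, true_and, id] at hk hmax
    refine ⟨σ k, hk, fun h => ?_⟩
    simp only [Equiv.Perm.mul_apply, Equiv.Perm.coe_inv, Equiv.symm_apply_apply,
      finRotate_apply] at h
    induction k using Fin.lastCases with
    | last =>
      rw [Fin.last_add_one, hσ0] at h
      exact hK 0 h rfl
    | cast k =>
      rw [Fin.coeSucc_eq_succ] at h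
      exact absurd (hmax _ h) (not_le.2 Fin.castSucc_lt_succ)

/-- Order the strings by first occurrence in `T`; `τ` is the cyclic successor, the dummy `0` coming
first. -/
theorem exists_tour {I : List Str} {sg : List ℕ} (h : Good I sg) (T : Str)
    (hT : ∀ i, st I i <:+: T) :
    ∃ τ : Equiv.Perm (Fin I.length),
      (∑ i : Fin I.length, (st I i).length ≤
        T.length + ∑ i : Fin I.length, ovp (st I i) (st I (τ i))) ∧
      ∀ K : Fin I.length → Prop, (∃ i, K i) → (∀ i, K i → i.val ≠ 0) → ∃ i, K i ∧ ¬ K (τ i) := by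
  obtain _ | ⟨x, I⟩ := I
  · exact absurd h.pos (by simp)
  exact tour_aux_tour I.length (fun i => st (x :: I) i) T h.zero
    (fun i j hi e => Fin.ext (h.free i j (Nat.pos_of_ne_zero (fun e' => hi (Fin.ext e'))) i.2 j.2 e))
    (fun i => hT i)

end Crest.Agent.R287
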