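import Crest.Agent.R287.Main
import Crest.Agent.R287.Cyl
import Crest.Agent.R287.Groups
import Crest.Agent.R287.Tour

/-! Row 287: the concrete instance of `Sys` and the bound on the cover cost. -/

set_option autoImplicit false

namespace Crest.Agent.R287

variable {I : List Str} {sg : List ℕ}

lemma orb_eq_iff (h : Good I sg) {i j : ℕ} (hi : i < I.length) :
    (orb I sg i).toFinset = (orb I sg j).toFinset ↔ j ∈ orb I sg i := by
  constructor
  · intro e
    have : j ∈ (orb I sg j).toFinset := List.mem_toFinset.2 (self_mem_orb I sg j)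
    rw [← e] at this
    exact List.mem_toFinset.1 this
  · intro e
    exact (List.toFinset_eq_of_perm _ _ (orb_perm h hi e)).symm

noncomputable def sys (h : Good I sg) : Sys (Fin I.length) (Finset ℕ) ℕ (Option ℕ) where
  o := fun n => ov I sg n
  w := fun n => wo I sg n
  Y := fun n n' => Yo I sg n n'
  X := fun n => X I sg n
  cl := fun n => (orb I sg n).toFinset
  gr := fun n => grp I sg n
  sink := fun K => K ∈ sinks I sg
  C := Cc I sg
  Lc := fun n n' => Lc I sg n n'
  Pc := fun n n' => Pc I sg n n'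
  Vtx := fun n => Vtx I sg n
  Y_nonneg := fun _ _ => Int.natCast_nonneg _
  Y_self := fun _ => rfl
  P2 := fun n n' => by exact_mod_cast h.p2 n n' n.2 n'.2
  agree := fun n n' t => Yo_agree h n.2 n'.2 t
  maxl := fun n n' a b D => Yo_max h n.2 n'.2 a b D
  per := fun n => X_per I sg n
  FW := fun n n' e => X_FW h n.2 n'.2 fun e' => e ((orb_eq_iff h n.2).2 e')
  rigid := fun n δ hs => X_rigid h n.2 (ne_zero_of_sink h n.2 hs) δ
  same_w := fun n n' e => by rw [wo_congr h n.2 ((orb_eq_iff h n.2).1 e)]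
  same_gr := fun n n' e => (grp_of_mem_orb h n.2 ((orb_eq_iff h n.2).1 e)).symm
  same_X := fun n n' e => X_same h n.2 ((orb_eq_iff h n.2).1 e)
  wpos := fun n hs => by
    exact_mod_cast (ext_pos h n.2 (ne_zero_of_sink h n.2 hs)).trans_le (ext_le_wo I sg n)
  long := fun n hs => by exact_mod_cast long_of_sink h n.2 hs
  intra := fun n n' hs e => by
    have e1 := (orb_eq_iff h n.2).1 e
    have e2 := long_of_sink h n'.2 (by rwa [grp_of_mem_orb h n.2 e1])
    rw [wo_congr h n.2 e1] at e2
    exact_mod_cast Yo_intra h n.2 e1 (long_of_sink h n.2 hs) e2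
  Y_lt := fun b n hs => by exact_mod_cast Yo_lt h b n.2 (ne_zero_of_sink h n.2 hs)
  vtx_val := fun n => vtx_val h n.2
  vtx_pre := fun b n e => vtx_pre h b n.2 (by exact_mod_cast e)
  vtx_suf := fun n b e => vtx_suf h b n.2 (by exact_mod_cast e)
  P_le := fun _ _ _ _ _ _ _ h1 h2 => Pc_le_window h1 h2
  P_symm := fun n n' => by rw [Pc_comm]
  P_congr := fun n n' x e => by rw [Pc_congr h n.2 ((orb_eq_iff h n.2).1 e)]
  L_le := fun _ _ _ _ _ _ _ _ h1 h2 => Lc_le_window h1 h2
  single := fun n n' _ e => by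
    have e1 := Cc_singleton I sg (grp I sg n)
    have e2 := gam_le (sg := sg) n.2 n'.2 fun e' => e ((orb_eq_iff h n.2).2 e')
    simp only [gamF] at e2
    omega
  single0 := fun n hs => by
    have h0 := ne_zero_of_sink h n.2 hs
    have e1 := Cc_singleton I sg (grp I sg n)
    have e2 := gam_le (sg := sg) n.2 h.pos fun e' => ne_zero_of_mem_orb h n.2 h0 e' rfl
    have e3 := Lc_zero_le h n
    have e4 := Pc_zero_le h n
    have e5 := long_of_sink h n.2 hs
    simp only [gamF] at e2
    omega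
  pair := fun n n' hs hs' e => Cc_pair h n.2 n'.2 hs hs' e
  free := fun n n' hs e => by exact_mod_cast free_of_sink h n.2 n'.2 hs e
  C_union := fun _ _ e => Cc_union I sg e
  C_empty := Cc_empty I sg

/-- the cover as a permutation -/
noncomputable def nxPerm (h : Good I sg) : Equiv.Perm (Fin I.length) :=
  Equiv.ofBijective (fun i => ⟨nx sg i, h.lt i i.2⟩)
    (Finite.injective_iff_bijective.1 fun i j e =>
      Fin.ext (h.inj i j i.2 j.2 (congrArg Fin.val e)))

lemma nxPerm_val (h : Good I sg) (i : Fin I.length) : (nxPerm h i : ℕ) = nx sg i := rfl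

theorem Cc_sinks_le (h : Good I sg) (T : Str) (hT : ∀ i, st I i <:+: T) :
    Cc I sg (sinks I sg).toFinset + 2 * ∑ i ∈ Finset.range I.length, (ext I sg i : ℤ) ≤
      2 * T.length := by
  obtain ⟨τ, h1, h2⟩ := exists_tour h T hT
  have : Nonempty (Fin I.length) := ⟨⟨0, h.pos⟩⟩
  have hπ : ∀ n, nx sg ((τ.trans (nxPerm h).symm) n) = τ n := fun n => by
    rw [← nxPerm_val h]; simp
  have hg := (sys h).global (τ.trans (nxPerm h).symm) (sinks I sg).toFinset fun K hK => by
    have hK' := List.mem_toFinset.1 hK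
    obtain ⟨e1, e2⟩ := lt_of_mem_sinks hK'
    refine ⟨hK', ?_⟩
    obtain ⟨i, e3, e4⟩ := h2 (fun i => grp I sg i = K) ⟨⟨K, e1⟩, e2⟩ fun i e =>
      ne_zero_of_sink h i.2 (by rwa [e])
    refine ⟨i, e3, fun e5 => e4 ?_⟩
    have e6 := (sys h).same_gr _ _ e5
    have e7 := grp_of_mem_orb h ((τ.trans (nxPerm h).symm) i).2
      ((mem_orb h ((τ.trans (nxPerm h).symm) i).2).2 ⟨1, hπ i⟩)
    exact e7.trans (e6.trans e3)
  have hs1 : ∑ i ∈ Finset.range I.length, (ext I sg i : ℤ) =
      ∑ i : Fin I.length, ((st I i).length : ℤ) - ∑ i : Fin I.length, (ov I sg i : ℤ) := by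
    rw [← Equiv.sum_comp (nxPerm h) (fun i => ((st I i).length : ℤ)), ← Finset.sum_sub_distrib,
      Finset.sum_range]
    refine Finset.sum_congr rfl fun i _ => ?_
    have : ov I sg i ≤ (st I (nx sg i)).length := ovp_le _ _
    rw [nxPerm_val, ext]; omega
  have hs2 : ∑ n, ((sys h).o n - (sys h).Y n ((τ.trans (nxPerm h).symm) n)) =
      ∑ i : Fin I.length, (ov I sg i : ℤ) -
        ∑ i : Fin I.length, (ovp (st I i) (st I (τ i)) : ℤ) := by
    rw [← Finset.sum_sub_distrib]
    refine Finset.sum_congr rfl fun i _ => ?_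
    show (ov I sg i : ℤ) - (Yo I sg i _ : ℤ) = _
    rw [Yo, hπ]
  have h1' : ∑ i : Fin I.length, ((st I i).length : ℤ) ≤
      T.length + ∑ i : Fin I.length, (ovp (st I i) (st I (τ i)) : ℤ) := by exact_mod_cast h1
  rw [hs2] at hg
  have : (sys h).C = Cc I sg := rfl
  rw [this] at hg
  omega

end Crest.Agent.R287
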