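import Crest.Agent.R287.Blocks

/-! Row 287: the main inequality `C A ≤ 2 G` for an alternating cycle, and its sum over all cycles. -/

set_option autoImplicit false

namespace Crest.Agent.R287

namespace Sys
variable {N Cl Gr α : Type} [DecidableEq Gr] (S : Sys N Cl Gr α)

/-- one high node, all the other nodes in one long cluster -/
theorem S1 {z : ℕ → N} {m p : ℕ} (hz : ∀ i, z (i + m) = z i) (hm : 2 ≤ m) (hh : S.High z p)
    (hc : ∀ s, p + 1 < s → s ≤ p + m → S.cl (z s) = S.cl (z p))
    (hne : S.cl (z p) ≠ S.cl (z (p + 1))) (hs : S.sink (S.gr (z p))) :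
    S.C {S.gr (z p)} ≤ 2 * S.pos z m := by
  have hG := S.cyc_nonneg m z (by omega) hz
  have ha : S.cl (z (p + 1 + 1)) = S.cl (z p) := hc _ (by omega) (by omega)
  have hsa : S.sink (S.gr (z (p + 1 + 1))) := by rwa [S.same_gr _ _ ha]
  have hwa : S.w (z (p + 1 + 1)) = S.w (z p) := S.same_w _ _ ha
  have hw := S.wpos _ hs
  have hC : ∀ i, p + 1 + 1 ≤ i → i < p + m →
      S.Y (z i) (z (i + 1)) ≤ S.o (z i) ∧ S.Y (z i) (z (i + 1)) ≤ S.o (z (i + 1)) := by
    intro i e1 e2
    have e3 := hc i (by omega) (by omega)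
    exact S.intra _ _ (by rwa [S.same_gr _ _ e3]) (e3.trans (hc (i + 1) (by omega) (by omega)).symm)
  have hB := S.pos_mono z (a := p + 1 + 1) (b := p + m) (by omega) fun i e1 e2 => (hC i e1 e2).1
  have hE := S.eta_mono z (a := p + 1 + 1) (b := p + m) (by omega) fun i e1 e2 => (hC i e1 e2).2
  have hg := S.gain_high z p hh.1 hh.2
  have hi := S.intra (z p) (z (p + 1 + 1)) hs ha.symm
  have h0 := S.single0 _ hs
  have p1 := S.pos_succ z p
  have p2 := S.pos_succ z (p + 1)
  have p3 := S.pos_per hz p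
  have p4 := S.eta_per hz p
  have hh1 := hh.1
  have hh2 := hh.2
  unfold gain at hg
  by_cases c1 : S.eta z p - S.pos z (p + 1 + 1) < S.w (z p)
  · unfold eta at *; omega
  by_cases c2 : S.eta z (p + 1 + 1) - S.pos z (p + m) < S.w (z p)
  · unfold eta at *; omega
  have a1 : ∀ t, S.F z p t = S.F z (p + 1 + 1) t := by
    refine eq_of_agree (a := S.pos z (p + 1 + 1)) hw (S.F_per z p) ?_ fun t e2 e3 => ?_
    · have := S.F_per z (p + 1 + 1)
      rwa [hwa] at this
    · rw [S.F_agree z p t (by omega) (by omega)]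
      exact S.F_agree z (p + 1) t e2 (by unfold eta at *; omega)
  have a2 : ∀ t, S.F z (p + 1 + 1) t = S.F z (p + m) t := by
    refine eq_of_agree (a := S.pos z (p + m)) hw ?_ ?_ fun t e2 e3 => ?_
    · have := S.F_per z (p + 1 + 1)
      rwa [hwa] at this
    · have := S.F_per z (p + m)
      rwa [hz] at this
    · exact S.F_agree' z (by omega) (fun i e1 e2 => (hC i e1.le e2).1)
        (fun i e1 e2 => (hC i e1 (by omega)).2) t e2 (by omega)
  have a3 : S.w (z p) ∣ S.pos z m := S.rigid (z p) _ hs fun t => by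
    have := (a1 (t + S.pos z m + S.pos z p)).trans (a2 _)
    rw [S.F_shift_per hz] at this
    unfold F at this
    convert this using 2 <;> ring
  have a4 : ∀ t, S.pos z (p + 1) ≤ t → t < S.eta z (p + 1) → S.F z p t = S.F z (p + 1) t := by
    intro t e1 e2
    by_cases e : t < S.eta z p
    · exact S.F_agree z p t e1 e
    · rw [a1, S.F_agree z (p + 1) t (by omega) e2]
  have a5 : S.o (z (p + 1)) < S.w (z p) + S.w (z (p + 1)) := by
    by_contra H
    refine S.F_noAgree z hne (S.pos z (p + 1)) 0 fun t e1 e2 => ?_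
    rw [add_zero]
    exact a4 t e1 (by unfold eta; omega)
  have a6 : S.Pc (z p) (z (p + 1)) ≤ S.pos z (p + 1 + 1) - S.pos z (p + 1) +
      max (S.o (z (p + 1 + 1))) (S.Y (z (p + 1)) (z (p + 1 + 1))) := by
    have hv : S.Vtx (z (p + 1 + 1)) 0
        (max (S.o (z (p + 1 + 1))) (S.Y (z (p + 1)) (z (p + 1 + 1)))) := by
      rcases le_total (S.o (z (p + 1 + 1))) (S.Y (z (p + 1)) (z (p + 1 + 1))) with e | e
      · rw [max_eq_right e]; exact S.vtx_pre _ _ e
      · rw [max_eq_left e]; exact S.vtx_val _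
    have := S.P_le (z (p + 1)) (z (p + 1 + 1)) 0 _ 0 _
      (S.o (z (p + 1)) - S.Y (z (p + 1)) (z (p + 1 + 1))) (S.vtx_val _) hv (by omega) (by omega)
      fun t e1 e2 => S.agree' _ _ t (by omega) e2
    rw [← S.P_congr _ _ _ ha, S.P_symm]
    omega
  have a7 : S.Lc (z p) (z (p + 1)) ≤ S.pos z m + S.w (z p) := by
    have hv : S.Vtx (z p) (min 0 (S.o (z p) - S.Y (z p) (z (p + 1)))) (S.o (z p)) := by
      rcases le_total (S.o (z p)) (S.Y (z p) (z (p + 1))) with e | e
      · rw [min_eq_right (by omega)]; exact S.vtx_suf _ _ e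
      · rw [min_eq_left (by omega)]; exact S.vtx_val _
    have hl := S.Y_lt (z (p + 1)) _ hsa
    have key : ∀ t, S.o (z p) - S.Y (z p) (z (p + 1)) ≤ t →
        t < S.o (z (p + 1)) + (S.o (z p) - S.Y (z p) (z (p + 1))) →
        S.X (z p) t = S.X (z (p + 1)) (t - (S.o (z p) - S.Y (z p) (z (p + 1)))) := by
      intro t e1 e2
      have := a4 (t + S.pos z p) (by omega) (by unfold eta; omega)
      unfold F at this
      rw [p1] at this
      convert this using 2 <;> ring
    unfold eta at *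
    exact S.L_le (z p) (z (p + 1)) _ _ 0 _ (S.o (z p) - S.Y (z p) (z (p + 1))) _ hv (S.vtx_val _)
      (dvd_add a3 dvd_rfl) (by omega) (by omega) (by omega) (by omega)
      (fun t e1 e2 => key t (by omega) (by omega)) (fun t e1 e2 => key t (by omega) (by omega))
  have a8 := S.single _ _ hs hne
  unfold eta at *
  omega

/-- the statement proved by induction on the length of the cycle -/
def Claim (m : ℕ) : Prop :=
  ∀ (z : ℕ → N) (A : Finset Gr), 0 < m → (∀ i, z (i + m) = z i) → (∀ K ∈ A, S.sink K) →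
    (∀ K ∈ A, ∃ i, S.gr (z i) = K) → (∃ i j, S.cl (z i) ≠ S.cl (z j)) → S.C A ≤ 2 * S.pos z m

lemma cut_nonneg {z : ℕ → N} {m : ℕ} (hz : ∀ i, z (i + m) = z i) {p j : ℕ} (h1 : p ≤ j)
    (h2 : j < m + p) : S.gain z p j ≤ S.pos z m := by
  obtain ⟨z', e1, e2, -⟩ := S.remove hz (p := p) (j := j) (m' := m + p - j) h1 (by omega) (by omega)
  have := S.cyc_nonneg _ z' (by omega) e1
  omega

lemma cut_bound {z : ℕ → N} {m : ℕ} (IH : ∀ m', m' < m → S.Claim m') (hz : ∀ i, z (i + m) = z i)
    {p j : ℕ} (h1 : p < j) (h2 : j < m + p) {A : Finset Gr} (hA : ∀ K ∈ A, S.sink K)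
    (hp : ∀ K ∈ A, ∃ s, j < s ∧ s ≤ p + m ∧ S.gr (z s) = K)
    (h3 : ∃ s t, j < s ∧ s ≤ p + m ∧ j < t ∧ t ≤ p + m ∧ S.cl (z s) ≠ S.cl (z t)) :
    S.C A ≤ 2 * (S.pos z m - S.gain z p j) := by
  obtain ⟨z', e1, e2, -, e4⟩ :=
    S.remove hz (p := p) (j := j) (m' := m + p - j) h1.le (by omega) (by omega)
  rw [← e2]
  refine IH _ (by omega) z' A (by omega) e1 hA (fun K hK => ?_) ?_
  · obtain ⟨s, a1, a2, rfl⟩ := hp K hK
    obtain ⟨t, ht⟩ := e4 s a1 a2
    exact ⟨t, by rw [ht]⟩
  · obtain ⟨s, t, a1, a2, a3, a4, a5⟩ := h3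
    obtain ⟨s', hs⟩ := e4 s a1 a2
    obtain ⟨t', ht⟩ := e4 t a3 a4
    exact ⟨s', t', by rwa [hs, ht]⟩

variable {S}

lemma Red.pres_sdiff {z : ℕ → N} {m : ℕ} {A : Finset Gr} (h : S.Red z m A) (p j : ℕ) :
    ∀ K ∈ A \ S.img z (p + 1) (j + 1), ∃ s, j < s ∧ s ≤ p + m ∧ S.gr (z s) = K := by
  intro K hK
  obtain ⟨e1, e2⟩ := Finset.mem_sdiff.1 hK
  obtain ⟨i, rfl⟩ := h.pres K e1
  obtain ⟨s, a1, a2, a3, -⟩ := exists_window h.per h.hm (p + 1) i
  refine ⟨s, ?_, by omega, by rw [a3]⟩
  by_contra H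
  exact e2 (S.mem_img.2 ⟨s, a1, by omega, by rw [a3]⟩)

lemma C_le_sdiff {A B : Finset Gr} (h : B ⊆ A) : S.C A ≤ S.C (A \ B) + S.C B := by
  have := S.C_union (A \ B) B Finset.sdiff_disjoint
  rwa [Finset.sdiff_union_of_subset h] at this

theorem Red.run {z : ℕ → N} {m : ℕ} {A : Finset Gr} (h : S.Red z m A)
    (IH : ∀ m', m' < m → S.Claim m') {k : ℕ} (hk : 1 ≤ k) (hkm : k < m)
    (hU : S.o (z 0) < S.Y (z 0) (z 1)) (hV : S.o (z (k + 1)) < S.Y (z k) (z (k + 1)))
    (hB : ∀ i, 1 ≤ i → i ≤ k → S.Y (z i) (z (i + 1)) ≤ S.o (z i))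
    (hE : ∀ i, i < k → S.Y (z i) (z (i + 1)) ≤ S.o (z (i + 1))) : S.C A ≤ 2 * S.pos z m := by
  have hz := h.per
  have hzm : z m = z 0 := by simpa using hz 0
  have hh : ∀ i, i < k → S.High z i := fun i e => ⟨hE i e, hB (i + 1) (by omega) e⟩
  have hA : ∀ i, 1 ≤ i → i ≤ k → S.gr (z i) ∈ A := by
    intro i e1 e2
    obtain ⟨i, rfl⟩ : ∃ i', i = i' + 1 := ⟨i - 1, by omega⟩
    exact h.own i (hh i e2)
  have hne : ∀ i j, 1 ≤ i → i ≤ k → j ≠ i → j ≤ m → S.gr (z j) ≠ S.gr (z i) := by
    intro i j e1 e2 e3 e4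
    obtain ⟨i, rfl⟩ : ∃ i', i = i' + 1 := ⟨i - 1, by omega⟩
    exact h.ne (hh i e2) e3 (by omega) (by omega)
  have hs : ∀ i, 1 ≤ i → i ≤ k → S.sink (S.gr (z i)) := fun i e1 e2 => h.sink _ (hA i e1 e2)
  have hc : S.Chain z 1 (k + 1) :=
    ⟨fun i e1 e2 => hs i e1 (by omega),
      fun i j e1 e2 e3 => hne j i (by omega) (by omega) (by omega) (by omega),
      fun i e1 e2 => hB i e1 (by omega), fun i e1 e2 => hE i (by omega)⟩
  have hsub : ∀ a b, 1 ≤ a → b ≤ k → S.img z a (b + 1) ⊆ A := by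
    intro a b e1 e2 K hK
    obtain ⟨i, e3, e4, rfl⟩ := S.mem_img.1 hK
    exact hA i (by omega) (by omega)
  have hG' := S.cut_nonneg hz (p := 0) (j := k) (by omega) (by omega)
  have p1 := S.pos_succ z 0
  have pk := S.pos_succ z k
  have p0 := S.pos_zero z
  simp only [zero_add] at p1
  have g01 : S.gr (z 0) ≠ S.gr (z 1) := hne 1 0 le_rfl hk (by omega) (by omega)
  have gk : S.gr (z k) ≠ S.gr (z (k + 1)) := (hne k (k + 1) hk le_rfl (by omega) (by omega)).symm
  have depL := S.U_dep (hs 1 le_rfl hk) hU g01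
  have depR := S.V_dep (hs k hk le_rfl) hV gk
  have w1 := S.wpos _ (hs 1 le_rfl hk)
  have wk := S.wpos _ (hs k hk le_rfl)
  have cL : S.C (S.img z 1 (1 + 1)) < S.eta z 1 - S.eta z 0 := by
    have := S.U_single (hs 1 le_rfl hk) hU
    rw [img_one]; unfold eta; omega
  have cR : S.C (S.img z k (k + 1)) < S.pos z (k + 1) - S.pos z k := by
    have := S.V_single (hs k hk le_rfl) hV
    rw [img_one]; omega
  -- the three facts about the whole cost
  have whole : S.C A - 2 * (S.pos z m - S.gain z 0 k) <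
        S.eta z 1 - S.eta z 0 + S.C (S.img z 2 (k + 1)) ∧
      S.C A - 2 * (S.pos z m - S.gain z 0 k) <
        S.pos z (k + 1) - S.pos z k + S.C (S.img z 1 k) ∧
      (S.C A - 2 * (S.pos z m - S.gain z 0 k) ≤ S.C (S.img z 1 (k + 1)) ∨
        ∃ wc, SMode k (S.pos z) (S.eta z) (fun i => S.w (z i)) (S.F z)
          (fun i j => S.C (S.img z i (j + 1))) (fun a b => S.gain z (a - 1) b)
          (S.C A - 2 * (S.pos z m - S.gain z 0 k)) wc) := by
    have s1 := hc.split (c := 1 + 1) (by omega) (by omega)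
    have s2 := hc.split (c := k) hk (by omega)
    have s3 := C_le_sdiff (S := S) (hsub 1 k le_rfl le_rfl)
    have hp := h.pres_sdiff 0 k
    simp only [zero_add] at hp
    by_cases c1 : S.C (A \ S.img z 1 (k + 1)) ≤ 2 * (S.pos z m - S.gain z 0 k)
    · simp only [Nat.reduceAdd] at s1 cL
      exact ⟨by omega, by omega, Or.inl (by omega)⟩
    have hcl : ∀ s, k < s → s ≤ m → S.cl (z s) = S.cl (z 0) := by
      intro s e1 e2
      by_contra H
      refine c1 (S.cut_bound IH hz (p := 0) (j := k) hk (by omega)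
        (fun K hK => h.sink K (Finset.mem_sdiff.1 hK).1) (by simpa using hp)
        ⟨s, m, e1, by omega, hkm, by omega, by rwa [hzm]⟩)
    have hsd : ∀ K ∈ A \ S.img z 1 (k + 1), K = S.gr (z 0) := by
      intro K hK
      obtain ⟨s, e1, e2, rfl⟩ := hp K hK
      exact S.same_gr _ _ (hcl s e1 e2)
    have h0 : S.gr (z 0) ∈ A := by
      by_contra H
      have : A \ S.img z 1 (k + 1) = ∅ := Finset.eq_empty_of_forall_notMem fun K hK => by
        have e := hsd K hK
        subst e
        exact H (Finset.mem_sdiff.1 hK).1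
      rw [this, S.C_empty] at c1
      omega
    have hs0 := h.sink _ h0
    have hk1 : S.cl (z (k + 1)) = S.cl (z 0) := hcl _ (by omega) hkm
    have gk1 : S.gr (z (k + 1)) = S.gr (z 0) := S.same_gr _ _ hk1
    have wk1 : S.w (z (k + 1)) = S.w (z 0) := S.same_w _ _ hk1
    have hmem : ∀ K, K ∈ A ↔ K = S.gr (z 0) ∨ K ∈ S.img z 1 (k + 1) := by
      intro K
      constructor
      · intro hK
        by_cases e : K ∈ S.img z 1 (k + 1)
        · exact Or.inr e
        · exact Or.inl (hsd K (Finset.mem_sdiff.2 ⟨hK, e⟩))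
      · rintro (rfl | e)
        · exact h0
        · exact hsub 1 k le_rfl le_rfl e
    have hn0 : ∀ a b, 1 ≤ a → b ≤ k + 1 → S.gr (z 0) ∉ S.img z a b := by
      intro a b e1 e2 e3
      obtain ⟨i, e4, e5, e6⟩ := S.mem_img.1 e3
      exact hne i 0 (by omega) (by omega) (by omega) (by omega) e6.symm
    have t1 : S.C A ≤ S.C {S.gr (z 0), S.gr (z 1)} + S.C (S.img z 2 (k + 1)) := by
      have : A = {S.gr (z 0), S.gr (z 1)} ∪ S.img z 2 (k + 1) := by
        ext K
        rw [hmem, S.img_split z (s := 1) (c := 1 + 1) (e := k + 1) (by omega) (by omega), img_one]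
        simp only [Finset.mem_union, Finset.mem_insert, Finset.mem_singleton, or_assoc]
      rw [this]
      refine S.C_union _ _ (Finset.disjoint_left.2 fun K e1 e2 => ?_)
      simp only [Finset.mem_insert, Finset.mem_singleton] at e1
      rcases e1 with rfl | rfl
      · exact hn0 _ _ (by omega) le_rfl e2
      · obtain ⟨i, e4, e5, e6⟩ := S.mem_img.1 e2
        exact hne 1 i le_rfl hk (by omega) (by omega) e6
    have t2 : S.C A ≤ S.C {S.gr (z k), S.gr (z (k + 1))} + S.C (S.img z 1 k) := by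
      have : A = {S.gr (z k), S.gr (z (k + 1))} ∪ S.img z 1 k := by
        ext K
        rw [hmem, S.img_split z (s := 1) (c := k) (e := k + 1) (by omega) (by omega), img_one, gk1]
        simp only [Finset.mem_union, Finset.mem_insert, Finset.mem_singleton]
        tauto
      rw [this]
      refine S.C_union _ _ (Finset.disjoint_left.2 fun K e1 e2 => ?_)
      simp only [Finset.mem_insert, Finset.mem_singleton] at e1
      rcases e1 with rfl | rfl
      · obtain ⟨i, e4, e5, e6⟩ := S.mem_img.1 e2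
        exact hne k i hk le_rfl (by omega) (by omega) e6
      · rw [gk1] at e2
        exact hn0 _ _ le_rfl (by omega) e2
    have t3 : S.C A ≤ S.C {S.gr (z 0)} + S.C (S.img z 1 (k + 1)) := by
      have : A = {S.gr (z 0)} ∪ S.img z 1 (k + 1) := by
        ext K
        rw [hmem]
        simp only [Finset.mem_union, Finset.mem_singleton]
      conv_lhs => rw [this]
      exact S.C_union _ _ (Finset.disjoint_singleton_left.2 (hn0 _ _ le_rfl le_rfl))
    have u1 := S.U_pair hs0 (hs 1 le_rfl hk) hU g01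
    have u2 := S.V_pair (hs k hk le_rfl) (by rwa [gk1]) hV gk
    have u3 := S.single0 _ hs0
    have u4 := S.long _ hs0
    have u5 := S.long (z (k + 1)) (by rwa [gk1])
    have u6 := S.wpos _ hs0
    have u7 := S.pos_mono z (a := k + 1) (b := m) hkm fun i e1 e2 => by
      have e3 := hcl i (by omega) (by omega)
      exact (S.intra _ _ (by rwa [S.same_gr _ _ e3])
        (e3.trans (hcl (i + 1) (by omega) (by omega)).symm)).1
    have u8 : min (S.Y (z 0) (z 1)) (S.Y (z k) (z (k + 1))) < S.Y (z 0) (z (k + 1)) + S.w (z 0) := by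
      obtain ⟨δ, hδ⟩ := S.same_X _ _ hk1.symm
      obtain ⟨j, e1, e2⟩ := exists_floor_mul
        (min (S.Y (z 0) (z 1)) (S.Y (z k) (z (k + 1))) - (S.o (z 0) - δ)) (S.w (z 0)) u6
      have := S.maxl (z 0) (z (k + 1)) (z 1) (z k) (S.o (z 0) - δ + j * S.w (z 0)) (by omega)
        (by omega) fun t _ _ => by
          rw [hδ, ← per_mul (S.per (z 0)) j]; congr 1; ring
      omega
    refine ⟨by unfold eta; omega, by omega, Or.inr ⟨S.w (z 0), u6, ?_, ?_, ?_, ?_, ?_, ?_⟩⟩
    · unfold eta; omega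
    · unfold eta; omega
    · simp only [Nat.sub_self]
      unfold gain eta at *; omega
    · intro l e1 e2
      exact S.F_noAgree z (S.cl_ne (hne l 0 e1 e2 (by omega) (by omega)))
    · intro l e1 e2
      have := S.F_noAgree z (S.cl_ne (hne l (k + 1) e1 e2 (by omega) (by omega)).symm)
      rwa [wk1, add_comm (S.w (z l))] at this
    · simp only [Nat.sub_self]
      unfold gain eta; omega
  have R : Run k (S.pos z) (S.eta z) (fun i => S.w (z i)) (S.F z)
      (fun i j => S.C (S.img z i (j + 1))) (fun a b => S.gain z (a - 1) b)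
      (S.C A - 2 * (S.pos z m - S.gain z 0 k)) :=
    { hk := hk
      wpos := fun a e1 e2 => S.wpos _ (hs a e1 e2)
      long := fun a e1 e2 => by have := S.long _ (hs a e1 e2); unfold eta; omega
      monB := fun a e1 e2 => by have := hB a e1 e2; rw [pos_succ]; omega
      monE := fun a e1 => by have := hE a e1; unfold eta; rw [pos_succ]; omega
      ovl := fun a _ => by have := S.Y_nonneg (z a) (z (a + 1)); unfold eta; rw [pos_succ]; omega
      depL := by unfold eta; omega
      depR := by omega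
      per := fun a _ _ => S.F_per z a
      agree := fun a _ => S.F_agree z a
      FW := fun a b e1 e2 e3 =>
        S.F_noAgree z (S.cl_ne (hne b a (by omega) e3 (by omega) (by omega)))
      c1 := fun a e1 e2 => hc.one e1 (by omega)
      cL := cL
      cR := cR
      cP := fun a e1 e2 => hc.pair e1 (by omega)
      split := fun a c b e1 e2 e3 e4 =>
        (hc.mono (s' := a) (e' := b + 1) e1 (by omega)).split (by omega) (by omega)
      Cemp := fun a => by rw [S.img_empty z le_rfl, S.C_empty]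
      gap := fun p j _ _ => S.gap_le_gain z p j
      ov := fun p j D _ _ e1 e2 e3 => S.le_gain z p j D e1 e2 e3
      sL := whole.1
      sR := by rintro p rfl; exact whole.2.1
      mode := whole.2.2 }
  rcases R.main with ⟨a, b, e1, e2, e3, e4, e5⟩ | e5
  · obtain ⟨p, rfl⟩ : ∃ p, a = p + 1 := ⟨a - 1, by omega⟩
    simp only [Nat.add_sub_cancel] at e5
    have e6 := C_le_sdiff (S := S) (hsub (p + 1) b e1 e3)
    have e7 := S.cut_bound IH hz (p := p) (j := b) e2 (by omega)
      (fun K hK => h.sink K (Finset.mem_sdiff.1 hK).1) (h.pres_sdiff p b) (by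
        by_cases e : b = k
        · refine ⟨m, 1 + m, by omega, by omega, by omega, by omega, ?_⟩
          rw [hzm, hz]
          exact S.cl_ne g01
        · exact ⟨m, k, by omega, by omega, by omega, by omega,
            S.cl_ne (hne k m hk le_rfl (by omega) le_rfl)⟩)
    omega
  · simp only [Nat.sub_self] at e5
    omega

lemma Red.shift {z : ℕ → N} {m : ℕ} {A : Finset Gr} (h : S.Red z m A) (r : ℕ) :
    S.Red (fun t => z (r + t)) m A where
  hm := h.hm
  per := fun i => by rw [← add_assoc, h.per]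
  sink := h.sink
  pres := fun K hK => by
    obtain ⟨i, rfl⟩ := h.pres K hK
    obtain ⟨s, e1, -, e3, -⟩ := exists_window h.per h.hm r i
    exact ⟨s - r, by rw [show r + (s - r) = s by omega, e3]⟩
  own := fun i hi => h.own (r + i) hi
  uniq := fun i j hi e => by
    have := h.uniq (r + i) (r + j) hi e
    rw [add_assoc] at this
    exact Nat.ModEq.add_left_cancel' r this

variable (S)

theorem main (m : ℕ) : S.Claim m := by
  induction m using Nat.strong_induction_on with
  | _ m IH =>
  intro z A hm hz hA hp h2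
  have hm2 : 2 ≤ m := by
    by_contra H
    obtain rfl : m = 1 := by omega
    obtain ⟨i, j, hij⟩ := h2
    rw [← per_mod hz i, ← per_mod hz j, Nat.mod_one, Nat.mod_one] at hij
    exact hij rfl
  by_cases hred : ∃ p, S.High z p ∧ (S.gr (z (p + 1)) ∉ A ∨
      ∃ j, S.gr (z j) = S.gr (z (p + 1)) ∧ j % m ≠ (p + 1) % m)
  · obtain ⟨p, hh, hor⟩ := hred
    have hg := S.gain_high z p hh.1 hh.2
    have hp' : ∀ K ∈ A, ∃ s, p + 1 < s ∧ s ≤ p + m ∧ S.gr (z s) = K := by
      intro K hK
      obtain ⟨i, rfl⟩ := hp K hK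
      obtain ⟨s, e1, e2, e3, -⟩ := exists_window hz hm (p + 1) i
      rcases Nat.eq_or_lt_of_le e1 with rfl | e4
      · rcases hor with e5 | ⟨j, e5, e6⟩
        · rw [e3] at e5; exact absurd hK e5
        · obtain ⟨t, a1, a2, a3, a4⟩ := exists_window hz hm (p + 1) j
          refine ⟨t, ?_, by omega, by rw [a3, e5, e3]⟩
          rcases Nat.eq_or_lt_of_le a1 with rfl | a5
          · exact absurd a4.symm e6
          · exact a5
      · exact ⟨s, e4, by omega, by rw [e3]⟩
    by_cases hcl : ∀ s, p + 1 < s → s ≤ p + m → S.cl (z s) = S.cl (z p)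
    · have hne : S.cl (z p) ≠ S.cl (z (p + 1)) := by
        intro e
        have : ∀ i, S.cl (z i) = S.cl (z p) := by
          intro i
          obtain ⟨s, e1, e2, e3, -⟩ := exists_window hz hm (p + 1) i
          rw [← e3]
          rcases Nat.eq_or_lt_of_le e1 with rfl | e4
          · exact e.symm
          · exact hcl s e4 (by omega)
        obtain ⟨i, j, hij⟩ := h2
        exact hij ((this i).trans (this j).symm)
      have hK : ∀ K ∈ A, K = S.gr (z p) := by
        intro K hK
        obtain ⟨s, e1, e2, rfl⟩ := hp' K hK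
        exact S.same_gr _ _ (hcl s e1 e2)
      rcases A.eq_empty_or_nonempty with rfl | ⟨K, hK'⟩
      · have := S.cyc_nonneg m z hm hz
        rw [S.C_empty]; omega
      · have e := hK K hK'
        subst e
        have : A = {S.gr (z p)} := Finset.eq_singleton_iff_unique_mem.2 ⟨hK', hK⟩
        rw [this]
        exact S.S1 hz hm2 hh hcl hne (hA _ hK')
    · push Not at hcl
      obtain ⟨s, e1, e2, e3⟩ := hcl
      have := S.cut_bound IH hz (p := p) (j := p + 1) (by omega) (by omega) hA hp'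
        ⟨s, p + m, e1, e2, by omega, le_rfl, by rwa [hz]⟩
      omega
  · push Not at hred
    have h : S.Red z m A := ⟨hm, hz, hA, hp, fun i hi => (hred i hi).1,
      fun i j hi e => (hred i hi).2 j e⟩
    by_cases hU : ∀ i, S.Y (z i) (z (i + 1)) ≤ S.o (z i)
    · by_cases hV : ∀ i, S.Y (z i) (z (i + 1)) ≤ S.o (z (i + 1))
      · exact h.clean hm2 hU hV
      · push Not at hV
        obtain ⟨r, hr⟩ := hV
        exact h.allV hU hr
    · push Not at hU
      obtain ⟨u, hu⟩ := hU
      by_cases hV : ∀ i, S.Y (z i) (z (i + 1)) ≤ S.o (z (i + 1))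
      · exact h.allU hV hu
      · push Not at hV
        obtain ⟨v₀, hv₀⟩ := hV
        have hex : ∃ v, u < v ∧ S.o (z (v + 1)) < S.Y (z v) (z (v + 1)) := by
          refine ⟨v₀ + (u + 1) * m, ?_, ?_⟩
          · have : u + 1 ≤ (u + 1) * m := Nat.le_mul_of_pos_right _ hm
            omega
          · have hper : ∀ i, z (i + (u + 1) * m) = z i := fun i =>
              (Function.Periodic.nat_mul (f := z) (c := m) hz (u + 1)) i
            rwa [show v₀ + (u + 1) * m + 1 = v₀ + 1 + (u + 1) * m by omega, hper, hper]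
        classical
        obtain ⟨hv1, hv2⟩ := Nat.find_spec hex
        have hv3 := fun i => Nat.find_min hex (m := i)
        generalize Nat.find hex = v at hv1 hv2 hv3
        obtain ⟨r, r1, r2, r3, r4⟩ :=
          exists_last (P := fun i => S.o (z i) < S.Y (z i) (z (i + 1))) hu hv1
        obtain ⟨k, rfl⟩ : ∃ k, v = r + k := ⟨v - r, by omega⟩
        have hkm : k < m := by
          by_contra H
          have e1 : S.o (z (r + m)) < S.Y (z (r + m)) (z (r + m + 1)) := by
            rwa [show r + m + 1 = r + 1 + m by omega, hz, hz]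
          rcases Nat.eq_or_lt_of_le (not_lt.1 H) with rfl | e2
          · have := S.P2 (z (r + m)) (z (r + m + 1))
            omega
          · exact r4 (r + m) (by omega) (by omega) e1
        have := (h.shift r).run IH (k := k) (by omega) hkm r3 hv2 (fun i e1 e2 => ?_)
          (fun i e1 => ?_)
        · have e := S.pos_shift_per hz r
          simp only [add_comm _ r] at e
          rwa [e] at this
        · rcases Nat.eq_or_lt_of_le e2 with rfl | e3
          · exact S.V_le hv2
          · exact not_lt.1 (r4 (r + i) (by omega) (by omega))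
        · rcases Nat.eq_zero_or_pos i with rfl | e3
          · exact S.U_le r3
          · by_contra H
            exact hv3 (r + i) (by omega) ⟨by omega, not_le.1 H⟩

lemma pos_eq_sum (z : ℕ → N) (m : ℕ) :
    S.pos z m = ∑ i ∈ Finset.range m, (S.o (z i) - S.Y (z i) (z (i + 1))) := by
  induction m with
  | zero => simp [pos_zero]
  | succ m ih => rw [pos_succ, ih, Finset.sum_range_succ]; ring

theorem global_aux [Fintype N] [DecidableEq N] (π : Equiv.Perm N) (wit : Gr → N) (A : Finset Gr)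
    (hA : ∀ K ∈ A, S.sink K ∧ S.gr (wit K) = K ∧ S.cl (π (wit K)) ≠ S.cl (wit K))
    (T : Finset N) (hT : ∀ n ∈ T, π n ∈ T) :
    S.C (A.filter (fun K => wit K ∈ T)) ≤ 2 * ∑ n ∈ T, (S.o n - S.Y n (π n)) := by
  induction T using Finset.strongInduction with
  | H T ih =>
  rcases T.eq_empty_or_nonempty with rfl | ⟨n₀, hn₀⟩
  · simp [S.C_empty]
  set m := Function.minimalPeriod π n₀ with hm
  have hper : n₀ ∈ Function.periodicPts π := π.injective.mem_periodicPts n₀
  have hm0 : 0 < m := Function.minimalPeriod_pos_of_mem_periodicPts hper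
  set z : ℕ → N := fun i => π^[i] n₀ with hzdef
  have hz : ∀ i, z (i + m) = z i := fun i => Function.iterate_add_minimalPeriod_eq
  have hz1 : ∀ i, z (i + 1) = π (z i) := fun i => Function.iterate_succ_apply' _ _ _
  set O := (Finset.range m).image z with hO
  have hmemO : ∀ n, n ∈ O ↔ ∃ i, z i = n := by
    intro n
    simp only [hO, Finset.mem_image, Finset.mem_range]
    constructor
    · rintro ⟨i, -, e⟩; exact ⟨i, e⟩
    · rintro ⟨i, e⟩; exact ⟨i % m, Nat.mod_lt _ hm0, by rw [per_mod hz, e]⟩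
  have hOT : O ⊆ T := by
    intro n hn
    obtain ⟨i, rfl⟩ := (hmemO n).1 hn
    clear hn
    induction i with
    | zero => exact hn₀
    | succ i ih' => rw [hz1]; exact hT _ ih'
  have hsum : ∑ n ∈ O, (S.o n - S.Y n (π n)) = S.pos z m := by
    rw [hO, Finset.sum_image, pos_eq_sum]
    · exact Finset.sum_congr rfl fun i _ => by rw [hz1]
    · intro i hi j hj e
      exact (Function.iterate_eq_iterate_iff_of_lt_minimalPeriod (by simpa using hi)
        (by simpa using hj)).1 e
  have h1 := ih (T \ O) (Finset.sdiff_ssubset hOT ⟨n₀, (hmemO _).2 ⟨0, rfl⟩⟩) (by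
    intro n hn
    obtain ⟨e1, e2⟩ := Finset.mem_sdiff.1 hn
    refine Finset.mem_sdiff.2 ⟨hT n e1, fun e3 => e2 ?_⟩
    obtain ⟨i, hi⟩ := (hmemO _).1 e3
    refine (hmemO _).2 ⟨i + m - 1, π.injective ?_⟩
    rw [← hz1, show i + m - 1 + 1 = i + m by omega, hz, hi])
  have h2 : S.C (A.filter (fun K => wit K ∈ O)) ≤ 2 * S.pos z m := by
    rcases (A.filter (fun K => wit K ∈ O)).eq_empty_or_nonempty with e | ⟨K, hK⟩
    · have := S.cyc_nonneg m z hm0 hz
      rw [e, S.C_empty]; omega
    · refine S.main m z _ hm0 hz (fun K hK => (hA K (Finset.mem_filter.1 hK).1).1)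
        (fun K hK => ?_) ?_
      · obtain ⟨e1, e2⟩ := Finset.mem_filter.1 hK
        obtain ⟨i, hi⟩ := (hmemO _).1 e2
        exact ⟨i, by rw [hi, (hA K e1).2.1]⟩
      · obtain ⟨e1, e2⟩ := Finset.mem_filter.1 hK
        obtain ⟨i, hi⟩ := (hmemO _).1 e2
        exact ⟨i + 1, i, by rw [hz1, hi]; exact (hA K e1).2.2⟩
  have h3 : A.filter (fun K => wit K ∈ T) =
      A.filter (fun K => wit K ∈ T \ O) ∪ A.filter (fun K => wit K ∈ O) := by
    ext K
    simp only [Finset.mem_filter, Finset.mem_union, Finset.mem_sdiff]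
    have := @hOT (wit K)
    tauto
  have h4 := S.C_union (A.filter (fun K => wit K ∈ T \ O)) (A.filter (fun K => wit K ∈ O))
    (Finset.disjoint_left.2 fun K e1 e2 =>
      (Finset.mem_sdiff.1 (Finset.mem_filter.1 e1).2).2 (Finset.mem_filter.1 e2).2)
  rw [h3, ← Finset.sum_sdiff hOT, hsum]
  omega

/-- the cover cost of the sinks is at most twice the loss of any competing permutation that leaves
every sink -/
theorem global [Fintype N] [DecidableEq N] [Nonempty N] (π : Equiv.Perm N) (A : Finset Gr)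
    (hA : ∀ K ∈ A, S.sink K ∧ ∃ n, S.gr n = K ∧ S.cl (π n) ≠ S.cl n) :
    S.C A ≤ 2 * ∑ n, (S.o n - S.Y n (π n)) := by
  classical
  have : ∀ K, ∃ n, K ∈ A → S.gr n = K ∧ S.cl (π n) ≠ S.cl n := by
    intro K
    by_cases hK : K ∈ A
    · obtain ⟨n, hn⟩ := (hA K hK).2
      exact ⟨n, fun _ => hn⟩
    · exact ⟨Classical.arbitrary N, fun e => absurd e hK⟩
  choose wit hwit using this
  have := S.global_aux π wit A (fun K hK => ⟨(hA K hK).1, hwit K hK⟩) Finset.univ (by simp)
  simpa using this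

end Sys

end Crest.Agent.R287
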