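import Crest.Agent.R287.Str

/-! Row 287: cycles of the cover and their staircases. -/

set_option autoImplicit false

namespace Crest.Agent.R287

variable {I : List Str} {sg : List ℕ}

theorem per_pos (I : List Str) (sg : List ℕ) (i : ℕ) : 0 < per I sg i := Nat.succ_pos _

theorem iter_lt (h : Good I sg) {i : ℕ} (hi : i < I.length) (k : ℕ) : (nx sg)^[k] i < I.length := by
  induction k with
  | zero => exact hi
  | succ k ih => rw [Function.iterate_succ_apply']; exact h.lt _ ih

theorem orbit_iter_inj (h : Good I sg) {i j : ℕ} (hi : i < I.length) (hj : j < I.length) (k : ℕ)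
    (e : (nx sg)^[k] i = (nx sg)^[k] j) : i = j := by
  induction k with
  | zero => exact e
  | succ k ih =>
    rw [Function.iterate_succ_apply', Function.iterate_succ_apply'] at e
    exact ih (h.inj _ _ (iter_lt h hi k) (iter_lt h hj k) e)

theorem orbit_exists_period (h : Good I sg) {i : ℕ} (hi : i < I.length) :
    ∃ p, 0 < p ∧ p ≤ I.length ∧ Function.IsPeriodicPt (nx sg) p i := by
  obtain ⟨a, ha, b, hb, hab, e⟩ := Finset.exists_ne_map_eq_of_card_lt_of_maps_to
    (s := Finset.range (I.length + 1)) (t := Finset.range I.length) (f := fun k => (nx sg)^[k] i)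
    (by simp) (fun k _ => Finset.mem_coe.2 (Finset.mem_range.2 (iter_lt h hi k)))
  wlog hlt : a < b generalizing a b
  · exact this b hb a ha hab.symm e.symm (by omega)
  rw [Finset.mem_range] at hb
  refine ⟨b - a, by omega, by omega, orbit_iter_inj h (iter_lt h hi _) hi a ?_⟩
  rw [← Function.iterate_add_apply, Nat.add_sub_cancel' hlt.le]
  exact e.symm

theorem per_eq (h : Good I sg) {i : ℕ} (hi : i < I.length) :
    per I sg i = Function.minimalPeriod (nx sg) i := by
  obtain ⟨p, hp0, hp, hpi⟩ := orbit_exists_period h hi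
  have h1 : 0 < Function.minimalPeriod (nx sg) i := hpi.minimalPeriod_pos hp0
  have h2 : Function.minimalPeriod (nx sg) i ≤ p := hpi.minimalPeriod_le hp0
  have h3 : (List.range I.length).find? (fun k => (nx sg)^[k + 1] i == i) =
      some (Function.minimalPeriod (nx sg) i - 1) := by
    rw [List.find?_range_eq_some]
    refine ⟨?_, List.mem_range.2 (by omega), fun j hj => ?_⟩
    · rw [Nat.sub_add_cancel h1, beq_iff_eq]
      exact Function.iterate_minimalPeriod
    · rw [Bool.not_eq_true', beq_eq_false_iff_ne]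
      intro e
      have := Function.IsPeriodicPt.minimalPeriod_le (Nat.succ_pos j) e
      omega
  rw [per, h3, Option.getD_some, Nat.sub_add_cancel h1]

theorem iter_per (h : Good I sg) {i : ℕ} (hi : i < I.length) : (nx sg)^[per I sg i] i = i := by
  rw [per_eq h hi]
  exact Function.iterate_minimalPeriod

theorem nx_surj (h : Good I sg) {j : ℕ} (hj : j < I.length) : ∃ i, i < I.length ∧ nx sg i = j := by
  refine ⟨(nx sg)^[per I sg j - 1] j, iter_lt h hj _, ?_⟩
  rw [← Function.iterate_succ_apply' (nx sg), Nat.succ_eq_add_one,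
    Nat.sub_add_cancel (per_pos I sg j), iter_per h hj]

theorem nx_ne_zero (h : Good I sg) {i : ℕ} (hi : i < I.length) (h0 : i ≠ 0) : nx sg i ≠ 0 := by
  exact fun e => h0 (h.inj i 0 hi h.pos (e.trans h.nx0.symm))

theorem mem_orb (h : Good I sg) {i j : ℕ} (hi : i < I.length) :
    j ∈ orb I sg i ↔ ∃ k, (nx sg)^[k] i = j := by
  simp only [orb, List.mem_map, List.mem_range]
  refine ⟨fun ⟨k, _, e⟩ => ⟨k, e⟩, fun ⟨k, e⟩ => ⟨k % per I sg i, Nat.mod_lt _ (per_pos I sg i), ?_⟩⟩
  rw [per_eq h hi, Function.iterate_mod_minimalPeriod_eq, e]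

theorem self_mem_orb (I : List Str) (sg : List ℕ) (i : ℕ) : i ∈ orb I sg i := by
  exact List.mem_map.2 ⟨0, List.mem_range.2 (per_pos I sg i), rfl⟩

theorem orb_lt (h : Good I sg) {i j : ℕ} (hi : i < I.length) (hj : j ∈ orb I sg i) :
    j < I.length := by
  obtain ⟨k, rfl⟩ := (mem_orb h hi).1 hj
  exact iter_lt h hi k

theorem orb_nodup (h : Good I sg) {i : ℕ} (hi : i < I.length) : (orb I sg i).Nodup := by
  refine List.nodup_range.map_on fun a ha b hb e => ?_
  rw [List.mem_range, per_eq h hi] at ha hb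
  exact Function.iterate_injOn_Iio_minimalPeriod ha hb e

theorem orb_nx (h : Good I sg) {i : ℕ} (hi : i < I.length) :
    orb I sg (nx sg i) = (orb I sg i).rotate 1 := by
  have e : per I sg (nx sg i) = per I sg i := by
    rw [per_eq h hi, per_eq h (h.lt i hi)]
    exact Function.minimalPeriod_apply ⟨_, per_pos I sg i, iter_per h hi⟩
  refine List.ext_getElem (by simp [orb, e]) fun k h1 h2 => ?_
  rw [List.getElem_rotate]
  simp only [orb, List.getElem_map, List.getElem_range, List.length_map, List.length_range]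
  rw [per_eq h hi, Function.iterate_mod_minimalPeriod_eq, Function.iterate_succ_apply]

theorem orb_perm (h : Good I sg) {i j : ℕ} (hi : i < I.length) (hj : j ∈ orb I sg i) :
    (orb I sg j).Perm (orb I sg i) := by
  obtain ⟨k, rfl⟩ := (mem_orb h hi).1 hj
  clear hj
  induction k with
  | zero => exact List.Perm.refl _
  | succ k ih =>
    rw [Function.iterate_succ_apply', orb_nx h (iter_lt h hi k)]
    exact (List.rotate_perm _ _).trans ih

theorem orb_symm (h : Good I sg) {i j : ℕ} (hi : i < I.length) (hj : j ∈ orb I sg i) :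
    i ∈ orb I sg j := by
  exact (orb_perm h hi hj).mem_iff.2 (self_mem_orb I sg i)

theorem orb_zero (h : Good I sg) : orb I sg 0 = [0] := by
  have : per I sg 0 = 1 := by
    rw [per_eq h h.pos]
    exact Function.minimalPeriod_eq_one_iff_isFixedPt.2 h.nx0
  rw [orb, this]
  rfl

theorem ne_zero_of_mem_orb (h : Good I sg) {i j : ℕ} (hi : i < I.length) (h0 : i ≠ 0)
    (hj : j ∈ orb I sg i) : j ≠ 0 := by
  rintro rfl
  have := orb_symm h hi hj
  rw [orb_zero h] at this
  exact h0 (List.mem_singleton.1 this)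

theorem ov_zero (h : Good I sg) : ov I sg 0 = 0 := by
  rw [ov, h.zero, ovp_nil_left]

theorem wo_zero (h : Good I sg) : wo I sg 0 = 0 := by
  simp [wo, orb_zero h, ext, h.nx0, h.zero]

theorem Wl_zero (h : Good I sg) : Wl I sg 0 = [[]] := by
  simp [Wl, orb_zero h, seg, ext, h.nx0, h.zero]

theorem ext_pos (h : Good I sg) {i : ℕ} (hi : i < I.length) (h0 : i ≠ 0) : 0 < ext I sg i := by
  exact Nat.sub_pos_of_lt
    (ovp_lt _ (h.ne_nil _ (Nat.pos_of_ne_zero (nx_ne_zero h hi h0)) (h.lt i hi)))

theorem ov_lt (h : Good I sg) {i : ℕ} (hi : i < I.length) (h0 : i ≠ 0) :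
    ov I sg i < (st I i).length := by
  refine lt_of_le_of_ne (ovp_le_left _ _) fun e => ?_
  have h1 : (st I (nx sg i)).take (ov I sg i) = st I i :=
    (ovp_suffix _ _).eq_of_length (by
      rw [List.length_take, min_eq_left (ovp_le _ _)]; exact e)
  have h2 : i = nx sg i := h.free i _ (Nat.pos_of_ne_zero h0) hi (h.lt i hi)
    (h1 ▸ (List.take_prefix _ _).isInfix)
  have h3 := ovp_lt (st I i) (h.ne_nil i (Nat.pos_of_ne_zero h0) hi)
  rw [ov, ← h2] at e
  omega

theorem ext_le_wo (I : List Str) (sg : List ℕ) (i : ℕ) : ext I sg i ≤ wo I sg i := by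
  exact List.single_le_sum (fun _ _ => Nat.zero_le _) _
    (List.mem_map_of_mem (self_mem_orb I sg i))

theorem wo_congr (h : Good I sg) {i j : ℕ} (hi : i < I.length) (hj : j ∈ orb I sg i) :
    wo I sg j = wo I sg i := by
  exact ((orb_perm h hi hj).map _).sum_eq

theorem wo_eq_sum (h : Good I sg) {i : ℕ} (hi : i < I.length) :
    wo I sg i = ∑ j ∈ (orb I sg i).toFinset, ext I sg j := by
  exact (List.sum_toFinset _ (orb_nodup h hi)).symm

theorem mem_Wl_congr (h : Good I sg) {i j : ℕ} (hi : i < I.length) (hj : j ∈ orb I sg i)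
    (q : Str) : q ∈ Wl I sg j ↔ q ∈ Wl I sg i := by
  exact ((orb_perm h hi hj).flatMap_right _).mem_iff

theorem drop_mem_Wl (I : List Str) (sg : List ℕ) (i t : ℕ)
    (ht : t ≤ (st I i).length - ov I sg i) : (st I i).drop t ∈ Wl I sg i := by
  exact List.mem_flatMap.2 ⟨i, self_mem_orb I sg i, List.mem_append_left _
    (List.mem_map.2 ⟨t, List.mem_range.2 (Nat.lt_succ_of_le ht), rfl⟩)⟩

theorem st_mem_Wl (I : List Str) (sg : List ℕ) (i : ℕ) : st I i ∈ Wl I sg i :=
  drop_mem_Wl I sg i 0 (Nat.zero_le _)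

theorem orbit_take_ov (I : List Str) (sg : List ℕ) (i : ℕ) :
    (st I (nx sg i)).take (ov I sg i) = (st I i).drop ((st I i).length - ov I sg i) := by
  have := List.suffix_iff_eq_drop.1 (ovp_suffix (st I i) (st I (nx sg i)))
  rwa [List.length_take, min_eq_left (ovp_le _ _)] at this

theorem orbit_argmin {α : Type} (f : α → ℕ) (d : α) {l : List α} {a : α} (ha : a ∈ l) :
    (l.argmin f).getD d ∈ l ∧ f ((l.argmin f).getD d) ≤ f a := by
  rcases e : l.argmin f with _ | m
  · rw [List.argmin_eq_none.1 e] at ha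
    simp at ha
  · exact ⟨List.argmin_mem e, List.le_of_mem_argmin ha e⟩

theorem orbit_dist_prefix {x y : Str} (h : x <+: y) : dist x y ≤ y.length - x.length :=
  dist_le_of_take h.length_le (by rw [← List.prefix_iff_eq_take.1 h])

theorem orbit_cost_range (g : ℕ → Str) (c : ℕ) (hg : ∀ u, dist (g u) (g (u + 1)) ≤ c) (m : ℕ) :
    cost ((List.range m).map g ++ [g m]) ≤ m * c := by
  induction m with
  | zero => simp
  | succ m ih =>
    rw [List.range_succ, List.map_append, List.map_singleton, cost_concat_concat, Nat.succ_mul]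
    exact Nat.add_le_add ih (hg m)

theorem orbit_seg_cons (I : List Str) (sg : List ℕ) (j : ℕ) : ∃ r, seg I sg j = st I j :: r := by
  rw [seg, List.range_succ_eq_map, List.map_cons]
  exact ⟨_, rfl⟩

theorem orbit_cost_seg (I : List Str) (sg : List ℕ) (j : ℕ) :
    cost (seg I sg j ++ [st I (nx sg j)]) ≤ ext I sg j := by
  have h1 := orbit_cost_range (fun t => (st I j).drop t) 0
    (fun u => (dist_of_suffix (List.drop_suffix_drop_left _ (Nat.le_succ u))).le)
    ((st I j).length - ov I sg j)
  have h2 := orbit_cost_range (fun u => (st I (nx sg j)).take (ov I sg j + u)) 1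
    (fun u => (orbit_dist_prefix (List.take_prefix_take_left (by omega))).trans (by
      simp only [List.length_take]; omega)) (ext I sg j - 1)
  have h3 := orbit_dist_prefix (List.take_prefix (ov I sg j + (ext I sg j - 1)) (st I (nx sg j)))
  have h4 : (st I (nx sg j)).take (ov I sg j) ::
      (List.range (ext I sg j - 1)).map (fun t => (st I (nx sg j)).take (ov I sg j + 1 + t)) =
      (List.range (ext I sg j - 1)).map (fun u => (st I (nx sg j)).take (ov I sg j + u)) ++
        [(st I (nx sg j)).take (ov I sg j + (ext I sg j - 1))] := by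
    rw [← List.map_singleton (f := fun u => (st I (nx sg j)).take (ov I sg j + u)),
      ← List.map_append, ← List.range_succ, List.range_succ_eq_map, List.map_cons, List.map_map]
    congr 1
    refine List.map_congr_left fun t _ => ?_
    simp only [Function.comp_apply, Nat.succ_eq_add_one]
    congr 1
    omega
  rw [seg, List.range_succ, List.map_append, List.map_singleton, List.append_assoc,
    List.append_assoc, List.singleton_append, cost_append_cons, ← List.cons_append]
  rw [← orbit_take_ov] at h1 ⊢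
  rw [h4, cost_concat_concat]
  rw [List.length_take] at h3
  unfold ext at *
  omega

theorem orbit_cost_iter (I : List Str) (sg : List ℕ) (i n : ℕ) :
    cost (((List.range n).map fun k => (nx sg)^[k] i).flatMap (seg I sg) ++
      [st I ((nx sg)^[n] i)]) ≤ (((List.range n).map fun k => (nx sg)^[k] i).map (ext I sg)).sum := by
  induction n with
  | zero => simp
  | succ n ih =>
    have h1 := orbit_cost_seg I sg ((nx sg)^[n] i)
    obtain ⟨r, hr⟩ := orbit_seg_cons I sg ((nx sg)^[n] i)
    rw [List.range_succ, List.map_append, List.flatMap_append, List.map_append, List.sum_append,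
      List.map_singleton, List.flatMap_singleton, List.map_singleton, List.sum_singleton,
      Function.iterate_succ_apply', List.append_assoc]
    rw [hr] at h1 ⊢
    rw [List.cons_append] at h1 ⊢
    rw [cost_append_cons]
    omega

/-- prefixes of the successor of length in `[ov, |st (nx i)|)`, and the overlap itself -/
theorem take_mem_Wl (I : List Str) (sg : List ℕ) (i k : ℕ) (h1 : ov I sg i ≤ k)
    (h2 : k = ov I sg i ∨ k < (st I (nx sg i)).length) : (st I (nx sg i)).take k ∈ Wl I sg i := by
  rcases h1.eq_or_lt with rfl | h3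
  · rw [orbit_take_ov]
    exact drop_mem_Wl I sg i _ le_rfl
  · have h4 : k < (st I (nx sg i)).length := h2.resolve_left h3.ne'
    refine List.mem_flatMap.2 ⟨i, self_mem_orb I sg i, List.mem_append_right _
      (List.mem_map.2 ⟨k - ov I sg i - 1, List.mem_range.2 (by unfold ext; omega), ?_⟩)⟩
    congr 1
    omega

theorem Lw_mem (I : List Str) (sg : List ℕ) (i j : ℕ) :
    (Lw I sg i j).1 ∈ Wl I sg i ∧ (Lw I sg i j).2 ∈ Wl I sg j := by
  exact List.mem_product.1 (orbit_argmin (fun p : Str × Str => dist p.1 p.2 + dist p.2 p.1) ([], [])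
    (List.mem_product.2 ⟨st_mem_Wl I sg i, st_mem_Wl I sg j⟩)).1

theorem Lc_le (I : List Str) (sg : List ℕ) {i j : ℕ} {q x : Str} (hq : q ∈ Wl I sg i)
    (hx : x ∈ Wl I sg j) : Lc I sg i j ≤ dist q x + dist x q := by
  exact (orbit_argmin (fun p : Str × Str => dist p.1 p.2 + dist p.2 p.1) ([], [])
    (List.mem_product.2 ⟨hq, hx⟩)).2

theorem Pw_mem (I : List Str) (sg : List ℕ) (i j : ℕ) :
    (Pw I sg i j).1 ∈ Wl I sg i ∧ (Pw I sg i j).2 ∈ Wl I sg j := by
  exact List.mem_product.1 (orbit_argmin (fun p : Str × Str => p.1.length + dist p.1 p.2) ([], [])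
    (List.mem_product.2 ⟨st_mem_Wl I sg i, st_mem_Wl I sg j⟩)).1

theorem P1_le (I : List Str) (sg : List ℕ) {i j : ℕ} {q x : Str} (hq : q ∈ Wl I sg i)
    (hx : x ∈ Wl I sg j) : P1 I sg i j ≤ q.length + dist q x := by
  exact (orbit_argmin (fun p : Str × Str => p.1.length + dist p.1 p.2) ([], [])
    (List.mem_product.2 ⟨hq, hx⟩)).2

theorem Pc_comm (I : List Str) (sg : List ℕ) (i j : ℕ) : Pc I sg i j = Pc I sg j i := min_comm _ _

theorem Pc_congr (h : Good I sg) {i j : ℕ} (hi : i < I.length) (hj : j ∈ orb I sg i) (x : ℕ) :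
    Pc I sg j x = Pc I sg i x := by
  have hW := mem_Wl_congr h hi hj
  have e1 : P1 I sg j x = P1 I sg i x := le_antisymm
    (P1_le I sg ((hW _).2 (Pw_mem I sg i x).1) (Pw_mem I sg i x).2)
    (P1_le I sg ((hW _).1 (Pw_mem I sg j x).1) (Pw_mem I sg j x).2)
  have e2 : P1 I sg x j = P1 I sg x i := le_antisymm
    (P1_le I sg (Pw_mem I sg x i).1 ((hW _).2 (Pw_mem I sg x i).2))
    (P1_le I sg (Pw_mem I sg x j).1 ((hW _).1 (Pw_mem I sg x j).2))
  rw [Pc, Pc, e1, e2]

theorem Lc_of_mem_orb (h : Good I sg) {i j : ℕ} (hi : i < I.length) (hj : j ∈ orb I sg i) :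
    Lc I sg i j = 0 := by
  simpa using Lc_le I sg (st_mem_Wl I sg i) ((mem_Wl_congr h hi hj _).2 (st_mem_Wl I sg i))

theorem Lc_zero_le (h : Good I sg) (i : ℕ) : Lc I sg i 0 ≤ ov I sg i := by
  have h1 := Lc_le I sg (j := 0) (x := []) (take_mem_Wl I sg i _ le_rfl (Or.inl rfl))
    (by simp [Wl_zero h])
  have h2 := dist_le [] ((st I (nx sg i)).take (ov I sg i))
  rw [List.length_take] at h2
  rw [dist_nil] at h1
  omega

theorem Pc_zero_le (h : Good I sg) (i : ℕ) : Pc I sg i 0 ≤ ov I sg i := by
  have h1 := P1_le I sg (j := 0) (x := []) (take_mem_Wl I sg i _ le_rfl (Or.inl rfl))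
    (by simp [Wl_zero h])
  rw [dist_nil, List.length_take] at h1
  exact (min_le_left _ _).trans (h1.trans (min_le_left _ _))

theorem mem_loop (I : List Str) (sg : List ℕ) {i : ℕ} (q : Str) {x : Str} (hx : x ∈ Wl I sg i) :
    x ∈ loop I sg i q := by
  rw [← List.take_append_drop ((Wl I sg i).idxOf q) (Wl I sg i), List.mem_append] at hx
  simp only [loop, List.mem_append]
  tauto

/-- the loop starts and ends at `q` and costs at most the period -/
theorem loop_spec (h : Good I sg) {i : ℕ} (hi : i < I.length) {q : Str} (hq : q ∈ Wl I sg i) :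
    ∃ l, loop I sg i q = q :: l ++ [q] ∧ cost (loop I sg i q) ≤ wo I sg i := by
  have hn := List.idxOf_lt_length_of_mem hq
  have e1 : (Wl I sg i).drop ((Wl I sg i).idxOf q) =
      q :: (Wl I sg i).drop ((Wl I sg i).idxOf q + 1) := by
    rw [List.drop_eq_getElem_cons hn, List.getElem_idxOf]
  have hc := orbit_cost_iter I sg i (per I sg i)
  rw [iter_per h hi] at hc
  change cost (Wl I sg i ++ [st I i]) ≤ wo I sg i at hc
  have hd : (Wl I sg i).head? = some (st I i) := by
    obtain ⟨r, hr⟩ := orbit_seg_cons I sg i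
    rw [Wl, orb, per, List.range_succ_eq_map, List.map_cons, List.flatMap_cons,
      Function.iterate_zero_apply, hr]
    rfl
  have e2 := List.take_append_drop ((Wl I sg i).idxOf q) (Wl I sg i)
  refine ⟨(Wl I sg i).drop ((Wl I sg i).idxOf q + 1) ++ (Wl I sg i).take ((Wl I sg i).idxOf q),
    by rw [loop, e1]; simp, le_trans (le_of_eq ?_) hc⟩
  rw [loop]
  rw [e1] at e2 ⊢
  generalize (Wl I sg i).drop ((Wl I sg i).idxOf q + 1) = B at *
  generalize (Wl I sg i).take ((Wl I sg i).idxOf q) = A at *
  rw [← e2] at hd ⊢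
  rcases A with _ | ⟨a, A⟩
  · obtain rfl : q = st I i := by simpa using hd
    simp
  · obtain rfl : a = st I i := by simpa using hd
    have h1 := cost_append_cons (q :: B) (st I i) (A ++ [q])
    have h2 := cost_append_cons (st I i :: A) q (B ++ [st I i])
    simp only [List.cons_append, List.append_assoc] at h1 h2 ⊢
    omega

end Crest.Agent.R287
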