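import Crest.Agent.R287.Groups

/-! Row 287: the algorithm runs in polynomial time. -/

set_option autoImplicit false

namespace Crest.Agent.R287
open Crest.Agent.Lib.Matching Crest.Agent.Lib.PT Crest.Enc

namespace PolyT

variable {α : Type} [Enc α]

attribute [local irreducible] ovf ovp dist spell prep inst st pairs gpairs gstep gassign greedy nx
  ov ext per orb wo seg Wl Lw Lc Pw P1 Pc loop R0 rstep reach grp isSink sinks gamF gamW gam gainF
  gainW gain gmat attach walk1 pwalk pairStep singleStep freeStep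

@[fun_prop] lemma pt_suffix {l m : α → Str} [∀ a, Decidable (l a <:+ m a)] (hl : PT l)
    (hm : PT m) : PT (fun a => decide (l a <:+ m a)) := by
  have : PT (fun a => decide (l a = (m a).drop ((m a).length - (l a).length))) := by fun_prop
  exact this.congr fun a => by simp only [List.suffix_iff_eq_drop]

lemma infix_iff (s t : Str) :
    s <:+: t ↔ ∃ i < t.length + 1, s = (t.drop i).take s.length := by
  constructor
  · rintro ⟨u, v, rfl⟩
    exact ⟨u.length, by simp, by simp⟩
  · rintro ⟨i, -, h⟩
    rw [h]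
    exact (List.take_prefix _ _).isInfix.trans (List.drop_suffix _ _).isInfix

@[fun_prop] lemma pt_infix {l m : α → Str} [∀ a, Decidable (l a <:+: m a)] (hl : PT l)
    (hm : PT m) : PT (fun a => decide (l a <:+: m a)) := by
  have : PT (fun a => decide (∃ i < (m a).length + 1, l a = ((m a).drop i).take (l a).length)) := by
    fun_prop
  exact this.congr fun a => by simp only [infix_iff]

@[fun_prop] lemma pt_ovf {s t : α → Str} (hs : PT s) (ht : PT t) :
    PT (fun a => ovf (s a) (t a)) := by unfold ovf; fun_prop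

@[fun_prop] lemma pt_ovp {s t : α → Str} (hs : PT s) (ht : PT t) :
    PT (fun a => ovp (s a) (t a)) := by unfold ovp; fun_prop

@[fun_prop] lemma pt_dist {s t : α → Str} (hs : PT s) (ht : PT t) :
    PT (fun a => dist (s a) (t a)) := by unfold dist; fun_prop

@[fun_prop] lemma pt_spell {l : α → List Str} (hl : PT l) : PT (fun a => spell (l a)) := by
  unfold spell; fun_prop

@[fun_prop] lemma pt_prep {l : α → List Str} (hl : PT l) : PT (fun a => prep (l a)) := by
  unfold prep; fun_prop

@[fun_prop] lemma pt_inst {l : α → List Str} (hl : PT l) : PT (fun a => inst (l a)) := by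
  unfold inst; fun_prop

@[fun_prop] lemma pt_st {I : α → List Str} {i : α → ℕ} (hI : PT I) (hi : PT i) :
    PT (fun a => st (I a) (i a)) := by unfold st; fun_prop

@[fun_prop] lemma pt_pairs {I : α → List Str} (hI : PT I) : PT (fun a => pairs (I a)) := by
  unfold pairs; fun_prop

@[fun_prop] lemma pt_gpairs {I : α → List Str} (hI : PT I) : PT (fun a => gpairs (I a)) := by
  unfold gpairs; fun_prop

@[fun_prop] lemma pt_gstep {A : α → List (ℕ × ℕ)} {p : α → ℕ × ℕ} (hA : PT A) (hp : PT p) :
    PT (fun a => gstep (A a) (p a)) := by unfold gstep; fun_prop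

@[fun_prop] lemma pt_gassign {I : α → List Str} (hI : PT I) : PT (fun a => gassign (I a)) := by
  unfold gassign
  refine PT.foldl_add (f := fun _ => gstep) (fun p => sz p.2 + 1) (by fun_prop) (by fun_prop)
    (by fun_prop) (by fun_prop) (fun a acc x _ => ?_)
  unfold gstep
  split_ifs
  · omega
  · simp only [sz_cons]; omega

@[fun_prop] lemma pt_greedy {I : α → List Str} (hI : PT I) : PT (fun a => greedy (I a)) := by
  unfold greedy; fun_prop

@[fun_prop] lemma pt_nx {sg : α → List ℕ} {i : α → ℕ} (hs : PT sg) (hi : PT i) :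
    PT (fun a => nx (sg a) (i a)) := by unfold nx; fun_prop

lemma sz_nx (sg : List ℕ) (i : ℕ) : sz (nx sg i) ≤ sz sg := by
  unfold nx
  rw [List.getD_eq_getElem?_getD]
  cases h : sg[i]? with
  | none => exact sz_pos sg
  | some x => exact sz_le_of_mem (List.mem_of_getElem? h)

lemma pt_iter {sg : α → List ℕ} {i k : α → ℕ} (hs : PT sg) (hi : PT i) (hk : PT k) (hb : PB k) :
    PT (fun a => (nx (sg a))^[k a] (i a)) :=
  PT.iterate_inv (f := fun a => nx (sg a)) (fun a x => sz x ≤ sz (sg a) + sz (i a))
    (fun a => sz (sg a) + sz (i a)) (by fun_prop) hk hb hi (by fun_prop)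
    (fun _ => Nat.le_add_left _ _) (fun _ _ _ => (sz_nx _ _).trans (Nat.le_add_right _ _))
    (fun _ _ h => h)

variable {I : α → List Str} {sg : α → List ℕ} {i j : α → ℕ}

@[fun_prop] lemma pt_ov (hI : PT I) (hs : PT sg) (hi : PT i) :
    PT (fun a => ov (I a) (sg a) (i a)) := by unfold ov; fun_prop

@[fun_prop] lemma pt_ext (hI : PT I) (hs : PT sg) (hi : PT i) :
    PT (fun a => ext (I a) (sg a) (i a)) := by unfold ext; fun_prop

@[fun_prop] lemma pb_ext (hI : PT I) (hs : PT sg) (hi : PT i) :
    PB (fun a => ext (I a) (sg a) (i a)) := by unfold ext; fun_prop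

lemma find?_congr' {β : Type} {l : List β} {p q : β → Bool} (h : ∀ x ∈ l, p x = q x) :
    l.find? p = l.find? q := by
  induction l with
  | nil => rfl
  | cons x l ih =>
    rw [List.find?_cons, List.find?_cons, h x (by simp), ih (fun y hy => h y (by simp [hy]))]

@[fun_prop] lemma pt_per (hI : PT I) (hs : PT sg) (hi : PT i) :
    PT (fun a => per (I a) (sg a) (i a)) := by
  have h1 : PT (fun p : α × ℕ => (nx (sg p.1))^[min (p.2 + 1) (I p.1).length] (i p.1)) :=
    pt_iter (by fun_prop) (by fun_prop) (by fun_prop) (PB.min_right _ (by fun_prop))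
  have h2 : PT (fun a => (List.range (I a).length).find?
      (fun k => (nx (sg a))^[min (k + 1) (I a).length] (i a) == i a)) :=
    PT.find? (by fun_prop) (PT.beq h1 (by fun_prop))
  have h3 : PT (fun a => ((List.range (I a).length).find?
      (fun k => (nx (sg a))^[min (k + 1) (I a).length] (i a) == i a)).getD 0 + 1) := by fun_prop
  refine h3.congr fun a => ?_
  unfold per
  rw [find?_congr']
  intro k hk
  rw [min_eq_left (by simpa [Nat.succ_le_iff] using hk)]

lemma per_le (I : List Str) (sg : List ℕ) (i : ℕ) : per I sg i ≤ I.length + 1 := by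
  unfold per
  cases h : (List.range I.length).find? (fun k => (nx sg)^[k + 1] i == i) with
  | none => simp
  | some k =>
    have := List.mem_range.1 (List.mem_of_find?_eq_some h)
    simp only [Option.getD_some]; omega

@[fun_prop] lemma pt_orb (hI : PT I) (hs : PT sg) (hi : PT i) :
    PT (fun a => orb (I a) (sg a) (i a)) := by
  have h1 : PT (fun p : α × ℕ => (nx (sg p.1))^[min p.2 ((I p.1).length + 1)] (i p.1)) :=
    pt_iter (by fun_prop) (by fun_prop) (by fun_prop) (PB.min_right _ (by fun_prop))
  have h0 : PB (fun a => per (I a) (sg a) (i a)) :=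
    PB.of_le (m := fun a => (I a).length + 1) (by fun_prop) (fun a => per_le _ _ _)
  have h2 : PT (fun a => (List.range (per (I a) (sg a) (i a))).map
      (fun k => (nx (sg a))^[min k ((I a).length + 1)] (i a))) :=
    PT.map (PT.range (by fun_prop) h0) h1
  refine h2.congr fun a => ?_
  unfold orb
  refine List.map_congr_left (fun k hk => ?_)
  have := per_le (I a) (sg a) (i a)
  rw [min_eq_left (by have := List.mem_range.1 hk; omega)]

@[fun_prop] lemma pt_wo (hI : PT I) (hs : PT sg) (hi : PT i) :
    PT (fun a => wo (I a) (sg a) (i a)) := by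
  unfold wo
  exact PT.natSum (PT.map (g := fun a => ext (I a) (sg a)) (by fun_prop) (by fun_prop))

@[fun_prop] lemma pt_seg (hI : PT I) (hs : PT sg) (hi : PT i) :
    PT (fun a => seg (I a) (sg a) (i a)) := by unfold seg; fun_prop

@[fun_prop] lemma pt_Wl (hI : PT I) (hs : PT sg) (hi : PT i) :
    PT (fun a => Wl (I a) (sg a) (i a)) := by
  unfold Wl
  exact PT.flatMap (g := fun a => seg (I a) (sg a)) (by fun_prop) (by fun_prop)

@[fun_prop] lemma pt_Lw (hI : PT I) (hs : PT sg) (hi : PT i) (hj : PT j) :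
    PT (fun a => Lw (I a) (sg a) (i a) (j a)) := by unfold Lw; fun_prop

@[fun_prop] lemma pt_Lc (hI : PT I) (hs : PT sg) (hi : PT i) (hj : PT j) :
    PT (fun a => Lc (I a) (sg a) (i a) (j a)) := by unfold Lc; fun_prop

@[fun_prop] lemma pt_Pw (hI : PT I) (hs : PT sg) (hi : PT i) (hj : PT j) :
    PT (fun a => Pw (I a) (sg a) (i a) (j a)) := by unfold Pw; fun_prop

@[fun_prop] lemma pt_P1 (hI : PT I) (hs : PT sg) (hi : PT i) (hj : PT j) :
    PT (fun a => P1 (I a) (sg a) (i a) (j a)) := by unfold P1; fun_prop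

@[fun_prop] lemma pt_Pc (hI : PT I) (hs : PT sg) (hi : PT i) (hj : PT j) :
    PT (fun a => Pc (I a) (sg a) (i a) (j a)) := by unfold Pc; fun_prop

@[fun_prop] lemma pt_loop {q : α → Str} (hI : PT I) (hs : PT sg) (hi : PT i) (hq : PT q) :
    PT (fun a => loop (I a) (sg a) (i a) (q a)) := by unfold loop; fun_prop

@[fun_prop] lemma pt_R0 (hI : PT I) (hs : PT sg) (hi : PT i) (hj : PT j) :
    PT (fun a => R0 (I a) (sg a) (i a) (j a)) := by unfold R0; fun_prop

@[fun_prop] lemma pt_rstep {R : α → List ℕ} (hI : PT I) (hs : PT sg) (hR : PT R) :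
    PT (fun a => rstep (I a) (sg a) (R a)) := by unfold rstep; fun_prop

@[fun_prop] lemma pt_reach (hI : PT I) (hs : PT sg) (hi : PT i) :
    PT (fun a => reach (I a) (sg a) (i a)) := by
  unfold reach
  exact PT.iterate_inv (f := fun a => rstep (I a) (sg a))
    (fun a x => sz x ≤ sz (List.range (I a).length) + sz [i a])
    (fun a => sz (List.range (I a).length) + sz [i a]) (by fun_prop) (by fun_prop) (by fun_prop)
    (by fun_prop) (by fun_prop)
    (fun _ => Nat.le_add_left _ _)
    (fun _ _ _ => by unfold rstep; exact (sz_filter_le _ _).trans (Nat.le_add_right _ _))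
    (fun _ _ h => h)

@[fun_prop] lemma pt_grp (hI : PT I) (hs : PT sg) (hi : PT i) :
    PT (fun a => grp (I a) (sg a) (i a)) := by unfold grp; fun_prop

@[fun_prop] lemma pt_isSink (hI : PT I) (hs : PT sg) (hi : PT i) :
    PT (fun a => isSink (I a) (sg a) (i a)) := by unfold isSink; fun_prop

@[fun_prop] lemma pt_sinks (hI : PT I) (hs : PT sg) :
    PT (fun a => sinks (I a) (sg a)) := by unfold sinks; fun_prop

@[fun_prop] lemma pt_gamF {p : α → ℕ × ℕ} (hI : PT I) (hs : PT sg) (hp : PT p) :
    PT (fun a => gamF (I a) (sg a) (p a)) := by unfold gamF; fun_prop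

@[fun_prop] lemma pt_gamW (hI : PT I) (hs : PT sg) (hi : PT i) :
    PT (fun a => gamW (I a) (sg a) (i a)) := by
  unfold gamW
  exact PT.optionGetD (PT.argmin_nat (f := fun a => gamF (I a) (sg a)) (by fun_prop) (by fun_prop))
    (by fun_prop)

@[fun_prop] lemma pt_gam (hI : PT I) (hs : PT sg) (hi : PT i) :
    PT (fun a => gam (I a) (sg a) (i a)) := by unfold gam; fun_prop

@[fun_prop] lemma pt_gainF {p : α → ℕ × ℕ} (hI : PT I) (hs : PT sg) (hi : PT i) (hj : PT j)
    (hp : PT p) : PT (fun a => gainF (I a) (sg a) (i a) (j a) (p a)) := by unfold gainF; fun_prop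

@[fun_prop] lemma pt_gainW (hI : PT I) (hs : PT sg) (hi : PT i) (hj : PT j) :
    PT (fun a => gainW (I a) (sg a) (i a) (j a)) := by
  unfold gainW
  exact PT.optionGetD (PT.argmax_nat (f := fun a => gainF (I a) (sg a) (i a) (j a)) (by fun_prop)
    (by fun_prop)) (by fun_prop)

@[fun_prop] lemma pt_gain (hI : PT I) (hs : PT sg) (hi : PT i) (hj : PT j) :
    PT (fun a => gain (I a) (sg a) (i a) (j a)) := by unfold gain; fun_prop

@[fun_prop] lemma pt_gmat (hI : PT I) (hs : PT sg) :
    PT (fun a => gmat (I a) (sg a)) := by unfold gmat; fun_prop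

variable {s : α → State} {m : α → List ℕ}

@[fun_prop] lemma pt_attach (hI : PT I) (hs : PT sg) (h : PT s) (hi : PT i) (hj : PT j) :
    PT (fun a => attach (I a) (sg a) (s a) (i a) (j a)) := by unfold attach; fun_prop

@[fun_prop] lemma pt_walk1 (hI : PT I) (hs : PT sg) (h : PT s) (hi : PT i) (hj : PT j) :
    PT (fun a => walk1 (I a) (sg a) (s a) (i a) (j a)) := by unfold walk1; fun_prop

@[fun_prop] lemma pt_pwalk (hI : PT I) (hs : PT sg) (h : PT s) (hi : PT i) (hj : PT j) :
    PT (fun a => pwalk (I a) (sg a) (s a) (i a) (j a)) := by unfold pwalk; fun_prop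

@[fun_prop] lemma pt_pairStep (hI : PT I) (hs : PT sg) (hm : PT m) (h : PT s) (hi : PT i) :
    PT (fun a => pairStep (I a) (sg a) (m a) (s a) (i a)) := by unfold pairStep; fun_prop

@[fun_prop] lemma pt_singleStep (hI : PT I) (hs : PT sg) (hm : PT m) (h : PT s) (hi : PT i) :
    PT (fun a => singleStep (I a) (sg a) (m a) (s a) (i a)) := by unfold singleStep; fun_prop

@[fun_prop] lemma pt_freeStep (hI : PT I) (hs : PT sg) (h : PT s) :
    PT (fun a => freeStep (I a) (sg a) (s a)) := by unfold freeStep; fun_prop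

/-- the material added by `attach` -/
def gA (I : List Str) (sg : List ℕ) (p : ℕ × ℕ) : List Str × Str × List ℕ :=
  (loop I sg p.1 (Lw I sg p.1 p.2).1, (Lw I sg p.1 p.2).2, orb I sg p.1)

/-- the material added by `walk1` -/
def gW (I : List Str) (sg : List ℕ) (i j : ℕ) : List Str × List Str × List ℕ × List ℕ :=
  (loop I sg i (Pw I sg i j).1, loop I sg j (Pw I sg i j).2, orb I sg i, orb I sg j)

@[fun_prop] lemma pt_gA {p : α → ℕ × ℕ} (hI : PT I) (hs : PT sg) (hp : PT p) :
    PT (fun a => gA (I a) (sg a) (p a)) := by unfold gA; fun_prop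

@[fun_prop] lemma pt_gW (hI : PT I) (hs : PT sg) (hi : PT i) (hj : PT j) :
    PT (fun a => gW (I a) (sg a) (i a) (j a)) := by unfold gW; fun_prop

lemma sz_take_drop (l : List Str) (x : Str) :
    sz (l.take (l.idxOf x + 1)) + sz (l.drop (l.idxOf x)) ≤ sz l + sz x + 2 := by
  induction l with
  | nil => simp
  | cons y l ih =>
    by_cases h : y = x
    · subst h
      simp only [List.idxOf_cons_self, zero_add, List.take_succ_cons, List.take_zero, sz_cons,
        sz_nil, List.drop_zero]
      omega
    · rw [List.idxOf_cons_ne _ h]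
      simp only [Nat.succ_eq_add_one, List.take_succ_cons, sz_cons, List.drop_succ_cons]
      omega

lemma sz_attach (I : List Str) (sg : List ℕ) (s : State) (p : ℕ × ℕ) :
    sz (attach I sg s p.1 p.2) ≤ sz s + sz (gA I sg p) := by
  have h1 := sz_take_drop s.1 (Lw I sg p.1 p.2).2
  have h2 := sz_append_le s.2 (orb I sg p.1)
  have h3 := sz_append_le (s.1.take (s.1.idxOf (Lw I sg p.1 p.2).2 + 1))
    (loop I sg p.1 (Lw I sg p.1 p.2).1)
  have h4 := sz_append_le (s.1.take (s.1.idxOf (Lw I sg p.1 p.2).2 + 1) ++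
    loop I sg p.1 (Lw I sg p.1 p.2).1) (s.1.drop (s.1.idxOf (Lw I sg p.1 p.2).2))
  rw [sz_prod s]
  simp only [attach, gA, sz_pair]
  omega

lemma sz_walk1 (I : List Str) (sg : List ℕ) (s : State) (i j : ℕ) :
    sz (walk1 I sg s i j) ≤ sz s + sz (gW I sg i j) := by
  have h1 := sz_append_le s.1 (loop I sg i (Pw I sg i j).1)
  have h2 := sz_append_le (s.1 ++ loop I sg i (Pw I sg i j).1) (loop I sg j (Pw I sg i j).2)
  have h3 := sz_append_le s.2 (orb I sg i)
  have h4 := sz_append_le (s.2 ++ orb I sg i) (orb I sg j)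
  rw [sz_prod s]
  simp only [walk1, gW, sz_pair]
  omega

lemma sz_pwalk (I : List Str) (sg : List ℕ) (s : State) (i j : ℕ) :
    sz (pwalk I sg s i j) ≤ sz s + (sz (gW I sg i j) + sz (gW I sg j i)) := by
  have h1 := sz_walk1 I sg s i j
  have h2 := sz_walk1 I sg s j i
  unfold pwalk
  split_ifs <;> omega

lemma sz_freeStep (I : List Str) (sg : List ℕ) (s : State) :
    sz (freeStep I sg s) ≤ sz s + sz ((pairs I).map (gA I sg)) := by
  unfold freeStep
  cases h : (pairs I).find? (fun p => !s.2.contains p.1 && s.2.contains p.2 && R0 I sg p.1 p.2) with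
  | none => simp
  | some p =>
    have h1 := sz_le_of_mem (List.mem_map_of_mem (f := gA I sg) (List.mem_of_find?_eq_some h))
    have h2 := sz_attach I sg s p
    simp only [Option.map_some, Option.getD_some]
    omega

lemma pt_realize (hI : PT I) (hs : PT sg) (hm : PT m) :
    PT (fun a => realize (I a) (sg a) (m a)) := by
  have h1 : PT (fun a => (List.range (I a).length).foldl (pairStep (I a) (sg a) (m a))
      ([[]], [0])) := by
    refine PT.foldl_add (f := fun a => pairStep (I a) (sg a) (m a))
      (fun p => sz (gW (I p.1) (sg p.1) (gainW (I p.1) (sg p.1) p.2 ((m p.1).getD p.2 0)).1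
          (gainW (I p.1) (sg p.1) p.2 ((m p.1).getD p.2 0)).2) +
        sz (gW (I p.1) (sg p.1) (gainW (I p.1) (sg p.1) p.2 ((m p.1).getD p.2 0)).2
          (gainW (I p.1) (sg p.1) p.2 ((m p.1).getD p.2 0)).1))
      (by fun_prop) (by fun_prop) (by fun_prop) (by fun_prop) (fun a acc x _ => ?_)
    unfold pairStep
    split_ifs
    · exact sz_pwalk _ _ _ _ _
    · exact Nat.le_add_right _ _
  have h2 : PT (fun a => (sinks (I a) (sg a)).foldl (singleStep (I a) (sg a) (m a))
      ((List.range (I a).length).foldl (pairStep (I a) (sg a) (m a)) ([[]], [0]))) := by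
    refine PT.foldl_add (f := fun a => singleStep (I a) (sg a) (m a))
      (fun p => sz (gA (I p.1) (sg p.1) (gamW (I p.1) (sg p.1) p.2)) +
        (sz (gW (I p.1) (sg p.1) (gamW (I p.1) (sg p.1) p.2).1 (gamW (I p.1) (sg p.1) p.2).2) +
        sz (gW (I p.1) (sg p.1) (gamW (I p.1) (sg p.1) p.2).2 (gamW (I p.1) (sg p.1) p.2).1)))
      (by fun_prop) (by fun_prop) h1 (by fun_prop) (fun a acc x _ => ?_)
    have g1 := sz_attach (I a) (sg a) acc (gamW (I a) (sg a) x)
    have g2 := sz_pwalk (I a) (sg a) acc (gamW (I a) (sg a) x).1 (gamW (I a) (sg a) x).2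
    unfold singleStep
    dsimp only
    split_ifs <;> omega
  have h3 : PT (fun a => (pairs (I a)).map (gA (I a) (sg a))) :=
    PT.map (g := fun a => gA (I a) (sg a)) (by fun_prop) (by fun_prop)
  unfold realize
  exact PT.fst (PT.iterate_add (f := fun a => freeStep (I a) (sg a))
    (fun a => sz ((pairs (I a)).map (gA (I a) (sg a)))) (by fun_prop) (by fun_prop) (by fun_prop)
    h2 (PB.sz h3) (fun a x => sz_freeStep _ _ _))

/-! ### numerical bounds -/

lemma length_st (I : List Str) (i : ℕ) : (st I i).length ≤ sz I := by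
  unfold st
  rw [List.getD_eq_getElem?_getD]
  cases h : I[i]? with
  | none => simp
  | some x => exact (length_le_sz x).trans (sz_le_of_mem (List.mem_of_getElem? h))

lemma wo_le (I : List Str) (sg : List ℕ) (i : ℕ) : wo I sg i ≤ (sz I + 1) * sz I := by
  have h1 := List.sum_le_card_nsmul ((orb I sg i).map (ext I sg)) (sz I) (by
    intro x hx
    obtain ⟨k, -, rfl⟩ := List.mem_map.1 hx
    unfold ext
    exact (Nat.sub_le _ _).trans (length_st _ _))
  have h2 : ((orb I sg i).map (ext I sg)).length ≤ sz I + 1 := by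
    have := per_le I sg i
    have := length_le_sz I
    simp only [orb, List.length_map, List.length_range]
    omega
  unfold wo
  exact h1.trans (Nat.mul_le_mul_right _ h2)

lemma length_Wl {I : List Str} {sg : List ℕ} {i : ℕ} {x : Str} (h : x ∈ Wl I sg i) :
    x.length ≤ sz I := by
  unfold Wl at h
  obtain ⟨j, -, hj⟩ := List.mem_flatMap.1 h
  unfold seg at hj
  rcases List.mem_append.1 hj with hj | hj
  · obtain ⟨t, -, rfl⟩ := List.mem_map.1 hj
    have := length_st I j
    rw [List.length_drop]; omega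
  · obtain ⟨t, -, rfl⟩ := List.mem_map.1 hj
    have := length_st I (nx sg j)
    rw [List.length_take]; omega

lemma length_argmin (I : List Str) (sg : List ℕ) (i j : ℕ) (f : Str × Str → ℕ) :
    ((((Wl I sg i).product (Wl I sg j)).argmin f).getD ([], [])).1.length ≤ sz I ∧
      ((((Wl I sg i).product (Wl I sg j)).argmin f).getD ([], [])).2.length ≤ sz I := by
  cases h : ((Wl I sg i).product (Wl I sg j)).argmin f with
  | none => simp
  | some p =>
    obtain ⟨x, y⟩ := p
    have h1 := List.mem_product.1 (List.argmin_mem h)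
    exact ⟨length_Wl h1.1, length_Wl h1.2⟩

lemma gamF_le (I : List Str) (sg : List ℕ) (p : ℕ × ℕ) : gamF I sg p ≤ 2 * sz I := by
  have h1 : (Lw I sg p.1 p.2).1.length ≤ sz I ∧ (Lw I sg p.1 p.2).2.length ≤ sz I := by
    unfold Lw; exact length_argmin I sg p.1 p.2 _
  have h2 : (Pw I sg p.1 p.2).1.length ≤ sz I ∧ (Pw I sg p.1 p.2).2.length ≤ sz I := by
    unfold Pw; exact length_argmin I sg p.1 p.2 _
  have h3 : Lc I sg p.1 p.2 ≤ 2 * sz I := by unfold Lc dist; omega
  have h4 : P1 I sg p.1 p.2 ≤ 2 * sz I := by unfold P1 dist; omega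
  unfold gamF Pc
  omega

lemma gain_le (I : List Str) (sg : List ℕ) (K K' : ℕ) :
    gain I sg K K' ≤ 4 * sz I + 2 * ((sz I + 1) * sz I) := by
  unfold gain
  split_ifs
  · have h1 := gamF_le I sg (gamW I sg K)
    have h2 := gamF_le I sg (gamW I sg K')
    have h3 := wo_le I sg (gainW I sg K K').1
    have h4 := wo_le I sg (gainW I sg K K').2
    unfold gainF gam
    omega
  · exact Nat.zero_le _

lemma ent_le (I : List Str) (sg : List ℕ) (u v : ℕ) :
    ent (gmat I sg) u v ≤ 4 * sz I + 2 * ((sz I + 1) * sz I) := by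
  unfold ent
  rw [List.getD_eq_getElem?_getD, List.getD_eq_getElem?_getD]
  cases h : (gmat I sg)[u]? with
  | none => simp
  | some r =>
    unfold gmat at h
    obtain ⟨u', -, rfl⟩ := List.mem_map.1 (List.mem_of_getElem? h)
    rw [Option.getD_some]
    cases h' : ((List.range I.length).map (fun v => gain I sg (min u' v) (max u' v)))[v]? with
    | none => simp
    | some x =>
      obtain ⟨v', -, rfl⟩ := List.mem_map.1 (List.mem_of_getElem? h')
      exact gain_le _ _ _ _

end PolyT

open PolyT in
theorem alg_pt (mwm : List (List ℕ) → List ℕ)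
    (hm : ∀ {ι : Type} [Enc ι] (g : ι → List (List ℕ)) (B : ι → ℕ), PT g → PB B →
      (∀ i u v, ent (g i) u v ≤ B i) → (∀ i, Symm (g i)) → PT (fun i => mwm (g i))) :
    PT (alg mwm) := by
  have h1 : PT (fun S : List Str => mwm (gmat (inst S) (greedy (inst S)))) :=
    hm (fun S : List Str => gmat (inst S) (greedy (inst S)))
      (fun S => 4 * sz (inst S) + 2 * ((sz (inst S) + 1) * sz (inst S))) (by fun_prop)
      (by fun_prop) (fun S u v => ent_le _ _ u v) (fun S => gmat_symm _ _)
  exact pt_spell (pt_realize (by fun_prop) (by fun_prop) h1)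

theorem exists_polyTime_of_pt (A : List Str → Str) (hA : PT A) :
    ∃ f : List Bool → List Bool, Crest.Complexity.PolyTime f ∧
      ∀ S : List (List ℕ), f (natCode S.length ++ (S.map listCode).flatten) = listCode (A S) := by
  have h0 := Reads.self (fun S : List (List ℕ) => natCode S.length ++ (S.map listCode).flatten)
  have h1 := Reads.decode (SD.list SD.natCode SD.listCode listCode_ne_nil) h0
  exact (h1.comp (PT.listCode hA)).exists_polyTime

end Crest.Agent.R287
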