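import Crest.Agent.R287.Groups

/-! Row 287: the walk built from a matching. -/

set_option autoImplicit false

namespace Crest.Agent.R287
open Crest.Agent.Lib.Matching

variable {I : List Str} {sg : List ℕ}

/-- the structural invariant -/
structure RInv (I : List Str) (sg : List ℕ) (s : State) : Prop where
  head : s.1.head? = some []
  zero : 0 ∈ s.2
  lt : ∀ j ∈ s.2, j < I.length
  orb : ∀ j ∈ s.2, ∀ k ∈ orb I sg j, k ∈ s.2
  wl : ∀ j ∈ s.2, ∀ q ∈ Wl I sg j, q ∈ s.1

/-- total weight of the connected indices -/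
def rW (I : List Str) (sg : List ℕ) (l : List ℕ) : ℕ := ∑ j ∈ l.toFinset, ext I sg j

/-- the potential -/
def rP (I : List Str) (sg : List ℕ) (s : State) : ℤ := (cost s.1 : ℤ) - 2 * rW I sg s.2

theorem RInv.extend (h : Good I sg) {s : State} (hs : RInv I sg s) {i : ℕ} (hi : i < I.length)
    (his : i ∉ s.2) {L : List Str} (h1 : L.head? = some []) (h2 : ∀ q ∈ s.1, q ∈ L)
    (h3 : ∀ q ∈ Wl I sg i, q ∈ L) :
    RInv I sg (L, s.2 ++ R287.orb I sg i) ∧
      rW I sg (s.2 ++ R287.orb I sg i) = rW I sg s.2 + wo I sg i := by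
  refine ⟨⟨h1, List.mem_append_left _ hs.zero, fun j hj => ?_, fun j hj k hk => ?_,
    fun j hj q hq => ?_⟩, ?_⟩
  · rcases List.mem_append.1 hj with hj | hj
    · exact hs.lt j hj
    · exact orb_lt h hi hj
  · rcases List.mem_append.1 hj with hj | hj
    · exact List.mem_append_left _ (hs.orb j hj k hk)
    · exact List.mem_append_right _ ((orb_perm h hi hj).mem_iff.1 hk)
  · rcases List.mem_append.1 hj with hj | hj
    · exact h2 q (hs.wl j hj q hq)
    · exact h3 q ((mem_Wl_congr h hi hj q).1 hq)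
  · rw [rW, rW, List.toFinset_append, Finset.sum_union, wo_eq_sum h hi]
    rw [Finset.disjoint_left]
    intro k hk hk'
    rw [List.mem_toFinset] at hk hk'
    exact his (hs.orb k hk i (orb_symm h hi hk'))

theorem split_idxOf {L : List Str} {x : Str} (hx : x ∈ L) : ∃ A B, L = A ++ x :: B ∧
    L.take (L.idxOf x + 1) = A ++ [x] ∧ L.drop (L.idxOf x) = x :: B := by
  have hlt : L.idxOf x < L.length := List.idxOf_lt_length_iff.2 hx
  have e1 : L.drop (L.idxOf x) = x :: L.drop (L.idxOf x + 1) := by
    rw [List.drop_eq_getElem_cons hlt, List.getElem_idxOf]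
  refine ⟨L.take (L.idxOf x), L.drop (L.idxOf x + 1), ?_, ?_, e1⟩
  · rw [← e1, List.take_append_drop]
  · rw [List.take_succ_eq_append_getElem hlt, List.getElem_idxOf]

theorem attach_spec (h : Good I sg) {s : State} (hs : RInv I sg s) {i j : ℕ} (hi : i < I.length)
    (his : i ∉ s.2) (hjs : j ∈ s.2) :
    RInv I sg (attach I sg s i j) ∧
      rP I sg (attach I sg s i j) ≤ rP I sg s + Lc I sg i j - wo I sg i := by
  obtain ⟨A, B, e1, e2, e3⟩ := split_idxOf (hs.wl j hjs _ (Lw_mem I sg i j).2)
  obtain ⟨l, e4, hc⟩ := loop_spec h hi (Lw_mem I sg i j).1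
  have key := hs.extend h hi his (L := (attach I sg s i j).1) ?_ ?_ ?_
  · refine ⟨key.1, ?_⟩
    have c1 : cost (attach I sg s i j).1 ≤ cost s.1 + Lc I sg i j + wo I sg i := by
      have e5 : (attach I sg s i j).1 = A ++ (Lw I sg i j).2 :: (Lw I sg i j).1 ::
          (l ++ (Lw I sg i j).1 :: (Lw I sg i j).2 :: B) := by
        simp only [attach, e2, e3, e4]; simp
      have e6 := cost_append_cons ((Lw I sg i j).1 :: l) (Lw I sg i j).1 ((Lw I sg i j).2 :: B)
      rw [e4] at hc
      rw [e5, cost_append_cons, cost_cons_cons, ← List.cons_append, e6, cost_cons_cons]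
      conv_rhs => rw [e1, cost_append_cons]
      unfold Lc
      omega
    have c2 : rW I sg (attach I sg s i j).2 = rW I sg s.2 + wo I sg i := key.2
    unfold rP
    rw [c2]
    push_cast
    omega
  · have := hs.head
    rw [e1] at this
    simp only [attach, e2]
    cases A <;> simpa using this
  · intro q hq
    rw [← List.take_append_drop (s.1.idxOf (Lw I sg i j).2) s.1, List.mem_append] at hq
    simp only [attach, List.mem_append]
    rcases hq with hq | hq
    · exact Or.inl (Or.inl ((List.take_subset_take_left _ (Nat.le_succ _)) hq))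
    · exact Or.inr hq
  · intro q hq
    simp only [attach, List.mem_append]
    exact Or.inl (Or.inr (mem_loop I sg _ hq))

theorem head_append {L : List Str} (h : L.head? = some []) (L' : List Str) :
    (L ++ L').head? = some [] := by
  cases L with
  | nil => simp at h
  | cons a L => simpa using h

theorem walk1_spec (h : Good I sg) {s : State} (hs : RInv I sg s) {i j : ℕ} (hi : i < I.length)
    (hj : j < I.length) (his : i ∉ s.2) (hjs : j ∉ s.2) (hij : j ∉ orb I sg i) :
    RInv I sg (walk1 I sg s i j) ∧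
      rP I sg (walk1 I sg s i j) ≤ rP I sg s + P1 I sg i j - wo I sg i - wo I sg j := by
  obtain ⟨l, e1, hc⟩ := loop_spec h hi (Pw_mem I sg i j).1
  obtain ⟨l', e2, hc'⟩ := loop_spec h hj (Pw_mem I sg i j).2
  have k1 := hs.extend h hi his (L := s.1 ++ loop I sg i (Pw I sg i j).1) (head_append hs.head _)
    (fun q hq => List.mem_append_left _ hq)
    (fun q hq => List.mem_append_right _ (mem_loop I sg _ hq))
  have k2 := k1.1.extend h hj (by simp [hjs, hij]) (L := (walk1 I sg s i j).1)
    (head_append k1.1.head _) (fun q hq => List.mem_append_left _ hq)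
    (fun q hq => List.mem_append_right _ (mem_loop I sg _ hq))
  refine ⟨k2.1, ?_⟩
  have c1 : cost (walk1 I sg s i j).1 ≤ cost s.1 + P1 I sg i j + wo I sg i + wo I sg j := by
    have e5 : (walk1 I sg s i j).1 = s.1 ++ (Pw I sg i j).1 ::
        (l ++ (Pw I sg i j).1 :: (Pw I sg i j).2 :: (l' ++ [(Pw I sg i j).2])) := by
      simp only [walk1, e1, e2]; simp
    have e6 := cost_append_cons ((Pw I sg i j).1 :: l) (Pw I sg i j).1
      ((Pw I sg i j).2 :: (l' ++ [(Pw I sg i j).2]))
    have e7 := cost_concat_le s.1 (Pw I sg i j).1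
    rw [e1] at hc
    rw [e2, List.cons_append] at hc'
    rw [e5, cost_append_cons, ← List.cons_append, e6, cost_cons_cons]
    unfold P1
    omega
  have c2 : rW I sg (walk1 I sg s i j).2 = rW I sg s.2 + wo I sg i + wo I sg j := by
    rw [← k1.2]; exact k2.2
  unfold rP
  rw [c2]
  push_cast
  omega

theorem pwalk_spec (h : Good I sg) {s : State} (hs : RInv I sg s) {i j : ℕ} (hi : i < I.length)
    (hj : j < I.length) (his : i ∉ s.2) (hjs : j ∉ s.2) (hij : j ∉ orb I sg i) :
    RInv I sg (pwalk I sg s i j) ∧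
      rP I sg (pwalk I sg s i j) ≤ rP I sg s + Pc I sg i j - wo I sg i - wo I sg j ∧
      ∀ x, x ∈ (pwalk I sg s i j).2 ↔ x ∈ s.2 ∨ x ∈ orb I sg i ∨ x ∈ orb I sg j := by
  unfold pwalk Pc
  split_ifs with hle
  · obtain ⟨k1, k2⟩ := walk1_spec h hs hi hj his hjs hij
    exact ⟨k1, by rwa [min_eq_left hle], fun x => by simp [walk1]⟩
  · obtain ⟨k1, k2⟩ := walk1_spec h hs hj hi hjs his (fun hh => hij (orb_symm h hj hh))
    refine ⟨k1, ?_, fun x => by simp [walk1, or_comm]⟩
    rw [min_eq_right (le_of_not_ge hle)]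
    omega

/-- `K` is matched with positive gain -/
def Mat (I : List Str) (sg : List ℕ) (m : List ℕ) (K : ℕ) : Prop :=
  0 < gain I sg (min K (m.getD K 0)) (max K (m.getD K 0))

instance (I : List Str) (sg : List ℕ) (m : List ℕ) : DecidablePred (Mat I sg m) :=
  fun _ => Nat.decLt _ _

theorem pair_phase (h : Good I sg) (m : List ℕ) (hm : IsInv I.length (fun v => m.getD v 0))
    (k : ℕ) (hk : k ≤ I.length) :
    ∃ s, s = (List.range k).foldl (pairStep I sg m) ([[]], [0]) ∧ RInv I sg s ∧
      ∃ P : Finset ℕ, (∀ K ∈ P, K ∈ sinks I sg ∧ Mat I sg m K ∧ min K (m.getD K 0) < k) ∧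
        (∀ x ∈ s.2, x = 0 ∨ grp I sg x ∈ P) ∧
        (∀ K, K < I.length → Mat I sg m K → min K (m.getD K 0) < k → ∃ x ∈ s.2, grp I sg x = K) ∧
        rP I sg s + ((∑ v ∈ Finset.range k,
          if v < m.getD v 0 then gain I sg v (m.getD v 0) else 0 : ℕ) : ℤ) ≤
          ((∑ K ∈ P, gam I sg K : ℕ) : ℤ) := by
  induction k with
  | zero =>
    refine ⟨_, rfl, ⟨rfl, by simp, by simpa using h.pos, by simp [orb_zero h],
      by simp [Wl_zero h]⟩, ∅, by simp, by simp, by simp, ?_⟩
    simp [rP]
  | succ k ih =>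
    obtain ⟨s, hs, hI, P, p1, p2, p3, p4⟩ := ih (by omega)
    have hkn : k < I.length := hk
    obtain ⟨hmk, hmm⟩ := hm k hkn
    simp only at hmk hmm
    rw [List.range_succ, List.foldl_append, ← hs, List.foldl_cons, List.foldl_nil,
      Finset.sum_range_succ]
    have hact : ∀ K, K < I.length → Mat I sg m K → min K (m.getD K 0) = k →
        (k < m.getD k 0 ∧ 0 < gain I sg k (m.getD k 0)) ∧ (K = k ∨ K = m.getD k 0) := by
      intro K hK hM he
      have hne := (gain_pos hM).2.2.1
      have hKK : m.getD (m.getD K 0) 0 = K := (hm K hK).2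
      unfold Mat at hM
      rcases le_total K (m.getD K 0) with hle | hle
      · rw [min_eq_left hle] at he hM hne
        rw [max_eq_right hle] at hM hne
        subst he
        exact ⟨⟨lt_of_le_of_ne hle hne, hM⟩, Or.inl rfl⟩
      · rw [min_eq_right hle] at he hM hne
        rw [max_eq_left hle] at hM hne
        rw [he] at hKK hM hne hle
        rw [hKK]
        exact ⟨⟨lt_of_le_of_ne hle hne, hM⟩, Or.inr rfl⟩
    by_cases ha : k < m.getD k 0 ∧ 0 < gain I sg k (m.getD k 0)
    · obtain ⟨g1, g2, g3, g4⟩ := gain_pos ha.2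
      obtain ⟨w1, w2, w3, w4⟩ := gainW_spec g1 g2
      have n1 : k ∉ P := fun hP => by
        have := (p1 k hP).2.2
        rw [min_eq_left ha.1.le] at this
        omega
      have n2 : m.getD k 0 ∉ P := fun hP => by
        have := (p1 _ hP).2.2
        rw [hmm, min_eq_right ha.1.le] at this
        omega
      have i1 : (gainW I sg k (m.getD k 0)).1 ∉ s.2 := fun hx => by
        rcases p2 _ hx with h0 | hP
        · exact ne_zero_of_sink h w1 (by rwa [w3]) h0
        · exact n1 (by rwa [w3] at hP)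
      have i2 : (gainW I sg k (m.getD k 0)).2 ∉ s.2 := fun hx => by
        rcases p2 _ hx with h0 | hP
        · exact ne_zero_of_sink h w2 (by rwa [w4]) h0
        · exact n2 (by rwa [w4] at hP)
      have i3 : (gainW I sg k (m.getD k 0)).2 ∉ orb I sg (gainW I sg k (m.getD k 0)).1 := fun hx => by
        have := grp_of_mem_orb h w1 hx
        rw [w3, w4] at this
        exact g3 this.symm
      obtain ⟨q1, q2, q3⟩ := pwalk_spec h hI w1 w2 i1 i2 i3
      refine ⟨_, rfl, ?_⟩
      rw [pairStep, if_pos ha]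
      refine ⟨q1, insert k (insert (m.getD k 0) P), fun K hK => ?_, fun x hx => ?_,
        fun K hK hM hlt => ?_, ?_⟩
      · rcases Finset.mem_insert.1 hK with rfl | hK
        · refine ⟨g1, ?_, by omega⟩
          unfold Mat
          rw [min_eq_left ha.1.le, max_eq_right ha.1.le]
          exact ha.2
        rcases Finset.mem_insert.1 hK with rfl | hK
        · refine ⟨g2, ?_, by omega⟩
          unfold Mat
          rw [hmm, min_eq_right ha.1.le, max_eq_left ha.1.le]
          exact ha.2
        · exact ⟨(p1 K hK).1, (p1 K hK).2.1, Nat.lt_succ_of_lt (p1 K hK).2.2⟩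
      · rcases (q3 x).1 hx with hx | hx | hx
        · exact (p2 x hx).imp id (fun hP => Finset.mem_insert_of_mem (Finset.mem_insert_of_mem hP))
        · right; rw [grp_of_mem_orb h w1 hx, w3]; simp
        · right; rw [grp_of_mem_orb h w2 hx, w4]; simp
      · rcases Nat.lt_succ_iff_lt_or_eq.1 hlt with hlt | he
        · obtain ⟨x, hx, e⟩ := p3 K hK hM hlt
          exact ⟨x, (q3 x).2 (Or.inl hx), e⟩
        · rcases (hact K hK hM he).2 with rfl | rfl
          · exact ⟨_, (q3 _).2 (Or.inr (Or.inl (self_mem_orb I sg _))), w3⟩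
          · exact ⟨_, (q3 _).2 (Or.inr (Or.inr (self_mem_orb I sg _))), w4⟩
      · rw [Finset.sum_insert (by simp only [Finset.mem_insert, not_or]; exact ⟨g3, n1⟩),
          Finset.sum_insert n2, if_pos ha.1]
        have hg := ha.2
        rw [g4] at hg ⊢
        unfold gainF at hg ⊢
        push_cast at p4 ⊢
        omega
    · refine ⟨_, rfl, ?_⟩
      rw [pairStep, if_neg ha]
      refine ⟨hI, P, fun K hK => ⟨(p1 K hK).1, (p1 K hK).2.1, Nat.lt_succ_of_lt (p1 K hK).2.2⟩, p2,
        fun K hK hM hlt => ?_, ?_⟩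
      · rcases Nat.lt_succ_iff_lt_or_eq.1 hlt with hlt | he
        · exact p3 K hK hM hlt
        · exact absurd (hact K hK hM he).1 ha
      · have : (if k < m.getD k 0 then gain I sg k (m.getD k 0) else 0) = 0 := by
          split_ifs with h1
          · exact Nat.eq_zero_of_not_pos (fun h2 => ha ⟨h1, h2⟩)
          · rfl
        rw [this, add_zero]
        exact p4

theorem single_step (h : Good I sg) (m : List ℕ) {s : State} (hs : RInv I sg s) {K : ℕ}
    (hK : K ∈ sinks I sg) :
    RInv I sg (singleStep I sg m s K) ∧ (∀ x ∈ s.2, x ∈ (singleStep I sg m s K).2) ∧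
      (¬ Mat I sg m K → ∃ x ∈ (singleStep I sg m s K).2, grp I sg x = K) ∧
      rP I sg (singleStep I sg m s K) ≤
        rP I sg s + ((if Mat I sg m K then 0 else gam I sg K : ℕ) : ℤ) := by
  obtain ⟨w1, w2, w3, w4⟩ := gamW_spec h hK
  unfold singleStep
  by_cases hM : Mat I sg m K
  · rw [if_pos hM, if_pos (show 0 < gain I sg _ _ from hM)]
    exact ⟨hs, fun _ hx => hx, fun hn => absurd hM hn, by simp⟩
  rw [if_neg hM, if_neg (show ¬ 0 < gain I sg _ _ from hM)]
  simp only [List.contains_iff_mem]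
  split_ifs with h1 h2
  · exact ⟨hs, fun _ hx => hx, fun _ => ⟨_, h1, w3⟩, by simp⟩
  · obtain ⟨k1, k2⟩ := attach_spec h hs w1 h1 h2
    refine ⟨k1, fun _ hx => List.mem_append_left _ hx,
      fun _ => ⟨_, List.mem_append_right _ (self_mem_orb I sg _), w3⟩, k2.trans ?_⟩
    unfold gam gamF
    omega
  · obtain ⟨k1, k2, k3⟩ := pwalk_spec h hs w1 w2 h1 h2 w4
    refine ⟨k1, fun _ hx => (k3 _).2 (Or.inl hx),
      fun _ => ⟨_, (k3 _).2 (Or.inr (Or.inl (self_mem_orb I sg _))), w3⟩, k2.trans ?_⟩
    unfold gam gamF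
    omega

theorem single_phase (h : Good I sg) (m : List ℕ) (l : List ℕ) (hl : ∀ K ∈ l, K ∈ sinks I sg) :
    ∀ s : State, RInv I sg s → RInv I sg (l.foldl (singleStep I sg m) s) ∧
      (∀ x ∈ s.2, x ∈ (l.foldl (singleStep I sg m) s).2) ∧
      (∀ K ∈ l, ¬ Mat I sg m K → ∃ x ∈ (l.foldl (singleStep I sg m) s).2, grp I sg x = K) ∧
      rP I sg (l.foldl (singleStep I sg m) s) ≤
        rP I sg s + (((l.map (fun K => if Mat I sg m K then 0 else gam I sg K)).sum : ℕ) : ℤ) := by
  induction l with
  | nil => intro s hs; exact ⟨hs, fun _ hx => hx, by simp, by simp⟩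
  | cons K l ih =>
    intro s hs
    obtain ⟨a1, a2, a3, a4⟩ := single_step h m hs (hl K (by simp))
    obtain ⟨b1, b2, b3, b4⟩ := ih (fun K' hK' => hl K' (List.mem_cons_of_mem _ hK')) _ a1
    rw [List.foldl_cons]
    refine ⟨b1, fun x hx => b2 x (a2 x hx), fun K' hK' hM => ?_, ?_⟩
    · rcases List.mem_cons.1 hK' with rfl | hK'
      · obtain ⟨x, hx, e⟩ := a3 hM
        exact ⟨x, b2 x hx, e⟩
      · exact b3 K' hK' hM
    · rw [List.map_cons, List.sum_cons, Nat.cast_add]
      omega

theorem free_phase (h : Good I sg) {s : State} (hs : RInv I sg s) (k : ℕ) :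
    RInv I sg ((freeStep I sg)^[k] s) ∧ (∀ x ∈ s.2, x ∈ ((freeStep I sg)^[k] s).2) ∧
      rP I sg ((freeStep I sg)^[k] s) ≤ rP I sg s ∧
      ((∀ i j, Rel I sg i j → j ∈ ((freeStep I sg)^[k] s).2 → i ∈ ((freeStep I sg)^[k] s).2) ∨
        k < ((freeStep I sg)^[k] s).2.toFinset.card) := by
  induction k with
  | zero =>
    exact ⟨hs, fun _ hx => hx, le_rfl, Or.inr
      (Finset.card_pos.2 ⟨0, List.mem_toFinset.2 hs.zero⟩)⟩
  | succ k ih =>
    rw [Function.iterate_succ_apply']
    generalize (freeStep I sg)^[k] s = t at ih ⊢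
    obtain ⟨a1, a2, a3, a4⟩ := ih
    unfold freeStep
    cases hf : (pairs I).find?
        (fun p => !t.2.contains p.1 && t.2.contains p.2 && R0 I sg p.1 p.2) with
    | none =>
      refine ⟨a1, a2, a3, Or.inl (fun i j hij hj => ?_)⟩
      by_contra hi
      have := List.find?_eq_none.1 hf (i, j) (by simp [pairs, hij.1, hij.2.1])
      simp only [Option.map_none, Option.getD_none] at hi hj
      simp [hi, hj, hij.2.2] at this
    | some p =>
      have b1 := List.mem_of_find?_eq_some hf
      have b2 := List.find?_some hf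
      obtain ⟨i, j⟩ := p
      simp only [pairs, List.pair_mem_product, List.mem_range] at b1
      simp only [Bool.and_eq_true, Bool.not_eq_true', List.contains_iff_mem] at b2
      obtain ⟨⟨b2, b3⟩, b4⟩ := b2
      have b2' : i ∉ t.2 := by simpa using b2
      obtain ⟨k1, k2⟩ := attach_spec h a1 b1.1 b2' b3
      simp only [Option.map_some, Option.getD_some]
      refine ⟨k1, fun x hx => List.mem_append_left _ (a2 x hx), ?_, Or.inr ?_⟩
      · have : Lc I sg i j ≤ wo I sg i := by simpa [R0] using b4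
        omega
      · have c1 : k < t.2.toFinset.card :=
          a4.resolve_left (fun hc => b2' (hc i j ⟨b1.1, b1.2, b4⟩ b3))
        have c2 : t.2.toFinset ⊂ (attach I sg t i j).2.toFinset := by
          refine (Finset.ssubset_iff_of_subset (fun x hx => ?_)).2 ⟨i, ?_, by simpa using b2'⟩
          · exact List.mem_toFinset.2 (List.mem_append_left _ (List.mem_toFinset.1 hx))
          · exact List.mem_toFinset.2 (List.mem_append_right _ (self_mem_orb I sg i))
        have := Finset.card_lt_card c2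
        omega

theorem realize_spec (h : Good I sg) (m : List ℕ) (hm : IsInv I.length (fun v => m.getD v 0)) :
    (realize I sg m).head? = some [] ∧ (∀ i, i < I.length → st I i ∈ realize I sg m) ∧
      cost (realize I sg m) + hw I sg (fun v => m.getD v 0) ≤
        2 * ∑ i ∈ Finset.range I.length, ext I sg i +
          ∑ K ∈ (sinks I sg).toFinset, gam I sg K := by
  obtain ⟨s1, e1, a1, P, p1, -, p3, p4⟩ := pair_phase h m hm I.length le_rfl
  obtain ⟨b1, b2, b3, b4⟩ := single_phase h m (sinks I sg) (fun _ hK => hK) s1 a1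
  obtain ⟨c1, c2, c3, c4⟩ := free_phase h b1 I.length
  unfold realize
  rw [← e1]
  generalize (sinks I sg).foldl (singleStep I sg m) s1 = s2 at *
  generalize (freeStep I sg)^[I.length] s2 = s3 at *
  have hsub : s3.2.toFinset ⊆ Finset.range I.length := fun x hx =>
    Finset.mem_range.2 (c1.lt x (List.mem_toFinset.1 hx))
  have hcl : ∀ i j, Rel I sg i j → j ∈ s3.2 → i ∈ s3.2 := c4.resolve_right (by
    have := Finset.card_le_card hsub
    rw [Finset.card_range] at this
    omega)
  have hcl' : ∀ i j, Relation.ReflTransGen (Rel I sg) i j → j ∈ s3.2 → i ∈ s3.2 := by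
    intro i j hij hj
    induction hij using Relation.ReflTransGen.head_induction_on with
    | refl => exact hj
    | head hab _ ih => exact hcl _ _ hab ih
  refine ⟨c1.head, fun i hi => c1.wl i ?_ _ (st_mem_Wl I sg i), ?_⟩
  · rcases exists_target h hi with h0 | ⟨K, hK, hiK⟩
    · exact hcl' _ _ h0 c1.zero
    · obtain ⟨hKl, hKg⟩ := lt_of_mem_sinks hK
      have : ∃ x ∈ s2.2, grp I sg x = K := by
        by_cases hM : Mat I sg m K
        · obtain ⟨x, hx, e⟩ := p3 K hKl hM (lt_of_le_of_lt (min_le_left _ _) hKl)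
          exact ⟨x, b2 x hx, e⟩
        · exact b3 K hK hM
      obtain ⟨x, hx, e⟩ := this
      exact hcl' _ _ (hiK.trans ((grp_eq_iff h hKl (b1.lt x hx)).1 (hKg.trans e.symm)).1) (c2 x hx)
  · have d1 : rW I sg s3.2 ≤ ∑ i ∈ Finset.range I.length, ext I sg i :=
      Finset.sum_le_sum_of_subset hsub
    rw [← List.sum_toFinset _ (sinks_nodup I sg)] at b4
    have d2 : ∑ K ∈ P, gam I sg K ≤
        ∑ K ∈ (sinks I sg).toFinset, if Mat I sg m K then gam I sg K else 0 := by
      rw [← Finset.sum_filter]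
      exact Finset.sum_le_sum_of_subset (fun K hK =>
        Finset.mem_filter.2 ⟨List.mem_toFinset.2 (p1 K hK).1, (p1 K hK).2.1⟩)
    have d3 : (∑ K ∈ (sinks I sg).toFinset, if Mat I sg m K then gam I sg K else 0) +
        (∑ K ∈ (sinks I sg).toFinset, if Mat I sg m K then 0 else gam I sg K) =
        ∑ K ∈ (sinks I sg).toFinset, gam I sg K := by
      rw [← Finset.sum_add_distrib]
      exact Finset.sum_congr rfl (fun K _ => by split_ifs <;> simp)
    have d4 : rP I sg s3 = (cost s3.1 : ℤ) - 2 * rW I sg s3.2 := rfl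
    have d5 : hw I sg (fun v => m.getD v 0) = ∑ v ∈ Finset.range I.length,
        if v < m.getD v 0 then gain I sg v (m.getD v 0) else 0 := rfl
    omega

end Crest.Agent.R287
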