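import Crest.Agent.R287.RunCore

/-!
Row 287: the UV-run lemma.  Nodes `1..k` form a run entered by a `U` step and left by a `V` step.
Some block of the run pays for itself when it is cut out.
-/

set_option autoImplicit false

namespace Crest.Agent.R287

/-- `f` and `g` never agree on `L` consecutive letters -/
def NoAgree {α : Type} (f g : ℤ → α) (L : ℤ) : Prop :=
  ∀ x s, ¬ ∀ t, x ≤ t → t < x + L → f t = g (t + s)

lemma NoAgree.shift {α : Type} {f g : ℤ → α} {L : ℤ} (h : NoAgree f g L) (c d : ℤ) :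
    NoAgree (fun t => f (t - c)) (fun t => g (t - d)) L := by
  intro x s H
  refine h (x - c) (s + c - d) fun t h1 h2 => ?_
  have := H (t + c) (by omega) (by omega)
  simp only [add_sub_cancel_right] at this
  rw [this]; congr 1; ring

lemma per_mul {α : Type} {f : ℤ → α} {w : ℤ} (h : ∀ t, f (t + w) = f t) (j t : ℤ) :
    f (t + j * w) = f t :=
  (Function.Periodic.int_mul (f := f) (c := w) h j) t

lemma exists_floor_mul (M w : ℤ) (hw : 0 < w) : ∃ j : ℤ, j * w ≤ M ∧ M < j * w + w := by
  refine ⟨M / w, Int.ediv_mul_le M hw.ne', ?_⟩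
  have := Int.lt_ediv_add_one_mul_self M hw
  linarith

/-- data of the mode in which the rest of the cycle is one long cluster -/
structure SMode {α : Type} (k : ℕ) (β η w : ℕ → ℤ) (F : ℕ → ℤ → α) (C g : ℕ → ℕ → ℤ) (Cs wc : ℤ) :
    Prop where
  wcpos : 1 ≤ wc
  wcL : wc < η 0 - β 1
  wcR : wc < η k - β (k + 1)
  sS : Cs ≤ C 1 k + g 1 k - (β (k + 1) - η 0) - wc
  FWL : ∀ l, 1 ≤ l → l ≤ k → NoAgree (F 0) (F l) (wc + w l)
  FWR : ∀ l, 1 ≤ l → l ≤ k → NoAgree (F l) (F (k + 1)) (wc + w l)
  gS : β (k + 1) - η 0 + (η 0 - β 1) < g 1 k + wc ∨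
    β (k + 1) - η 0 + (η k - β (k + 1)) < g 1 k + wc

structure Run {α : Type} (k : ℕ) (β η w : ℕ → ℤ) (F : ℕ → ℤ → α) (C g : ℕ → ℕ → ℤ) (Cs : ℤ) :
    Prop where
  hk : 1 ≤ k
  wpos : ∀ a, 1 ≤ a → a ≤ k → 1 ≤ w a
  long : ∀ a, 1 ≤ a → a ≤ k → β a + w a < η a
  monB : ∀ a, 1 ≤ a → a ≤ k → β a ≤ β (a + 1)
  monE : ∀ a, a < k → η a ≤ η (a + 1)
  ovl : ∀ a, a ≤ k → β (a + 1) ≤ η a
  depL : η 0 < η 1 - w 1
  depR : β k + w k < β (k + 1)
  per : ∀ a, 1 ≤ a → a ≤ k → ∀ t, F a (t + w a) = F a t
  agree : ∀ a, a ≤ k → ∀ t, β (a + 1) ≤ t → t < η a → F a t = F (a + 1) t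
  FW : ∀ a b, 1 ≤ a → a < b → b ≤ k → NoAgree (F a) (F b) (w a + w b)
  c1 : ∀ a, 1 ≤ a → a ≤ k → C a a ≤ η a - w a - β a
  cL : C 1 1 < η 1 - η 0
  cR : C k k < β (k + 1) - β k
  cP : ∀ a, 1 ≤ a → a < k → C a (a + 1) ≤ η (a + 1) - w (a + 1) - (β a + w a)
  split : ∀ a c b, 1 ≤ a → a ≤ c → c < b → b ≤ k → C a b ≤ C a c + C (c + 1) b
  Cemp : ∀ a, C (a + 1) a = 0
  gap : ∀ p j, p < j → j ≤ k → β (j + 1) - η p ≤ g (p + 1) j
  ov : ∀ p j D, p < j → j ≤ k → β (p + 1) ≤ β (j + 1) - D → η p + D ≤ η j →
    (∀ x, β (j + 1) - D ≤ x → x < η p → F (p + 1) x = F j (x + D)) → D ≤ g (p + 1) j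
  sL : Cs < η 1 - η 0 + C 2 k
  sR : ∀ p, k = p + 1 → Cs < β (k + 1) - β k + C 1 p
  mode : Cs ≤ C 1 k ∨ ∃ wc, SMode k β η w F C g Cs wc

namespace Run
variable {α : Type} {k : ℕ} {β η w : ℕ → ℤ} {F : ℕ → ℤ → α} {C g : ℕ → ℕ → ℤ} {Cs : ℤ}

lemma monB' (R : Run k β η w F C g Cs) {a b : ℕ} (h1 : 1 ≤ a) (h2 : a ≤ b) (h3 : b ≤ k + 1) :
    β a ≤ β b := by
  induction b, h2 using Nat.le_induction with
  | base => exact le_rfl
  | succ b hb ih => exact (ih (by omega)).trans (R.monB b (by omega) (by omega))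

lemma monE' (R : Run k β η w F C g Cs) {a b : ℕ} (h2 : a ≤ b) (h3 : b ≤ k) : η a ≤ η b := by
  induction b, h2 using Nat.le_induction with
  | base => exact le_rfl
  | succ b hb ih => exact (ih (by omega)).trans (R.monE b (by omega))

lemma agree' (R : Run k β η w F C g Cs) {a b : ℕ} (h2 : a ≤ b) (h3 : b ≤ k + 1) (t : ℤ)
    (h4 : β b ≤ t) (h5 : t < η a) : F a t = F b t := by
  induction b, h2 using Nat.le_induction with
  | base => rfl
  | succ b hb ih =>
    rcases Nat.eq_or_lt_of_le hb with rfl | hlt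
    · exact R.agree a (by omega) t h4 h5
    · have h6 := R.monB b (by omega) (by omega)
      have h7 := R.monE' hb (by omega)
      rw [ih (by omega) (by omega)]
      exact R.agree b (by omega) t h4 (by omega)

lemma ov1 (R : Run k β η w F C g Cs) {p l b : ℕ} (h1 : p + 1 ≤ l) (h2 : l ≤ b) (h3 : b ≤ k)
    (j : ℤ) (hA : j * w l ≤ β (b + 1) - β l) (hB : j * w l ≤ η l - η p) :
    j * w l ≤ g (p + 1) b := by
  have e1 := R.monB' (a := p + 1) (b := l) (by omega) h1 (by omega)
  have e2 := R.monE' h2 h3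
  have e3 := R.monE' (a := p) (b := p + 1) (by omega) (by omega)
  have e4 := R.monB b (by omega) h3
  refine R.ov p b _ (by omega) h3 (by omega) (by omega) fun x hx1 hx2 => ?_
  rw [R.agree' h1 (by omega) x (by omega) (by omega),
    ← per_mul (R.per l (by omega) (by omega)) j x]
  exact R.agree' h2 (by omega) _ (by omega) (by omega)

lemma ov2 (R : Run k β η w F C g Cs) {p l m b : ℕ} (h1 : p + 1 ≤ l) (h2 : l ≤ m) (h2' : m ≤ b)
    (h3 : b ≤ k) (i j : ℤ) (hA : i * w l + j * w m ≤ β (b + 1) - β l)
    (hB : i * w l ≤ η l - η p) (hC : j * w m ≤ β (b + 1) - β m)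
    (hD : i * w l + j * w m ≤ η m - η p) : i * w l + j * w m ≤ g (p + 1) b := by
  have e1 := R.monB' (a := p + 1) (b := l) (by omega) h1 (by omega)
  have e2 := R.monE' h2' h3
  have e3 := R.monE' (a := p) (b := p + 1) (by omega) (by omega)
  have e4 := R.monB b (by omega) h3
  refine R.ov p b _ (by omega) h3 (by omega) (by omega) fun x hx1 hx2 => ?_
  rw [R.agree' h1 (by omega) x (by omega) (by omega),
    ← per_mul (R.per l (by omega) (by omega)) i x,
    R.agree' h2 (by omega) _ (by omega) (by omega),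
    ← per_mul (R.per m (by omega) (by omega)) j _, add_assoc]
  exact R.agree' h2' (by omega) _ (by omega) (by omega)

lemma ov3 (R : Run k β η w F C g Cs) {p l m n b : ℕ} (h1 : p + 1 ≤ l) (h2 : l ≤ m) (h2' : m ≤ n)
    (h2'' : n ≤ b) (h3 : b ≤ k) (hA : w l + w m + w n ≤ β (b + 1) - β l)
    (hB : w l ≤ η l - η p) (hC : w m + w n ≤ β (b + 1) - β m) (hD : w l + w m ≤ η m - η p)
    (hE : w n ≤ β (b + 1) - β n) (hF : w l + w m + w n ≤ η n - η p) :
    w l + w m + w n ≤ g (p + 1) b := by
  have e1 := R.monB' (a := p + 1) (b := l) (by omega) h1 (by omega)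
  have e2 := R.monE' h2'' h3
  have e3 := R.monE' (a := p) (b := p + 1) (by omega) (by omega)
  have e4 := R.monB b (by omega) h3
  refine R.ov p b _ (by omega) h3 (by omega) (by omega) fun x hx1 hx2 => ?_
  rw [R.agree' h1 (by omega) x (by omega) (by omega),
    ← R.per l (by omega) (by omega) x,
    R.agree' h2 (by omega) _ (by omega) (by omega),
    ← R.per m (by omega) (by omega) _,
    R.agree' h2' (by omega) _ (by omega) (by omega),
    ← R.per n (by omega) (by omega) _]
  have : x + w l + w m + w n = x + (w l + w m + w n) := by ring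
  rw [this]
  exact R.agree' h2'' (by omega) _ (by omega) (by omega)

lemma g0 (R : Run k β η w F C g Cs) {a b : ℕ} (h1 : 1 ≤ a) (h2 : a ≤ b) (h3 : b ≤ k) :
    0 ≤ g a b := by
  obtain ⟨p, rfl⟩ : ∃ p, a = p + 1 := ⟨a - 1, by omega⟩
  have e1 := R.monB' (a := p + 1) (b := b + 1) (by omega) (by omega) (by omega)
  have e3 := R.monE' (a := p) (b := p + 1) (by omega) (by omega)
  have := R.ov1 (l := p + 1) le_rfl h2 h3 0 (by omega) (by omega)
  omega

lemma fw (R : Run k β η w F C g Cs) {a b : ℕ} (h1 : 1 ≤ a) (h2 : a < b) (h3 : b ≤ k) :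
    η a - w a < β b + w b := by
  by_contra H
  refine R.FW a b h1 h2 h3 (β b) 0 fun t h4 h5 => ?_
  rw [add_zero]
  exact R.agree' h2.le (by omega) t h4 (by omega)

lemma cT' (R : Run k β η w F C g Cs) (n : ℕ) : ∀ a b, 1 ≤ a → b = a + 2 * n + 1 → b ≤ k →
    C a b ≤ η b - w b - (β a + w a) := by
  induction n with
  | zero =>
    intro a b h1 h2 h3
    subst h2
    exact R.cP a h1 (by omega)
  | succ n ih =>
    intro a b h1 h2 h3
    have e1 := ih (a + 1 + 1) b (by omega) (by omega) h3
    have e2 := R.split a (a + 1) b h1 (by omega) (by omega) h3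
    have e3 := R.cP a h1 (by omega)
    have e4 := R.fw (a := a + 1) (b := a + 1 + 1) (by omega) (by omega) (by omega)
    omega

lemma cT (R : Run k β η w F C g Cs) {a b : ℕ} (h1 : 1 ≤ a) (h2 : a < b) (h3 : b ≤ k)
    (h4 : (b - a) % 2 = 1) : C a b ≤ η b - w b - (β a + w a) :=
  R.cT' ((b - a) / 2) a b h1 (by omega) h3

theorem facts (R : Run k β η w F C g Cs)
    (hnorm : ∀ p, p + 1 ≤ k → β (p + 1 + 1) < β (p + 1) + w (p + 1) ∨ η (p + 1) - w (p + 1) < η p)
    (hgoal : ∀ a b, 1 ≤ a → a ≤ b → b ≤ k → ¬ (a = 1 ∧ b = k) → 2 * g a b < C a b)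
    (hS : 2 * g 1 k < Cs) : Facts k β η w C g Cs := by
  have nf1 : 3 ≤ k → ∀ a, 1 ≤ a → a < k → β a + w a < η (a + 1) - w (a + 1) := by
    intro hk a h1 h2
    have e1 := hgoal a (a + 1) h1 (by omega) (by omega) (by omega)
    have e2 := R.cP a h1 h2
    have e3 := R.g0 (a := a) (b := a + 1) h1 (by omega) (by omega)
    omega
  have nf2 : 3 ≤ k → ∀ n a b, 1 ≤ a → b = a + 2 * n + 2 → b ≤ k →
      β a + w a < β b + w b ∧ η a - w a < η b - w b := by
    intro hk n
    induction n with
    | zero =>
      intro a b h1 h2 h3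
      obtain rfl : b = a + 1 + 1 := by omega
      have e1 := nf1 hk a h1 (by omega)
      have e2 := nf1 hk (a + 1) (by omega) (by omega)
      have e3 := R.fw (a := a) (b := a + 1) h1 (by omega) (by omega)
      have e4 := R.fw (a := a + 1) (b := a + 1 + 1) (by omega) (by omega) (by omega)
      omega
    | succ n ih =>
      intro a b h1 h2 h3
      have e0 := ih (a + 1 + 1) b (by omega) (by omega) h3
      have e1 := nf1 hk a h1 (by omega)
      have e2 := nf1 hk (a + 1) (by omega) (by omega)
      have e3 := R.fw (a := a) (b := a + 1) h1 (by omega) (by omega)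
      have e4 := R.fw (a := a + 1) (b := a + 1 + 1) (by omega) (by omega) (by omega)
      omega
  refine
    { wpos := R.wpos, long := R.long
      monB := fun a b h1 h2 h3 => R.monB' h1 h2 h3
      monE := fun a b h1 h2 => R.monE' h1 h2
      ovl := by rintro a q rfl h; exact R.ovl a h
      depL := R.depL
      depR := by rintro q rfl; exact R.depR
      fw := fun a b h1 h2 h3 => R.fw h1 h2 h3
      nfo := ?_
      nfe1 := fun a b hk h1 h2 h3 h4 => (nf2 hk ((b - a) / 2 - 1) a b h1 (by omega) h3).1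
      nfe2 := fun a b hk h1 h2 h3 h4 => (nf2 hk ((b - a) / 2 - 1) a b h1 (by omega) h3).2
      norm := by rintro p a q rfl rfl h; exact hnorm p h
      bord := ?_
      c1 := R.c1, cL := R.cL
      cR := by rintro q rfl; exact R.cR
      cT := fun a b h1 h2 h3 h4 => R.cT h1 h2 h3 h4
      split := by rintro a c d b h1 h2 rfl h3 h4; exact R.split a c b h1 h2 (by omega) h4
      gapE := ?_
      g0 := fun a b h1 h2 h3 => R.g0 h1 h2 h3
      g1 := by rintro p a b q rfl rfl h1 h2; exact R.gap p b (by omega) h2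
      goal := hgoal
      ga := ?_, gb := ?_, gc := ?_, gd := ?_, ge := ?_, g3 := ?_
      goalS := hS, sL := R.sL
      sR := by rintro p q h rfl; exact R.sR p h }
  · intro a b hk h1 h2 h3 h4
    have e1 := nf1 hk a h1 (by omega)
    rcases Nat.eq_or_lt_of_le (show a + 1 ≤ b from h2) with rfl | h5
    · exact e1
    · have e2 := (nf2 hk ((b - a) / 2 - 1) (a + 1) b (by omega) (by omega) h3).2
      omega
  · intro i l j h1 h2 h3 h4
    by_contra H
    push Not at H
    obtain ⟨H1, H2, H3, H4⟩ := H
    refine R.FW i j h1 (by omega) h4 (max (β l) (β j - w l)) (w l) fun t h5 h6 => ?_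
    have h7 : β l ≤ t := le_trans (le_max_left _ _) h5
    have h8 : β j - w l ≤ t := le_trans (le_max_right _ _) h5
    have h9 : t < η i ∧ t + w l < η l := by
      rcases le_total (β l) (β j - w l) with h | h
      · rw [max_eq_right h] at h6; omega
      · rw [max_eq_left h] at h6; omega
    rw [R.agree' h2.le (by omega) t h7 h9.1, ← R.per l (by omega) (by omega) t]
    exact R.agree' h3.le (by omega) _ (by omega) h9.2
  · intro a l r b h1 h2 h3 h4 h5 h6
    have e1 := R.split a l b h1 h2 (by omega) h5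
    have e2 := R.fw (a := l) (b := l + 1) (by omega) (by omega) (by omega)
    rcases Nat.eq_or_lt_of_le (show l + 1 ≤ r from h3) with rfl | h7
    · omega
    · obtain ⟨r, rfl⟩ : ∃ r', r = r' + 1 := ⟨r - 1, by omega⟩
      have e3 := R.split (l + 1) r b (by omega) (by omega) (by omega) h5
      have e4 := R.cT (a := l + 1) (b := r) (by omega) (by omega) (by omega) (by omega)
      have e5 := R.fw (a := r) (b := r + 1) (by omega) (by omega) (by omega)
      omega
  · rintro p a l b q rfl rfl h1 h2 h3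
    by_contra H
    push Not at H
    have := R.ov1 h1 h2 h3 1 (by omega) (by omega)
    omega
  · rintro p a l b q rfl rfl h1 h2 h3
    by_contra H
    push Not at H
    have hw := R.wpos l (by omega) (by omega)
    obtain ⟨j, hj1, hj2⟩ := exists_floor_mul (min (β (b + 1) - β l) (η l - η p)) (w l) (by omega)
    have := R.ov1 h1 h2 h3 j (by omega) (by omega)
    omega
  · rintro p a l m b q rfl rfl h1 h2 h3 h4
    by_contra H
    push Not at H
    have := R.ov2 h1 h2.le h3 h4 1 1 (by omega) (by omega) (by omega) (by omega)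
    omega
  · rintro p a l m b q rfl rfl h1 h2 h3 h4
    by_contra H
    push Not at H
    have hw := R.wpos m (by omega) (by omega)
    obtain ⟨j, hj1, hj2⟩ := exists_floor_mul
      (min (β (b + 1) - β l - w l) (min (η m - η p - w l) (β (b + 1) - β m))) (w m) (by omega)
    have := R.ov2 h1 h2.le h3 h4 1 j (by omega) (by omega) (by omega) (by omega)
    omega
  · rintro p a l m b q rfl rfl h1 h2 h3 h4
    by_contra H
    push Not at H
    have hw := R.wpos l (by omega) (by omega)
    obtain ⟨j, hj1, hj2⟩ := exists_floor_mul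
      (min (β (b + 1) - β l - w m) (min (η m - η p - w m) (η l - η p))) (w l) (by omega)
    have := R.ov2 h1 h2.le h3 h4 j 1 (by omega) (by omega) (by omega) (by omega)
    omega
  · rintro p a l m n b q rfl rfl h1 h2 h3 h4 h5
    by_contra H
    push Not at H
    have := R.ov3 h1 h2.le h3.le h4 h5 (by omega) (by omega) (by omega) (by omega) (by omega)
      (by omega)
    omega

theorem sfacts (R : Run k β η w F C g Cs) {wc : ℤ} (S : SMode k β η w F C g Cs wc) :
    SFacts k β η w C g Cs wc where
  sS := by rintro q rfl; exact S.sS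
  wcpos := S.wcpos
  wcL := S.wcL
  wcR := by rintro q rfl; exact S.wcR
  fwL := by
    intro l h1 h2
    by_contra H
    refine S.FWL l h1 h2 (β l) 0 fun t h4 h5 => ?_
    rw [add_zero]
    exact R.agree' (by omega) (by omega) t h4 (by omega)
  fwR := by
    rintro l q h1 h2 rfl
    by_contra H
    refine S.FWR l h1 h2 (β (k + 1)) 0 fun t h4 h5 => ?_
    rw [add_zero]
    exact R.agree' (by omega) (by omega) t h4 (by omega)
  gS := by rintro q rfl; exact S.gS

/-- Lowering: take one period out of the overlap of node `l = p + 1`. -/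
theorem lower (R : Run k β η w F C g Cs) {p : ℕ} (hp : p + 1 ≤ k)
    (hu : β (p + 1) + w (p + 1) ≤ β (p + 1 + 1)) (hv : η p ≤ η (p + 1) - w (p + 1))
    (h1 : β (p + 1) + 2 * w (p + 1) < η (p + 1))
    (h2 : p = 0 → η 0 + 2 * w 1 < η 1) (h3 : p + 1 = k → β k + 2 * w k < β (k + 1)) :
    Run k (fun a => if a ≤ p + 1 then β a + w (p + 1) else β a)
      (fun a => if a ≤ p then η a + w (p + 1) else η a) w
      (fun a t => F a (t - if a ≤ p then w (p + 1) else 0))
      (fun i j => if i ≤ p + 1 ∧ p + 1 ≤ j then C i j - 2 * w (p + 1) else C i j)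
      (fun i j => if i ≤ p + 1 ∧ p + 1 ≤ j then g i j - w (p + 1) else g i j)
      (Cs - 2 * w (p + 1)) := by
  have hw := R.wpos (p + 1) (by omega) hp
  have hk := R.hk
  have hper := R.per (p + 1) (by omega) hp
  refine
    { hk := R.hk, wpos := R.wpos
      long := ?_, monB := ?_, monE := ?_, ovl := ?_, depL := ?_, depR := ?_, per := ?_
      agree := ?_
      FW := fun a b e1 e2 e3 => (R.FW a b e1 e2 e3).shift _ _
      c1 := ?_, cL := ?_, cR := ?_, cP := ?_, split := ?_, Cemp := ?_, gap := ?_, ov := ?_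
      sL := ?_, sR := ?_, mode := ?_ }
  · intro a e1 e2
    have := R.long a e1 e2
    by_cases e : a = p + 1
    · subst e; simp only [le_refl, if_true, show ¬ (p + 1 ≤ p) by omega, if_false]; omega
    · split_ifs <;> omega
  · intro a e1 e2
    have := R.monB a e1 e2
    by_cases e : a = p + 1
    · subst e; split_ifs <;> omega
    · split_ifs <;> omega
  · intro a e1
    have := R.monE a e1
    by_cases e : a = p
    · subst e; split_ifs <;> omega
    · split_ifs <;> omega
  · intro a e1
    have := R.ovl a e1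
    split_ifs <;> omega
  · have := R.depL
    by_cases e : p = 0
    · have := h2 e
      subst e; simp only [le_refl, if_true, show ¬ (1 ≤ 0) by omega, if_false, zero_add]; omega
    · split_ifs <;> omega
  · have := R.depR
    by_cases e : p + 1 = k
    · have := h3 e
      subst e; split_ifs <;> omega
    · split_ifs <;> omega
  · intro a e1 e2 t
    rw [← R.per a e1 e2 (t - _)]; congr 1; ring
  · intro a e1 t e2 e3
    by_cases e : a + 1 ≤ p
    · simp only [e, show a ≤ p by omega, show a + 1 ≤ p + 1 by omega, if_true] at e2 e3 ⊢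
      exact R.agree a e1 _ (by omega) (by omega)
    · by_cases e' : a = p
      · subst e'
        simp only [e, le_refl, if_true, if_false, sub_zero] at e2 e3 ⊢
        rw [R.agree a e1 _ (by omega) (by omega), ← hper]; congr 1; ring
      · simp only [e, show ¬ a ≤ p by omega, show ¬ a + 1 ≤ p + 1 by omega, if_false,
          sub_zero] at e2 e3 ⊢
        exact R.agree a e1 _ e2 e3
  · intro a e1 e2
    have := R.c1 a e1 e2
    by_cases e : a = p + 1
    · subst e; split_ifs <;> omega
    · split_ifs <;> omega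
  · have := R.cL
    by_cases e : p = 0
    · subst e; split_ifs <;> omega
    · split_ifs <;> omega
  · have := R.cR
    by_cases e : p + 1 = k
    · subst e; split_ifs <;> omega
    · split_ifs <;> omega
  · intro a e1 e2
    have := R.cP a e1 e2
    split_ifs <;> omega
  · intro a c b e1 e2 e3 e4
    have := R.split a c b e1 e2 e3 e4
    split_ifs <;> omega
  · intro a
    have := R.Cemp a
    split_ifs <;> omega
  · intro q j e1 e2
    have := R.gap q j e1 e2
    split_ifs <;> omega
  · intro q j D e1 e2 e3 e4 e5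
    by_cases e : j ≤ p
    · simp only [e, show q ≤ p by omega, show q + 1 ≤ p + 1 by omega, show j + 1 ≤ p + 1 by omega,
        show q + 1 ≤ p by omega, show ¬ p + 1 ≤ j by omega, if_true, and_false,
        if_false] at e3 e4 e5 ⊢
      refine R.ov q j D e1 e2 (by omega) (by omega) fun x e6 e7 => ?_
      have := e5 (x + w (p + 1)) (by omega) (by omega)
      rw [add_sub_cancel_right] at this
      rw [this]; congr 1; ring
    · by_cases e' : q ≤ p
      · simp only [e, e', show q + 1 ≤ p + 1 by omega, show ¬ j + 1 ≤ p + 1 by omega,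
          show p + 1 ≤ j by omega, if_true, and_true, if_false, sub_zero] at e3 e4 e5 ⊢
        have := R.ov q j (D + w (p + 1)) e1 e2 (by omega) (by omega) fun x e6 e7 => by
          have := e5 (x + w (p + 1)) (by omega) (by omega)
          have e8 : x + w (p + 1) + D = x + (D + w (p + 1)) := by ring
          rw [e8] at this
          rw [← this]
          split_ifs with e9
          · rw [add_sub_cancel_right]
          · obtain rfl : q = p := by omega
            rw [sub_zero, hper]
        omega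
      · simp only [e, e', show ¬ q + 1 ≤ p + 1 by omega, show ¬ j + 1 ≤ p + 1 by omega,
          show ¬ q + 1 ≤ p by omega, false_and, if_false, sub_zero] at e3 e4 e5 ⊢
        exact R.ov q j D e1 e2 e3 e4 e5
  · have := R.sL
    split_ifs <;> omega
  · intro q e
    have := R.sR q e
    split_ifs <;> omega
  · rcases R.mode with h | ⟨wc, S⟩
    · left
      split_ifs <;> omega
    · right
      refine ⟨wc, S.wcpos, ?_, ?_, ?_, fun l e1 e2 => (S.FWL l e1 e2).shift _ _,
        fun l e1 e2 => (S.FWR l e1 e2).shift _ _, ?_⟩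
      · have := S.wcL
        split_ifs <;> omega
      · have := S.wcR
        split_ifs <;> omega
      · have := S.sS
        split_ifs <;> omega
      · have := S.gS
        split_ifs <;> omega

/-- The UV-run lemma. -/
theorem main (R : Run k β η w F C g Cs) :
    (∃ a b, 1 ≤ a ∧ a ≤ b ∧ b ≤ k ∧ ¬ (a = 1 ∧ b = k) ∧ C a b ≤ 2 * g a b) ∨ Cs ≤ 2 * g 1 k := by
  induction hn : (β (k + 1) - β 1).toNat using Nat.strong_induction_on generalizing β η F C g Cs with
  | _ n ih =>
  by_contra H
  push Not at H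
  obtain ⟨hgoal, hS⟩ := H
  have hk := R.hk
  by_cases hnorm : ∀ p, p + 1 ≤ k →
      β (p + 1 + 1) < β (p + 1) + w (p + 1) ∨ η (p + 1) - w (p + 1) < η p
  · have F := R.facts hnorm (fun a b e1 e2 e3 e4 => hgoal a b e1 e2 e3 (by tauto)) hS
    have hk2 : 2 ≤ k := by
      by_contra hk1
      obtain rfl : k = 1 := by omega
      have e1 := hnorm 0 le_rfl
      have e2 := R.depL
      have e3 := R.depR
      simp only [zero_add] at e1
      omega
    refine core hk2 F ?_
    rcases R.mode with h | ⟨wc, S⟩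
    · exact Or.inl h
    · exact Or.inr ⟨wc, R.sfacts S⟩
  · push Not at hnorm
    obtain ⟨p, hp, hu, hv⟩ := hnorm
    have hw := R.wpos (p + 1) (by omega) hp
    have hg := R.ov1 (p := p) (l := p + 1) (b := p + 1) le_rfl le_rfl hp 1 (by omega) (by omega)
    have hc1 := R.c1 (p + 1) (by omega) hp
    have hcL := R.cL
    have hcR := R.cR
    have hkey : β (p + 1) + 2 * w (p + 1) < η (p + 1) ∧ (p = 0 → η 0 + 2 * w 1 < η 1) ∧
        (p + 1 = k → β k + 2 * w k < β (k + 1)) := by
      by_cases hk1 : k = 1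
      · subst hk1
        obtain rfl : p = 0 := by omega
        have e1 := R.sL
        have e2 := R.sR 0 rfl
        have e3 := R.Cemp 0
        have e4 := R.Cemp 1
        have e5 := R.ovl 0 (by omega)
        simp only [zero_add, Nat.reduceAdd] at *
        refine ⟨by omega, fun _ => by omega, fun _ => by omega⟩
      · have e1 := hgoal (p + 1) (p + 1) (by omega) le_rfl hp (by omega)
        refine ⟨by omega, ?_, ?_⟩
        · rintro rfl
          simp only [zero_add] at *
          omega
        · rintro rfl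
          omega
    have R' := R.lower hp hu hv hkey.1 hkey.2.1 hkey.2.2
    have hm := R'.monB' (a := 1) (b := k + 1) le_rfl (by omega) le_rfl
    simp only [show 1 ≤ p + 1 by omega, show ¬ k + 1 ≤ p + 1 by omega, if_true, if_false] at hm
    rcases ih _ (by
      simp only [show 1 ≤ p + 1 by omega, show ¬ k + 1 ≤ p + 1 by omega, if_true, if_false]
      omega) R' rfl with ⟨a, b, e1, e2, e3, e4, e5⟩ | e5
    · have := hgoal a b e1 e2 e3 (by tauto)
      split_ifs at e5 <;> omega
    · simp only [show 1 ≤ p + 1 by omega, hp, and_self, if_true] at e5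
      omega

end Run

end Crest.Agent.R287
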