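import Mathlib

/-!
Arithmetic core of the UV-run lemma (row 287).  The case trees were found by a DPLL(LP) search and are
checked here by `linarith`.
-/

set_option autoImplicit false

namespace Crest.Agent.R287

/-- linear facts about a normalised run in which no proper sub-block pays for itself -/
structure Facts (k : ℕ) (β η w : ℕ → ℤ) (C g : ℕ → ℕ → ℤ) (Cs : ℤ) : Prop where
  wpos : ∀ a, 1 ≤ a → a ≤ k → 1 ≤ w a
  long : ∀ a, 1 ≤ a → a ≤ k → β a + w a < η a
  monB : ∀ a b, 1 ≤ a → a ≤ b → b ≤ k + 1 → β a ≤ β b
  monE : ∀ a b, a ≤ b → b ≤ k → η a ≤ η b
  ovl : ∀ a q, q = a + 1 → a ≤ k → β q ≤ η a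
  depL : η 0 < η 1 - w 1
  depR : ∀ q, q = k + 1 → β k + w k < β q
  fw : ∀ a b, 1 ≤ a → a < b → b ≤ k → η a - w a < β b + w b
  nfo : ∀ a b, 3 ≤ k → 1 ≤ a → a < b → b ≤ k → (b - a) % 2 = 1 → β a + w a < η b - w b
  nfe1 : ∀ a b, 3 ≤ k → 1 ≤ a → a < b → b ≤ k → (b - a) % 2 = 0 → β a + w a < β b + w b
  nfe2 : ∀ a b, 3 ≤ k → 1 ≤ a → a < b → b ≤ k → (b - a) % 2 = 0 → η a - w a < η b - w b
  norm : ∀ p a q, a = p + 1 → q = a + 1 → a ≤ k → β q < β a + w a ∨ η a - w a < η p
  bord : ∀ i l j, 1 ≤ i → i < l → l < j → j ≤ k →
    η l - w l - β l < w i + w j ∨ η i - β l < w i + w j ∨ η l - β j < w i + w j ∨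
      η i - β j + w l < w i + w j
  c1 : ∀ a, 1 ≤ a → a ≤ k → C a a ≤ η a - w a - β a
  cL : C 1 1 < η 1 - η 0
  cR : ∀ q, q = k + 1 → C k k < β q - β k
  cT : ∀ a b, 1 ≤ a → a < b → b ≤ k → (b - a) % 2 = 1 → C a b ≤ η b - w b - (β a + w a)
  split : ∀ a c d b, 1 ≤ a → a ≤ c → d = c + 1 → d ≤ b → b ≤ k → C a b ≤ C a c + C d b
  gapE : ∀ a l r b, 1 ≤ a → a ≤ l → l < r → r ≤ b → b ≤ k → (r - l) % 2 = 1 →
    C a b < C a l + (β r + w r - (η l - w l)) + C r b
  g0 : ∀ a b, 1 ≤ a → a ≤ b → b ≤ k → 0 ≤ g a b
  g1 : ∀ p a b q, a = p + 1 → q = b + 1 → a ≤ b → b ≤ k → β q - η p ≤ g a b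
  goal : ∀ a b, 1 ≤ a → a ≤ b → b ≤ k → ¬ (a = 1 ∧ b = k) → 2 * g a b < C a b
  ga : ∀ p a l b q, a = p + 1 → q = b + 1 → a ≤ l → l ≤ b → b ≤ k →
    w l ≤ g a b ∨ β q - β l < w l ∨ η l - η p < w l
  gb : ∀ p a l b q, a = p + 1 → q = b + 1 → a ≤ l → l ≤ b → b ≤ k →
    β q - β l < g a b + w l ∨ η l - η p < g a b + w l
  gc : ∀ p a l m b q, a = p + 1 → q = b + 1 → a ≤ l → l < m → m ≤ b → b ≤ k →
    w l + w m ≤ g a b ∨ η l - η p < w l ∨ β q - β m < w m ∨ β q - β l < w l + w m ∨
      η m - η p < w l + w m
  gd : ∀ p a l m b q, a = p + 1 → q = b + 1 → a ≤ l → l < m → m ≤ b → b ≤ k →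
    β q - β l < g a b + w m ∨ η m - η p < g a b + w m ∨ w l + (β q - β m) < g a b + w m ∨
      η l - η p < w l
  ge : ∀ p a l m b q, a = p + 1 → q = b + 1 → a ≤ l → l < m → m ≤ b → b ≤ k →
    β q - β l < g a b + w l ∨ η m - η p < g a b + w l ∨ w m + (η l - η p) < g a b + w l ∨
      β q - β m < w m
  g3 : ∀ p a l m n b q, a = p + 1 → q = b + 1 → a ≤ l → l < m → m < n → n ≤ b → b ≤ k →
    w l + w m + w n ≤ g a b ∨ β q - β l < w l + w m + w n ∨ η l - η p < w l ∨
      β q - β m < w m + w n ∨ η m - η p < w l + w m ∨ β q - β n < w n ∨
      η n - η p < w l + w m + w n
  goalS : 2 * g 1 k < Cs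
  sL : Cs < η 1 - η 0 + C 2 k
  sR : ∀ p q, k = p + 1 → q = k + 1 → Cs < β q - β k + C 1 p

/-- additional facts when the rest of the cycle is one long cluster of period `wc` -/
structure SFacts (k : ℕ) (β η w : ℕ → ℤ) (C g : ℕ → ℕ → ℤ) (Cs wc : ℤ) : Prop where
  sS : ∀ q, q = k + 1 → Cs ≤ C 1 k + g 1 k - (β q - η 0) - wc
  wcpos : 1 ≤ wc
  wcL : wc < η 0 - β 1
  wcR : ∀ q, q = k + 1 → wc < η k - β q
  fwL : ∀ l, 1 ≤ l → l ≤ k → η 0 - β l < wc + w l
  fwR : ∀ l q, 1 ≤ l → l ≤ k → q = k + 1 → η l - β q < wc + w l
  gS : ∀ q, q = k + 1 →
    β q - η 0 + (η 0 - β 1) < g 1 k + wc ∨ β q - η 0 + (η k - β q) < g 1 k + wc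

variable {β η w : ℕ → ℤ} {C g : ℕ → ℕ → ℤ} {Cs wc : ℤ}

theorem core_k2N (F : Facts 2 β η w C g Cs) (hN : Cs ≤ C 1 2) : False := by
  have b2 := F.wpos 2 (by decide) (by decide)
  have b7 := F.monE 1 2 (by decide) (by decide)
  have b11 := F.depL
  have b12 := F.depR 3 (by decide)
  have b13 := F.fw 1 2 (by decide) (by decide) (by decide)
  have b15 := F.cL
  have b16 := F.cT 1 2 (by decide) (by decide) (by decide) (by decide)
  have b18 := F.c1 2 (by decide) (by decide)
  have b19 := F.cR 3 (by decide)
  have b22 := F.g1 0 1 2 3 (by decide) (by decide) (by decide) (by decide)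
  have b25 := F.goalS
  have b26 := F.sL
  have b27 := F.sR 1 3 (by decide) (by decide)
  have b28 := hN
  have x0 := F.wpos 1 (by decide) (by decide)
  have x1 := F.wpos 2 (by decide) (by decide)
  have x2 := F.g0 1 1 (by decide) (by decide) (by decide)
  have x3 := F.g0 1 2 (by decide) (by decide) (by decide)
  have x4 := F.g0 2 2 (by decide) (by decide) (by decide)
  rcases F.norm 1 2 3 (by decide) (by decide) (by decide) with c1 | c1
  · linarith only [b12, c1, x1]
  · rcases F.norm 0 1 2 (by decide) (by decide) (by decide) with c0 | c0
    · rcases F.gc 0 1 1 2 2 3 (by decide) (by decide) (by decide) (by decide) (by decide) (by decide) with c8 | c8 | c8 | c8 | c8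
      · linarith only [c8, b13, b22, b25, b27, b15, x0, x1, x3]
      · linarith only [b11, c8, x0]
      · linarith only [b12, c8, x1]
      · rcases F.ga 0 1 2 2 3 (by decide) (by decide) (by decide) (by decide) (by decide) with c6 | c6 | c6
        · rcases F.gd 0 1 1 2 2 3 (by decide) (by decide) (by decide) (by decide) (by decide) (by decide) with c9 | c9 | c9 | c9
          · linarith only [b13, b25, b12, c6, c9, b16, c1, b28, x0, x1, x3]
          · linarith only [b13, b11, b25, b12, c8, b16, b28, c6, c9, x0, x1, x3]
          · linarith only [c1, b12, c9, c8, c6, b16, b25, b13, b28, x0, x1, x3]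
          · linarith only [b11, c9, x0]
        · linarith only [c6, b12, x1]
        · rcases F.ge 0 1 1 2 2 3 (by decide) (by decide) (by decide) (by decide) (by decide) (by decide) with c10 | c10 | c10 | c10
          · linarith only [b12, b11, b25, c10, b13, b28, b16, c6, x0, x1, x3]
          · rcases F.ga 0 1 1 2 3 (by decide) (by decide) (by decide) (by decide) (by decide) with c4 | c4 | c4
            · linarith only [b28, c8, b12, b11, b13, b16, b25, c4, c10, x0, x1, x3]
            · linarith only [b11, b12, b25, c6, b28, b13, c4, b16, x0, x1, x3]
            · linarith only [c4, b11, x0]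
          · linarith only [b19, b7, c6, c10, b16, b11, b26, b13, b28, c8, b25, b2, x0, x1, x3]
          · linarith only [c10, b12, x1]
      · rcases F.ga 0 1 2 2 3 (by decide) (by decide) (by decide) (by decide) (by decide) with c6 | c6 | c6
        · rcases F.gd 0 1 1 2 2 3 (by decide) (by decide) (by decide) (by decide) (by decide) (by decide) with c9 | c9 | c9 | c9
          · linarith only [b13, c8, b25, b12, b16, c9, b28, c6, b11, x0, x1, x3]
          · linarith only [b13, c0, b25, b16, b28, c6, c9, b11, x0, x1, x3]
          · linarith only [b16, c9, b15, b25, b27, b28, c6, c0, b12, c8, b13, x0, x1, x3]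
          · linarith only [c9, b11, x0]
        · linarith only [b12, c6, x1]
        · rcases F.ge 0 1 1 2 2 3 (by decide) (by decide) (by decide) (by decide) (by decide) (by decide) with c10 | c10 | c10 | c10
          · linarith only [c10, c6, b12, b13, b11, b16, b28, b25, x0, x1, x3]
          · rcases F.ga 0 1 1 2 3 (by decide) (by decide) (by decide) (by decide) (by decide) with c4 | c4 | c4
            · linarith only [b11, c4, b25, c10, b13, b28, c0, b16, x0, x1, x3]
            · linarith only [b13, b25, c4, b16, b12, b11, b28, c6, x0, x1, x3]
            · linarith only [c4, b11, x0]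
          · linarith only [b7, b11, b18, b25, c6, b13, b26, c10, x0, x1, x3]
          · linarith only [c10, b12, x1]
    · linarith only [b11, c0, x0]

theorem core_k2S (F : Facts 2 β η w C g Cs) (S : SFacts 2 β η w C g Cs wc) : False := by
  have b11 := F.depL
  have b12 := F.depR 3 (by decide)
  have b13 := F.fw 1 2 (by decide) (by decide) (by decide)
  have b16 := F.cT 1 2 (by decide) (by decide) (by decide) (by decide)
  have b25 := F.goalS
  have b28 := S.sS 3 (by decide)
  have b32 := S.fwL 1 (by decide) (by decide)
  have b35 := S.fwR 2 3 (by decide) (by decide) (by decide)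
  have x0 := F.wpos 1 (by decide) (by decide)
  have x1 := F.wpos 2 (by decide) (by decide)
  have x2 := F.g0 1 1 (by decide) (by decide) (by decide)
  have x3 := F.g0 1 2 (by decide) (by decide) (by decide)
  have x4 := F.g0 2 2 (by decide) (by decide) (by decide)
  have x5 := S.wcpos
  rcases F.norm 1 2 3 (by decide) (by decide) (by decide) with c1 | c1
  · linarith only [b12, c1, x1]
  · rcases F.ga 0 1 1 2 3 (by decide) (by decide) (by decide) (by decide) (by decide) with c4 | c4 | c4
    · linarith only [c1, b12, b25, b28, b13, c4, b16, b32, x0, x1, x3, x5]
    · linarith only [b11, b25, c4, b12, b35, b13, b28, b16, x0, x1, x3, x5]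
    · linarith only [c4, b11, x0]

theorem core_k3 (F : Facts 3 β η w C g Cs) : False := by
  have b4 := F.wpos 3 (by decide) (by decide)
  have b6 := F.monB 1 2 (by decide) (by decide) (by decide)
  have b7 := F.monB 2 3 (by decide) (by decide) (by decide)
  have b10 := F.monE 1 2 (by decide) (by decide)
  have b16 := F.depL
  have b17 := F.depR 4 (by decide)
  have b18 := F.fw 1 2 (by decide) (by decide) (by decide)
  have b19 := F.nfo 1 2 (by decide) (by decide) (by decide) (by decide) (by decide)
  have b20 := F.fw 1 3 (by decide) (by decide) (by decide)
  have b21 := F.nfe1 1 3 (by decide) (by decide) (by decide) (by decide) (by decide)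
  have b22 := F.nfe2 1 3 (by decide) (by decide) (by decide) (by decide) (by decide)
  have b23 := F.fw 2 3 (by decide) (by decide) (by decide)
  have b24 := F.nfo 2 3 (by decide) (by decide) (by decide) (by decide) (by decide)
  have b26 := F.cL
  have b27 := F.cT 1 2 (by decide) (by decide) (by decide) (by decide)
  have b32 := F.cT 2 3 (by decide) (by decide) (by decide) (by decide)
  have b37 := F.goal 1 1 (by decide) (by decide) (by decide) (by decide)
  have b39 := F.goal 1 2 (by decide) (by decide) (by decide) (by decide)
  have b40 := F.g1 0 1 3 4 (by decide) (by decide) (by decide) (by decide)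
  have b44 := F.goal 2 3 (by decide) (by decide) (by decide) (by decide)
  have b47 := F.goalS
  have b48 := F.sL
  have b49 := F.sR 2 4 (by decide) (by decide)
  have x0 := F.wpos 1 (by decide) (by decide)
  have x1 := F.wpos 2 (by decide) (by decide)
  have x2 := F.wpos 3 (by decide) (by decide)
  have x3 := F.g0 1 1 (by decide) (by decide) (by decide)
  have x4 := F.g0 1 2 (by decide) (by decide) (by decide)
  have x5 := F.g0 1 3 (by decide) (by decide) (by decide)
  have x6 := F.g0 2 2 (by decide) (by decide) (by decide)
  have x7 := F.g0 2 3 (by decide) (by decide) (by decide)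
  have x8 := F.g0 3 3 (by decide) (by decide) (by decide)
  rcases F.norm 0 1 2 (by decide) (by decide) (by decide) with c0 | c0
  · rcases F.norm 2 3 4 (by decide) (by decide) (by decide) with c2 | c2
    · linarith only [b17, c2, x2]
    · rcases F.gb 0 1 1 2 3 (by decide) (by decide) (by decide) (by decide) (by decide) with c7 | c7
      · rcases F.ga 0 1 3 3 4 (by decide) (by decide) (by decide) (by decide) (by decide) with c17 | c17 | c17
        · rcases F.gc 0 1 1 3 3 4 (by decide) (by decide) (by decide) (by decide) (by decide) (by decide) with c22 | c22 | c22 | c22 | c22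
          · rcases F.bord 1 2 3 (by decide) (by decide) (by decide) (by decide) with c3 | c3 | c3 | c3
            · linarith only [b47, c2, c0, b32, c22, b48, b40, b49, b20, c3, b27, x0, x1, x2, x5]
            · linarith only [b17, b40, b32, c3, c22, b47, b23, b48, c2, x0, x1, x2, x5]
            · linarith only [b40, c22, b18, b16, b47, b27, c0, b49, c3, x0, x1, x2, x5]
            · rcases F.norm 1 2 3 (by decide) (by decide) (by decide) with c1 | c1
              · linarith only [c3, b32, b40, c22, c1, b23, c2, b48, b47, b17, x0, x1, x2, x5]
              · linarith only [b49, b24, b40, c22, c3, b39, b47, c2, b32, b18, c1, c7, b27, b48, b23, x0, x1, x2, x4, x5]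
          · linarith only [c22, b16, x0]
          · linarith only [c22, b17, x2]
          · linarith only [b23, b27, b47, c22, c17, b49, x0, x1, x2, x5]
          · rcases F.ga 0 1 1 3 4 (by decide) (by decide) (by decide) (by decide) (by decide) with c13 | c13 | c13
            · linarith only [b32, c22, c13, b48, b18, b47, x0, x1, x2, x5]
            · linarith only [c13, b17, b21, x0, x2]
            · linarith only [b16, c13, x0]
        · linarith only [c17, b17, x2]
        · linarith only [c17, b18, b16, b24, x0, x1, x2]
      · rcases F.ga 0 1 2 3 4 (by decide) (by decide) (by decide) (by decide) (by decide) with c15 | c15 | c15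
        · rcases F.ga 0 1 1 3 4 (by decide) (by decide) (by decide) (by decide) (by decide) with c13 | c13 | c13
          · rcases F.ga 1 2 3 3 4 (by decide) (by decide) (by decide) (by decide) (by decide) with c33 | c33 | c33
            · rcases F.gc 0 1 2 3 3 4 (by decide) (by decide) (by decide) (by decide) (by decide) (by decide) with c25 | c25 | c25 | c25 | c25
              · linarith only [b16, c0, b23, b47, b27, b40, c25, b49, b18, x0, x1, x2, x5]
              · linarith only [b10, c25, b47, b18, b16, c15, c2, b32, b48, x0, x1, x2, x5]
              · linarith only [b17, c25, x2]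
              · rcases F.gc 0 1 1 2 3 4 (by decide) (by decide) (by decide) (by decide) (by decide) (by decide) with c19 | c19 | c19 | c19 | c19
                · linarith only [b17, c19, b48, b40, b23, b32, c2, b47, b18, x0, x1, x2, x5]
                · linarith only [b16, c19, x0]
                · linarith only [b17, b49, b47, b23, b44, b27, c19, c2, b39, b16, c33, c0, c7, b32, c15, x0, x1, x2, x4, x5, x7]
                · linarith only [c33, c2, b18, b27, b49, c15, b47, b40, b17, b23, c19, b32, b44, b16, x0, x1, x2, x5, x7]
                · rcases F.gc 0 1 1 3 3 4 (by decide) (by decide) (by decide) (by decide) (by decide) (by decide) with c22 | c22 | c22 | c22 | c22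
                  · linarith only [b18, b27, c19, c15, b49, c0, c22, c25, b48, b32, b47, c2, b23, x0, x1, x2, x5]
                  · linarith only [c22, b16, x0]
                  · linarith only [c22, b17, x2]
                  · linarith only [b17, c15, b16, c33, c22, b18, b40, b23, b27, b47, c2, b44, b32, b49, x0, x1, x2, x5, x7]
                  · linarith only [c25, b23, b18, b44, c13, b16, c0, c33, b27, c22, c15, b32, b49, b47, x0, x1, x2, x5, x7]
              · linarith only [c25, c13, b18, b47, c15, b32, b48, x0, x1, x2, x5]
            · linarith only [b17, c33, x2]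
            · rcases F.gc 0 1 1 3 3 4 (by decide) (by decide) (by decide) (by decide) (by decide) (by decide) with c22 | c22 | c22 | c22 | c22
              · linarith only [b40, c22, b48, b47, c15, b23, b18, b4, b32, b27, b49, c33, c0, x0, x1, x2, x5]
              · linarith only [c22, b16, x0]
              · linarith only [c22, b17, x2]
              · rcases F.ga 0 1 3 3 4 (by decide) (by decide) (by decide) (by decide) (by decide) with c17 | c17 | c17
                · linarith only [b23, b47, c22, b49, b27, c17, x0, x1, x2, x5]
                · linarith only [c17, b17, x2]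
                · linarith only [b16, b22, c17, x0, x2]
              · linarith only [b47, c13, b18, b48, c22, b32, x0, x1, x2, x5]
          · linarith only [b23, b19, c13, b17, x0, x1, x2]
          · linarith only [c13, b16, x0]
        · rcases F.gd 0 1 2 3 3 4 (by decide) (by decide) (by decide) (by decide) (by decide) (by decide) with c26 | c26 | c26 | c26
          · rcases F.ga 0 1 3 3 4 (by decide) (by decide) (by decide) (by decide) (by decide) with c17 | c17 | c17
            · rcases F.ga 1 2 3 3 4 (by decide) (by decide) (by decide) (by decide) (by decide) with c33 | c33 | c33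
              · rcases F.ge 0 1 1 3 3 4 (by decide) (by decide) (by decide) (by decide) (by decide) (by decide) with c24 | c24 | c24 | c24
                · linarith only [c26, b47, b32, c2, b17, b44, b27, b49, c24, c33, b23, x0, x1, x2, x5, x7]
                · rcases F.ga 0 1 1 2 3 (by decide) (by decide) (by decide) (by decide) (by decide) with c6 | c6 | c6
                  · linarith only [b39, b47, b48, c26, b27, c15, c24, c0, b23, b17, b32, c6, b20, x0, x1, x2, x4, x5]
                  · linarith only [b44, c6, b27, b32, b47, b10, b16, c24, b23, b49, c33, c26, x0, x1, x2, x5, x7]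
                  · linarith only [c6, b16, x0]
                · rcases F.gc 0 1 1 3 3 4 (by decide) (by decide) (by decide) (by decide) (by decide) (by decide) with c22 | c22 | c22 | c22 | c22
                  · rcases F.bord 1 2 3 (by decide) (by decide) (by decide) (by decide) with c3 | c3 | c3 | c3
                    · linarith only [c0, c24, b23, c2, b49, b32, c22, b47, b48, c26, c3, b27, x0, x1, x2, x5]
                    · linarith only [c3, b23, b40, c22, b32, c2, b47, b17, b48, x0, x1, x2, x5]
                    · linarith only [c0, b19, c22, b47, c26, b17, b49, b27, b23, c15, c3, x0, x1, x2, x5]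
                    · linarith only [c0, c22, b23, b49, c15, c3, b40, b27, b37, b47, b17, b26, x0, x1, x2, x3, x5]
                  · linarith only [b16, c22, x0]
                  · linarith only [c22, b17, x2]
                  · linarith only [b23, b16, b47, b27, b49, c24, c22, x0, x1, x2, x5]
                  · rcases F.ga 0 1 1 3 4 (by decide) (by decide) (by decide) (by decide) (by decide) with c13 | c13 | c13
                    · linarith only [c15, b16, b17, c22, b27, c13, b23, c26, b44, b32, c0, b47, c33, b49, b20, x0, x1, x2, x5, x7]
                    · linarith only [c13, b21, b17, x0, x2]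
                    · linarith only [c13, b16, x0]
                · linarith only [b17, c24, x2]
              · linarith only [c33, b17, x2]
              · rcases F.ga 0 1 1 3 4 (by decide) (by decide) (by decide) (by decide) (by decide) with c13 | c13 | c13
                · rcases F.gc 0 1 1 3 3 4 (by decide) (by decide) (by decide) (by decide) (by decide) (by decide) with c22 | c22 | c22 | c22 | c22
                  · linarith only [b23, b49, b39, c15, c0, b32, b17, c7, b24, c22, b20, b48, c26, b47, b27, c33, x0, x1, x2, x4, x5]
                  · linarith only [b16, c22, x0]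
                  · linarith only [b17, c22, x2]
                  · linarith only [b47, b27, b49, c17, b23, c22, x0, x1, x2, x5]
                  · linarith only [c22, b17, b48, c13, c15, b47, b20, b32, x0, x1, x2, x5]
                · linarith only [b19, c13, b23, b17, x0, x1, x2]
                · linarith only [b16, c13, x0]
            · linarith only [b17, c17, x2]
            · linarith only [b16, b24, c17, b18, x0, x1, x2]
          · rcases F.ga 0 1 1 3 4 (by decide) (by decide) (by decide) (by decide) (by decide) with c13 | c13 | c13
            · linarith only [b17, c15, c26, b47, b20, b48, c13, b32, x0, x1, x2, x5]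
            · linarith only [b17, c13, b21, x0, x2]
            · linarith only [c13, b16, x0]
          · linarith only [c26, b7, b17, c0, b47, b27, b49, b23, c15, x0, x1, x2, x5]
          · rcases F.bord 1 2 3 (by decide) (by decide) (by decide) (by decide) with c3 | c3 | c3 | c3
            · rcases F.ga 0 1 1 3 4 (by decide) (by decide) (by decide) (by decide) (by decide) with c13 | c13 | c13
              · rcases F.gc 0 1 1 3 3 4 (by decide) (by decide) (by decide) (by decide) (by decide) (by decide) with c22 | c22 | c22 | c22 | c22
                · linarith only [b40, b20, b48, c3, b49, b27, c0, b47, c2, b32, c22, x0, x1, x2, x5]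
                · linarith only [c22, b16, x0]
                · linarith only [b17, c22, x2]
                · rcases F.ga 0 1 3 3 4 (by decide) (by decide) (by decide) (by decide) (by decide) with c17 | c17 | c17
                  · linarith only [b16, c26, c22, b20, b47, b27, c17, b49, x0, x1, x2, x5]
                  · linarith only [b17, c17, x2]
                  · linarith only [b24, c17, b18, b16, x0, x1, x2]
                · linarith only [b47, c13, b20, b17, b48, c22, b32, c15, x0, x1, x2, x5]
              · linarith only [b23, c13, b17, b19, x0, x1, x2]
              · linarith only [b16, c13, x0]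
            · rcases F.ga 0 1 3 3 4 (by decide) (by decide) (by decide) (by decide) (by decide) with c17 | c17 | c17
              · rcases F.ga 0 1 1 3 4 (by decide) (by decide) (by decide) (by decide) (by decide) with c13 | c13 | c13
                · linarith only [c13, c26, b32, c17, c3, c2, b47, b48, x0, x1, x2, x5]
                · linarith only [b17, b19, c13, b23, x0, x1, x2]
                · linarith only [c13, b16, x0]
              · linarith only [b17, c17, x2]
              · linarith only [c17, b16, b22, x0, x2]
            · rcases F.ga 0 1 1 3 4 (by decide) (by decide) (by decide) (by decide) (by decide) with c13 | c13 | c13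
              · rcases F.ga 0 1 3 3 4 (by decide) (by decide) (by decide) (by decide) (by decide) with c17 | c17 | c17
                · linarith only [b47, c15, b49, c0, c13, c17, b27, c3, x0, x1, x2, x5]
                · linarith only [c17, b17, x2]
                · linarith only [c15, b24, b17, b20, c17, b16, x0, x1, x2]
              · linarith only [b19, b16, c26, b20, c13, b17, x0, x1, x2]
              · linarith only [c13, b16, x0]
            · linarith only [b16, c2, c3, b24, c26, b17, c15, x0, x1, x2]
        · rcases F.ge 0 1 1 2 3 4 (by decide) (by decide) (by decide) (by decide) (by decide) (by decide) with c21 | c21 | c21 | c21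
          · rcases F.ga 0 1 3 3 4 (by decide) (by decide) (by decide) (by decide) (by decide) with c17 | c17 | c17
            · linarith only [b47, b27, c21, c15, b16, b20, b49, c17, x0, x1, x2, x5]
            · linarith only [c17, b17, x2]
            · linarith only [c17, b16, b18, b24, x0, x1, x2]
          · rcases F.ga 0 1 1 3 4 (by decide) (by decide) (by decide) (by decide) (by decide) with c13 | c13 | c13
            · rcases F.ga 0 1 1 2 3 (by decide) (by decide) (by decide) (by decide) (by decide) with c6 | c6 | c6
              · rcases F.gd 0 1 1 3 3 4 (by decide) (by decide) (by decide) (by decide) (by decide) (by decide) with c23 | c23 | c23 | c23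
                · rcases F.ga 1 2 3 3 4 (by decide) (by decide) (by decide) (by decide) (by decide) with c33 | c33 | c33
                  · linarith only [c2, b16, b47, b49, c33, b44, b20, b32, c21, b27, b18, c23, c15, x0, x1, x2, x5, x7]
                  · linarith only [c33, b17, x2]
                  · linarith only [c0, b39, b18, b27, c33, b16, c21, b47, b32, c6, b48, x0, x1, x2, x4, x5]
                · linarith only [c6, b18, c21, c0, b47, c23, b16, b39, b48, b27, b32, x0, x1, x2, x4, x5]
                · rcases F.ga 1 2 3 3 4 (by decide) (by decide) (by decide) (by decide) (by decide) with c33 | c33 | c33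
                  · rcases F.bord 1 2 3 (by decide) (by decide) (by decide) (by decide) with c3 | c3 | c3 | c3
                    · linarith only [c2, b44, b39, c33, b32, c3, b27, c6, c0, x0, x1, x2, x4, x7]
                    · linarith only [c0, b16, c3, b39, c7, c15, c33, b32, c2, b44, b27, x0, x1, x2, x4, x7]
                    · rcases F.gc 0 1 1 3 3 4 (by decide) (by decide) (by decide) (by decide) (by decide) (by decide) with c22 | c22 | c22 | c22 | c22
                      · linarith only [c0, b16, c3, b49, b40, b27, b47, c22, b18, x0, x1, x2, x5]
                      · linarith only [b16, c22, x0]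
                      · linarith only [b17, c22, x2]
                      · linarith only [c3, b19, c33, c15, b49, b47, c2, c22, c23, b16, b27, b32, b48, b17, b18, b44, x0, x1, x2, x5, x7]
                      · linarith only [b48, c23, b32, b17, b47, c22, b18, x0, x1, x2, x5]
                    · linarith only [b48, c3, b16, b17, c23, b47, c2, b32, b40, b18, c15, x0, x1, x2, x5]
                  · linarith only [b17, c33, x2]
                  · linarith only [b18, c0, b17, b39, b47, b48, c21, b27, c33, b32, c6, c23, x0, x1, x2, x4, x5]
                · linarith only [c23, b16, x0]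
              · rcases F.ga 0 1 3 3 4 (by decide) (by decide) (by decide) (by decide) (by decide) with c17 | c17 | c17
                · rcases F.gc 0 1 1 3 3 4 (by decide) (by decide) (by decide) (by decide) (by decide) (by decide) with c22 | c22 | c22 | c22 | c22
                  · linarith only [c6, c15, b47, b19, b48, c22, b20, c2, b6, b32, b16, x0, x1, x2, x5]
                  · linarith only [b16, c22, x0]
                  · linarith only [c22, b17, x2]
                  · linarith only [c22, b47, b20, c17, c15, b27, b49, b16, x0, x1, x2, x5]
                  · linarith only [b47, c22, b48, b18, b32, c13, x0, x1, x2, x5]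
                · linarith only [c17, b17, x2]
                · linarith only [b18, b24, b16, c17, x0, x1, x2]
              · linarith only [b16, c6, x0]
            · linarith only [c15, b19, b16, b17, c13, b20, x0, x1, x2]
            · linarith only [b16, c13, x0]
          · linarith only [b48, b16, b47, c15, c2, b18, b10, c21, b32, x0, x1, x2, x5]
          · rcases F.bord 1 2 3 (by decide) (by decide) (by decide) (by decide) with c3 | c3 | c3 | c3
            · rcases F.ga 0 1 3 3 4 (by decide) (by decide) (by decide) (by decide) (by decide) with c17 | c17 | c17
              · rcases F.gc 0 1 1 3 3 4 (by decide) (by decide) (by decide) (by decide) (by decide) (by decide) with c22 | c22 | c22 | c22 | c22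
                · linarith only [c3, c2, b20, b49, c22, b47, b40, b48, b27, c0, b32, x0, x1, x2, x5]
                · linarith only [b16, c22, x0]
                · linarith only [b17, c22, x2]
                · linarith only [b27, c15, b16, c22, b49, b20, c17, b47, x0, x1, x2, x5]
                · rcases F.ga 0 1 1 3 4 (by decide) (by decide) (by decide) (by decide) (by decide) with c13 | c13 | c13
                  · linarith only [b47, b17, c22, b48, c13, b20, b32, c21, x0, x1, x2, x5]
                  · linarith only [c13, b17, b21, x0, x2]
                  · linarith only [b16, c13, x0]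
              · linarith only [b17, c17, x2]
              · linarith only [c17, b18, b24, b16, x0, x1, x2]
            · rcases F.ga 0 1 3 3 4 (by decide) (by decide) (by decide) (by decide) (by decide) with c17 | c17 | c17
              · rcases F.ga 0 1 1 3 4 (by decide) (by decide) (by decide) (by decide) (by decide) with c13 | c13 | c13
                · linarith only [c2, c15, c3, b47, c17, b48, c13, b32, x0, x1, x2, x5]
                · linarith only [c13, c15, b17, b16, b20, b19, x0, x1, x2]
                · linarith only [b16, c13, x0]
              · linarith only [b17, c17, x2]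
              · linarith only [b18, c17, b16, b24, x0, x1, x2]
            · rcases F.ga 0 1 1 3 4 (by decide) (by decide) (by decide) (by decide) (by decide) with c13 | c13 | c13
              · rcases F.ga 0 1 3 3 4 (by decide) (by decide) (by decide) (by decide) (by decide) with c17 | c17 | c17
                · linarith only [b49, c0, c21, c3, c17, b27, b47, c13, x0, x1, x2, x5]
                · linarith only [c17, b17, x2]
                · linarith only [b22, b16, c17, x0, x2]
              · linarith only [b19, b17, c13, b23, x0, x1, x2]
              · linarith only [b16, c13, x0]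
            · linarith only [c7, b39, c15, c21, b27, c0, b17, b16, c3, x0, x1, x2, x4]
  · linarith only [c0, b16, x0]

theorem core_k4N (F : Facts 4 β η w C g Cs) (hN : Cs ≤ C 1 4) : False := by
  have b8 := F.monB 1 2 (by decide) (by decide) (by decide)
  have b9 := F.monB 2 3 (by decide) (by decide) (by decide)
  have b14 := F.monE 2 3 (by decide) (by decide)
  have b15 := F.monE 3 4 (by decide) (by decide)
  have b21 := F.depL
  have b22 := F.depR 5 (by decide)
  have b23 := F.fw 1 2 (by decide) (by decide) (by decide)
  have b24 := F.nfo 1 2 (by decide) (by decide) (by decide) (by decide) (by decide)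
  have b25 := F.fw 1 3 (by decide) (by decide) (by decide)
  have b31 := F.nfo 2 3 (by decide) (by decide) (by decide) (by decide) (by decide)
  have b32 := F.fw 2 4 (by decide) (by decide) (by decide)
  have b35 := F.fw 3 4 (by decide) (by decide) (by decide)
  have b36 := F.nfo 3 4 (by decide) (by decide) (by decide) (by decide) (by decide)
  have b38 := F.cL
  have b39 := F.cT 1 2 (by decide) (by decide) (by decide) (by decide)
  have b41 := F.split 1 1 2 3 (by decide) (by decide) (by decide) (by decide) (by decide)
  have b43 := F.cT 1 4 (by decide) (by decide) (by decide) (by decide)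
  have b45 := F.split 1 2 3 4 (by decide) (by decide) (by decide) (by decide) (by decide)
  have b48 := F.cT 2 3 (by decide) (by decide) (by decide) (by decide)
  have b51 := F.split 2 3 4 4 (by decide) (by decide) (by decide) (by decide) (by decide)
  have b53 := F.cT 3 4 (by decide) (by decide) (by decide) (by decide)
  have b56 := F.cR 5 (by decide)
  have b62 := F.goal 1 3 (by decide) (by decide) (by decide) (by decide)
  have b63 := F.g1 0 1 4 5 (by decide) (by decide) (by decide) (by decide)
  have b69 := F.goal 2 4 (by decide) (by decide) (by decide) (by decide)
  have b76 := F.goalS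
  have b78 := F.sR 3 5 (by decide) (by decide)
  have b79 := hN
  have x0 := F.wpos 1 (by decide) (by decide)
  have x1 := F.wpos 2 (by decide) (by decide)
  have x2 := F.wpos 3 (by decide) (by decide)
  have x3 := F.wpos 4 (by decide) (by decide)
  have x4 := F.g0 1 1 (by decide) (by decide) (by decide)
  have x5 := F.g0 1 2 (by decide) (by decide) (by decide)
  have x6 := F.g0 1 3 (by decide) (by decide) (by decide)
  have x7 := F.g0 1 4 (by decide) (by decide) (by decide)
  have x8 := F.g0 2 2 (by decide) (by decide) (by decide)
  have x9 := F.g0 2 3 (by decide) (by decide) (by decide)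
  have x10 := F.g0 2 4 (by decide) (by decide) (by decide)
  have x11 := F.g0 3 3 (by decide) (by decide) (by decide)
  have x12 := F.g0 3 4 (by decide) (by decide) (by decide)
  have x13 := F.g0 4 4 (by decide) (by decide) (by decide)
  rcases F.ga 0 1 4 4 5 (by decide) (by decide) (by decide) (by decide) (by decide) with c39 | c39 | c39
  · rcases F.norm 3 4 5 (by decide) (by decide) (by decide) with c3 | c3
    · linarith only [b22, c3, x3]
    · rcases F.norm 0 1 2 (by decide) (by decide) (by decide) with c0 | c0
      · rcases F.ga 0 1 1 4 5 (by decide) (by decide) (by decide) (by decide) (by decide) with c33 | c33 | c33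
        · rcases F.gc 0 1 1 4 4 5 (by decide) (by decide) (by decide) (by decide) (by decide) (by decide) with c47 | c47 | c47 | c47 | c47
          · linarith only [b38, b35, b23, b78, b76, b48, c47, b41, b63, x0, x1, x2, x3, x7]
          · linarith only [c47, b21, x0]
          · linarith only [b22, c47, x3]
          · rcases F.ga 1 2 4 4 5 (by decide) (by decide) (by decide) (by decide) (by decide) with c76 | c76 | c76
            · rcases F.gc 0 1 2 4 4 5 (by decide) (by decide) (by decide) (by decide) (by decide) (by decide) with c53 | c53 | c53 | c53 | c53
              · linarith only [c47, b23, b21, b35, b9, b79, b22, c3, b32, b39, b45, b76, b63, b53, c53, x0, x1, x2, x3, x7]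
              · linarith only [b24, b35, b23, c76, b69, c47, b48, b21, b56, b51, c53, x0, x1, x2, x3, x10]
              · linarith only [b22, c53, x3]
              · linarith only [b56, b35, c76, c53, b69, b48, b51, x1, x2, x3, x10]
              · linarith only [b51, b79, c53, b22, b76, b23, c47, b35, b31, b43, c76, b8, b48, c39, b21, c33, b56, b69, x0, x1, x2, x3, x7, x10]
            · linarith only [c76, b22, x3]
            · linarith only [b23, b79, b35, c47, b31, c76, b22, b76, c39, b43, c33, x0, x1, x2, x3, x7]
          · rcases F.ga 0 1 1 3 4 (by decide) (by decide) (by decide) (by decide) (by decide) with c17 | c17 | c17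
            · rcases F.gc 0 1 1 3 4 5 (by decide) (by decide) (by decide) (by decide) (by decide) (by decide) with c44 | c44 | c44 | c44 | c44
              · linarith only [b23, b76, c47, b35, b39, b79, b22, b63, b25, b53, c44, b21, b14, c0, b45, x0, x1, x2, x3, x7]
              · linarith only [c44, b21, x0]
              · linarith only [b36, c47, b35, b62, c44, b22, b38, b41, b48, c17, b23, x0, x1, x2, x3, x6]
              · linarith only [b22, b76, c44, c17, b35, c47, b21, b15, b23, c39, b43, b62, b79, b48, c33, b41, b38, b31, x0, x1, x2, x3, x6, x7]
              · linarith only [b62, b23, c17, c44, b41, b38, b48, x0, x1, x2, x6]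
            · linarith only [c39, c47, c17, b23, b76, b21, b79, c33, b31, b43, b35, x0, x1, x2, x3, x7]
            · linarith only [b21, c17, x0]
        · linarith only [b22, c33, b32, b24, x0, x1, x3]
        · linarith only [b21, c33, x0]
      · linarith only [b21, c0, x0]
  · linarith only [b22, c39, x3]
  · linarith only [c39, b25, b36, b21, x0, x2, x3]

theorem core_evenN (n : ℕ) (hn : n % 2 = 0) (F : Facts (n+6) β η w C g Cs) (hN : Cs ≤ C 1 (n+6)) : False := by
  have b12 := F.monB 1 2 (by clear * - hn; omega) (by clear * - hn; omega) (by clear * - hn; omega)
  have b13 := F.monB 2 3 (by clear * - hn; omega) (by clear * - hn; omega) (by clear * - hn; omega)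
  have b14 := F.monB 3 4 (by clear * - hn; omega) (by clear * - hn; omega) (by clear * - hn; omega)
  have b15 := F.monB 4 (n+4) (by clear * - hn; omega) (by clear * - hn; omega) (by clear * - hn; omega)
  have b16 := F.monB (n+4) (n+5) (by clear * - hn; omega) (by clear * - hn; omega) (by clear * - hn; omega)
  have b23 := F.monE (n+3) (n+4) (by clear * - hn; omega) (by clear * - hn; omega)
  have b34 := F.depL
  have b35 := F.depR (n+7) (by clear * - hn; omega)
  have b36 := F.fw 1 2 (by clear * - hn; omega) (by clear * - hn; omega) (by clear * - hn; omega)
  have b37 := F.nfo 1 2 (by clear * - hn; omega) (by clear * - hn; omega) (by clear * - hn; omega) (by clear * - hn; omega) (by clear * - hn; omega)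
  have b38 := F.fw 1 3 (by clear * - hn; omega) (by clear * - hn; omega) (by clear * - hn; omega)
  have b40 := F.nfe2 1 3 (by clear * - hn; omega) (by clear * - hn; omega) (by clear * - hn; omega) (by clear * - hn; omega) (by clear * - hn; omega)
  have b48 := F.fw 2 3 (by clear * - hn; omega) (by clear * - hn; omega) (by clear * - hn; omega)
  have b49 := F.nfo 2 3 (by clear * - hn; omega) (by clear * - hn; omega) (by clear * - hn; omega) (by clear * - hn; omega) (by clear * - hn; omega)
  have b50 := F.fw 2 (n+4) (by clear * - hn; omega) (by clear * - hn; omega) (by clear * - hn; omega)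
  have b58 := F.fw 3 (n+4) (by clear * - hn; omega) (by clear * - hn; omega) (by clear * - hn; omega)
  have b59 := F.nfo 3 (n+4) (by clear * - hn; omega) (by clear * - hn; omega) (by clear * - hn; omega) (by clear * - hn; omega) (by clear * - hn; omega)
  have b60 := F.fw 3 (n+5) (by clear * - hn; omega) (by clear * - hn; omega) (by clear * - hn; omega)
  have b61 := F.nfe1 3 (n+5) (by clear * - hn; omega) (by clear * - hn; omega) (by clear * - hn; omega) (by clear * - hn; omega) (by clear * - hn; omega)
  have b64 := F.nfo 3 (n+6) (by clear * - hn; omega) (by clear * - hn; omega) (by clear * - hn; omega) (by clear * - hn; omega) (by clear * - hn; omega)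
  have b66 := F.nfo (n+4) (n+5) (by clear * - hn; omega) (by clear * - hn; omega) (by clear * - hn; omega) (by clear * - hn; omega) (by clear * - hn; omega)
  have b67 := F.fw (n+4) (n+6) (by clear * - hn; omega) (by clear * - hn; omega) (by clear * - hn; omega)
  have b68 := F.nfe1 (n+4) (n+6) (by clear * - hn; omega) (by clear * - hn; omega) (by clear * - hn; omega) (by clear * - hn; omega) (by clear * - hn; omega)
  have b70 := F.fw (n+5) (n+6) (by clear * - hn; omega) (by clear * - hn; omega) (by clear * - hn; omega)
  have b71 := F.nfo (n+5) (n+6) (by clear * - hn; omega) (by clear * - hn; omega) (by clear * - hn; omega) (by clear * - hn; omega) (by clear * - hn; omega)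
  have b73 := F.cL
  have b76 := F.split 1 1 2 3 (by clear * - hn; omega) (by clear * - hn; omega) (by clear * - hn; omega) (by clear * - hn; omega) (by clear * - hn; omega)
  have b78 := F.cT 1 (n+4) (by clear * - hn; omega) (by clear * - hn; omega) (by clear * - hn; omega) (by clear * - hn; omega)
  have b84 := F.cT 1 (n+6) (by clear * - hn; omega) (by clear * - hn; omega) (by clear * - hn; omega) (by clear * - hn; omega)
  have b87 := F.split 1 (n+4) (n+5) (n+6) (by clear * - hn; omega) (by clear * - hn; omega) (by clear * - hn; omega) (by clear * - hn; omega) (by clear * - hn; omega)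
  have b90 := F.cT 2 3 (by clear * - hn; omega) (by clear * - hn; omega) (by clear * - hn; omega) (by clear * - hn; omega)
  have b93 := F.cT 2 (n+5) (by clear * - hn; omega) (by clear * - hn; omega) (by clear * - hn; omega) (by clear * - hn; omega)
  have b98 := F.split 2 (n+5) (n+6) (n+6) (by clear * - hn; omega) (by clear * - hn; omega) (by clear * - hn; omega) (by clear * - hn; omega) (by clear * - hn; omega)
  have b106 := F.cT (n+4) (n+5) (by clear * - hn; omega) (by clear * - hn; omega) (by clear * - hn; omega) (by clear * - hn; omega)
  have b109 := F.split (n+4) (n+5) (n+6) (n+6) (by clear * - hn; omega) (by clear * - hn; omega) (by clear * - hn; omega) (by clear * - hn; omega) (by clear * - hn; omega)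
  have b111 := F.cT (n+5) (n+6) (by clear * - hn; omega) (by clear * - hn; omega) (by clear * - hn; omega) (by clear * - hn; omega)
  have b114 := F.cR (n+7) (by clear * - hn; omega)
  have b119 := F.gapE 2 3 (n+4) (n+5) (by clear * - hn; omega) (by clear * - hn; omega) (by clear * - hn; omega) (by clear * - hn; omega) (by clear * - hn; omega) (by clear * - hn; omega)
  have b129 := F.goal 1 3 (by clear * - hn; omega) (by clear * - hn; omega) (by clear * - hn; omega) (by clear * - hn; omega)
  have b134 := F.g1 0 1 (n+6) (n+7) (by clear * - hn; omega) (by clear * - hn; omega) (by clear * - hn; omega) (by clear * - hn; omega)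
  have b144 := F.goal 2 (n+6) (by clear * - hn; omega) (by clear * - hn; omega) (by clear * - hn; omega) (by clear * - hn; omega)
  have b158 := F.goal (n+4) (n+6) (by clear * - hn; omega) (by clear * - hn; omega) (by clear * - hn; omega) (by clear * - hn; omega)
  have b165 := F.goalS
  have b166 := F.sL
  have b168 := hN
  have x0 := F.wpos 1 (by clear * - hn; omega) (by clear * - hn; omega)
  have x1 := F.wpos 2 (by clear * - hn; omega) (by clear * - hn; omega)
  have x2 := F.wpos 3 (by clear * - hn; omega) (by clear * - hn; omega)
  have x3 := F.wpos (n+4) (by clear * - hn; omega) (by clear * - hn; omega)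
  have x4 := F.wpos (n+5) (by clear * - hn; omega) (by clear * - hn; omega)
  have x5 := F.wpos (n+6) (by clear * - hn; omega) (by clear * - hn; omega)
  have x6 := F.g0 1 1 (by clear * - hn; omega) (by clear * - hn; omega) (by clear * - hn; omega)
  have x7 := F.g0 1 2 (by clear * - hn; omega) (by clear * - hn; omega) (by clear * - hn; omega)
  have x8 := F.g0 1 3 (by clear * - hn; omega) (by clear * - hn; omega) (by clear * - hn; omega)
  have x9 := F.g0 1 (n+4) (by clear * - hn; omega) (by clear * - hn; omega) (by clear * - hn; omega)
  have x10 := F.g0 1 (n+5) (by clear * - hn; omega) (by clear * - hn; omega) (by clear * - hn; omega)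
  have x11 := F.g0 1 (n+6) (by clear * - hn; omega) (by clear * - hn; omega) (by clear * - hn; omega)
  have x12 := F.g0 2 2 (by clear * - hn; omega) (by clear * - hn; omega) (by clear * - hn; omega)
  have x13 := F.g0 2 3 (by clear * - hn; omega) (by clear * - hn; omega) (by clear * - hn; omega)
  have x14 := F.g0 2 (n+4) (by clear * - hn; omega) (by clear * - hn; omega) (by clear * - hn; omega)
  have x15 := F.g0 2 (n+5) (by clear * - hn; omega) (by clear * - hn; omega) (by clear * - hn; omega)
  have x16 := F.g0 2 (n+6) (by clear * - hn; omega) (by clear * - hn; omega) (by clear * - hn; omega)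
  have x17 := F.g0 3 3 (by clear * - hn; omega) (by clear * - hn; omega) (by clear * - hn; omega)
  have x18 := F.g0 3 (n+4) (by clear * - hn; omega) (by clear * - hn; omega) (by clear * - hn; omega)
  have x19 := F.g0 3 (n+5) (by clear * - hn; omega) (by clear * - hn; omega) (by clear * - hn; omega)
  have x20 := F.g0 3 (n+6) (by clear * - hn; omega) (by clear * - hn; omega) (by clear * - hn; omega)
  have x21 := F.g0 (n+4) (n+4) (by clear * - hn; omega) (by clear * - hn; omega) (by clear * - hn; omega)
  have x22 := F.g0 (n+4) (n+5) (by clear * - hn; omega) (by clear * - hn; omega) (by clear * - hn; omega)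
  have x23 := F.g0 (n+4) (n+6) (by clear * - hn; omega) (by clear * - hn; omega) (by clear * - hn; omega)
  have x24 := F.g0 (n+5) (n+5) (by clear * - hn; omega) (by clear * - hn; omega) (by clear * - hn; omega)
  have x25 := F.g0 (n+5) (n+6) (by clear * - hn; omega) (by clear * - hn; omega) (by clear * - hn; omega)
  have x26 := F.g0 (n+6) (n+6) (by clear * - hn; omega) (by clear * - hn; omega) (by clear * - hn; omega)
  rcases F.norm (n+5) (n+6) (n+7) (by clear * - hn; omega) (by clear * - hn; omega) (by clear * - hn; omega) with c5 | c5
  · linarith only [c5, b35, x5]
  · rcases F.ga 0 1 1 3 4 (by clear * - hn; omega) (by clear * - hn; omega) (by clear * - hn; omega) (by clear * - hn; omega) (by clear * - hn; omega) with c35 | c35 | c35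
    · rcases F.ga 0 1 (n+6) (n+6) (n+7) (by clear * - hn; omega) (by clear * - hn; omega) (by clear * - hn; omega) (by clear * - hn; omega) (by clear * - hn; omega) with c141 | c141 | c141
      · rcases F.gc 0 1 1 (n+6) (n+6) (n+7) (by clear * - hn; omega) (by clear * - hn; omega) (by clear * - hn; omega) (by clear * - hn; omega) (by clear * - hn; omega) (by clear * - hn; omega) with c155 | c155 | c155 | c155 | c155
        · linarith only [b114, b165, b36, b70, c155, b134, b166, b98, b93, x0, x1, x4, x5, x11]
        · linarith only [b34, c155, x0]
        · linarith only [c155, b35, x5]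
        · rcases F.ga 1 2 (n+6) (n+6) (n+7) (by clear * - hn; omega) (by clear * - hn; omega) (by clear * - hn; omega) (by clear * - hn; omega) (by clear * - hn; omega) with c271 | c271 | c271
          · rcases F.gc 0 1 2 (n+6) (n+6) (n+7) (by clear * - hn; omega) (by clear * - hn; omega) (by clear * - hn; omega) (by clear * - hn; omega) (by clear * - hn; omega) (by clear * - hn; omega) with c167 | c167 | c167 | c167 | c167
            · linarith only [b35, c155, b111, b168, b36, b34, c167, b165, b67, b87, c5, b134, b14, b13, b15, b78, b70, b16, x0, x1, x3, x4, x5, x11]
            · linarith only [c155, c271, b36, b144, b34, b70, b37, c167, b98, b93, b114, x0, x1, x4, x5, x16]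
            · linarith only [b35, c167, x5]
            · linarith only [b70, c167, b114, b90, c271, b144, b119, b98, b106, x1, x2, x3, x4, x5, x16]
            · linarith only [c155, c167, b129, b93, b70, b168, c271, b35, b114, b144, b36, b34, b98, b49, b165, b66, b134, b84, b12, c35, b90, b76, b58, b73, x0, x1, x2, x3, x4, x5, x8, x11, x16]
          · linarith only [b35, c271, x5]
          · linarith only [b84, c271, b165, c155, b129, b66, c141, b70, b90, b168, b35, b58, b49, b36, c35, b73, b76, b134, x0, x1, x2, x3, x4, x5, x8, x11]
        · linarith only [b60, b129, b73, c155, c35, b36, b71, b90, b76, x0, x1, x2, x4, x5, x8]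
      · linarith only [c141, b35, x5]
      · linarith only [c141, b34, b61, b71, b38, x0, x2, x4, x5]
    · rcases F.ga 0 1 (n+6) (n+6) (n+7) (by clear * - hn; omega) (by clear * - hn; omega) (by clear * - hn; omega) (by clear * - hn; omega) (by clear * - hn; omega) with c141 | c141 | c141
      · rcases F.gc 0 1 1 (n+6) (n+6) (n+7) (by clear * - hn; omega) (by clear * - hn; omega) (by clear * - hn; omega) (by clear * - hn; omega) (by clear * - hn; omega) (by clear * - hn; omega) with c155 | c155 | c155 | c155 | c155
        · linarith only [b166, b70, b134, b165, c155, b36, b90, b98, b106, b119, b114, x0, x1, x2, x3, x4, x5, x11]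
        · linarith only [c155, b34, x0]
        · linarith only [b35, c155, x5]
        · rcases F.ga 0 1 (n+4) (n+6) (n+7) (by clear * - hn; omega) (by clear * - hn; omega) (by clear * - hn; omega) (by clear * - hn; omega) (by clear * - hn; omega) with c137 | c137 | c137
          · rcases F.ga (n+3) (n+4) (n+6) (n+6) (n+7) (by clear * - hn; omega) (by clear * - hn; omega) (by clear * - hn; omega) (by clear * - hn; omega) (by clear * - hn; omega) with c381 | c381 | c381
            · linarith only [c155, b158, b50, c381, b37, b114, b70, b109, b106, x0, x1, x3, x4, x5, x23]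
            · linarith only [c381, b35, x5]
            · linarith only [c381, b35, c155, b165, b23, c141, b168, b84, c137, b67, x0, x3, x5, x11]
          · linarith only [b35, c137, b68, x3, x5]
          · linarith only [b38, c137, b34, b59, x0, x2, x3]
        · rcases F.ga 0 1 1 (n+6) (n+7) (by clear * - hn; omega) (by clear * - hn; omega) (by clear * - hn; omega) (by clear * - hn; omega) (by clear * - hn; omega) with c131 | c131 | c131
          · rcases F.ga 0 1 3 (n+6) (n+7) (by clear * - hn; omega) (by clear * - hn; omega) (by clear * - hn; omega) (by clear * - hn; omega) (by clear * - hn; omega) with c135 | c135 | c135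
            · linarith only [c135, b168, b34, b14, c155, b38, c35, c131, b165, b84, x0, x2, x5, x11]
            · linarith only [b35, b59, c135, b67, x2, x3, x5]
            · linarith only [b40, b34, c135, x0, x2]
          · linarith only [b35, b48, b37, b59, c131, b67, x0, x1, x2, x3, x5]
          · linarith only [b34, c131, x0]
      · linarith only [b35, c141, x5]
      · linarith only [c141, b34, b38, b64, x0, x2, x5]
    · linarith only [c35, b34, x0]

theorem core_evenS (n : ℕ) (hn : n % 2 = 0) (F : Facts (n+4) β η w C g Cs) (S : SFacts (n+4) β η w C g Cs wc) : False := by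
  have b24 := F.depL
  have b25 := F.depR (n+5) (by clear * - hn; omega)
  have b26 := F.fw 1 2 (by clear * - hn; omega) (by clear * - hn; omega) (by clear * - hn; omega)
  have b28 := F.fw 1 (n+3) (by clear * - hn; omega) (by clear * - hn; omega) (by clear * - hn; omega)
  have b34 := F.nfo 2 (n+3) (by clear * - hn; omega) (by clear * - hn; omega) (by clear * - hn; omega) (by clear * - hn; omega) (by clear * - hn; omega)
  have b38 := F.fw (n+3) (n+4) (by clear * - hn; omega) (by clear * - hn; omega) (by clear * - hn; omega)
  have b39 := F.nfo (n+3) (n+4) (by clear * - hn; omega) (by clear * - hn; omega) (by clear * - hn; omega) (by clear * - hn; omega) (by clear * - hn; omega)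
  have b41 := F.cL
  have b44 := F.split 1 1 2 (n+3) (by clear * - hn; omega) (by clear * - hn; omega) (by clear * - hn; omega) (by clear * - hn; omega) (by clear * - hn; omega)
  have b45 := F.cT 1 (n+4) (by clear * - hn; omega) (by clear * - hn; omega) (by clear * - hn; omega) (by clear * - hn; omega)
  have b47 := F.split 1 (n+3) (n+4) (n+4) (by clear * - hn; omega) (by clear * - hn; omega) (by clear * - hn; omega) (by clear * - hn; omega) (by clear * - hn; omega)
  have b49 := F.cT 2 (n+3) (by clear * - hn; omega) (by clear * - hn; omega) (by clear * - hn; omega) (by clear * - hn; omega)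
  have b55 := F.cR (n+5) (by clear * - hn; omega)
  have b65 := F.goal 1 (n+3) (by clear * - hn; omega) (by clear * - hn; omega) (by clear * - hn; omega) (by clear * - hn; omega)
  have b66 := F.g1 0 1 (n+4) (n+5) (by clear * - hn; omega) (by clear * - hn; omega) (by clear * - hn; omega) (by clear * - hn; omega)
  have b79 := F.goalS
  have b82 := S.sS (n+5) (by clear * - hn; omega)
  have b86 := S.fwL 1 (by clear * - hn; omega) (by clear * - hn; omega)
  have b93 := S.fwR (n+4) (n+5) (by clear * - hn; omega) (by clear * - hn; omega) (by clear * - hn; omega)
  have x0 := F.wpos 1 (by clear * - hn; omega) (by clear * - hn; omega)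
  have x1 := F.wpos 2 (by clear * - hn; omega) (by clear * - hn; omega)
  have x2 := F.wpos (n+3) (by clear * - hn; omega) (by clear * - hn; omega)
  have x3 := F.wpos (n+4) (by clear * - hn; omega) (by clear * - hn; omega)
  have x4 := F.g0 1 1 (by clear * - hn; omega) (by clear * - hn; omega) (by clear * - hn; omega)
  have x5 := F.g0 1 2 (by clear * - hn; omega) (by clear * - hn; omega) (by clear * - hn; omega)
  have x6 := F.g0 1 (n+3) (by clear * - hn; omega) (by clear * - hn; omega) (by clear * - hn; omega)
  have x7 := F.g0 1 (n+4) (by clear * - hn; omega) (by clear * - hn; omega) (by clear * - hn; omega)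
  have x8 := F.g0 2 2 (by clear * - hn; omega) (by clear * - hn; omega) (by clear * - hn; omega)
  have x9 := F.g0 2 (n+3) (by clear * - hn; omega) (by clear * - hn; omega) (by clear * - hn; omega)
  have x10 := F.g0 2 (n+4) (by clear * - hn; omega) (by clear * - hn; omega) (by clear * - hn; omega)
  have x11 := F.g0 (n+3) (n+3) (by clear * - hn; omega) (by clear * - hn; omega) (by clear * - hn; omega)
  have x12 := F.g0 (n+3) (n+4) (by clear * - hn; omega) (by clear * - hn; omega) (by clear * - hn; omega)
  have x13 := F.g0 (n+4) (n+4) (by clear * - hn; omega) (by clear * - hn; omega) (by clear * - hn; omega)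
  have x14 := S.wcpos
  rcases F.ga 0 1 (n+4) (n+4) (n+5) (by clear * - hn; omega) (by clear * - hn; omega) (by clear * - hn; omega) (by clear * - hn; omega) (by clear * - hn; omega) with c39 | c39 | c39
  · rcases F.ga 0 1 1 (n+3) (n+4) (by clear * - hn; omega) (by clear * - hn; omega) (by clear * - hn; omega) (by clear * - hn; omega) (by clear * - hn; omega) with c17 | c17 | c17
    · linarith only [b49, b26, b55, b65, b66, c17, b25, b82, b86, b45, b47, c39, b79, b93, b41, b38, b44, x0, x1, x2, x3, x6, x7, x14]
    · linarith only [b79, b82, b93, b38, c17, b24, c39, b26, b34, b45, x0, x1, x2, x3, x7, x14]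
    · linarith only [b24, c17, x0]
  · linarith only [c39, b25, x3]
  · linarith only [b39, c39, b28, b24, x0, x2, x3]

theorem core_odd (n : ℕ) (hn : n % 2 = 0) (F : Facts (n+5) β η w C g Cs) : False := by
  have b0 := F.wpos 1 (by clear * - hn; omega) (by clear * - hn; omega)
  have b7 := F.long (n+4) (by clear * - hn; omega) (by clear * - hn; omega)
  have b8 := F.wpos (n+5) (by clear * - hn; omega) (by clear * - hn; omega)
  have b10 := F.monB 1 2 (by clear * - hn; omega) (by clear * - hn; omega) (by clear * - hn; omega)
  have b11 := F.monB 2 3 (by clear * - hn; omega) (by clear * - hn; omega) (by clear * - hn; omega)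
  have b12 := F.monB 3 (n+3) (by clear * - hn; omega) (by clear * - hn; omega) (by clear * - hn; omega)
  have b13 := F.monB (n+3) (n+4) (by clear * - hn; omega) (by clear * - hn; omega) (by clear * - hn; omega)
  have b14 := F.monB (n+4) (n+5) (by clear * - hn; omega) (by clear * - hn; omega) (by clear * - hn; omega)
  have b19 := F.monE (n+2) (n+3) (by clear * - hn; omega) (by clear * - hn; omega)
  have b20 := F.monE (n+3) (n+4) (by clear * - hn; omega) (by clear * - hn; omega)
  have b29 := F.depL
  have b30 := F.depR (n+6) (by clear * - hn; omega)
  have b31 := F.fw 1 2 (by clear * - hn; omega) (by clear * - hn; omega) (by clear * - hn; omega)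
  have b32 := F.nfo 1 2 (by clear * - hn; omega) (by clear * - hn; omega) (by clear * - hn; omega) (by clear * - hn; omega) (by clear * - hn; omega)
  have b33 := F.fw 1 (n+3) (by clear * - hn; omega) (by clear * - hn; omega) (by clear * - hn; omega)
  have b35 := F.nfe2 1 (n+3) (by clear * - hn; omega) (by clear * - hn; omega) (by clear * - hn; omega) (by clear * - hn; omega) (by clear * - hn; omega)
  have b41 := F.fw 2 (n+3) (by clear * - hn; omega) (by clear * - hn; omega) (by clear * - hn; omega)
  have b42 := F.nfo 2 (n+3) (by clear * - hn; omega) (by clear * - hn; omega) (by clear * - hn; omega) (by clear * - hn; omega) (by clear * - hn; omega)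
  have b45 := F.nfe2 2 (n+4) (by clear * - hn; omega) (by clear * - hn; omega) (by clear * - hn; omega) (by clear * - hn; omega) (by clear * - hn; omega)
  have b47 := F.nfo 2 (n+5) (by clear * - hn; omega) (by clear * - hn; omega) (by clear * - hn; omega) (by clear * - hn; omega) (by clear * - hn; omega)
  have b49 := F.nfo (n+3) (n+4) (by clear * - hn; omega) (by clear * - hn; omega) (by clear * - hn; omega) (by clear * - hn; omega) (by clear * - hn; omega)
  have b50 := F.fw (n+3) (n+5) (by clear * - hn; omega) (by clear * - hn; omega) (by clear * - hn; omega)
  have b51 := F.nfe1 (n+3) (n+5) (by clear * - hn; omega) (by clear * - hn; omega) (by clear * - hn; omega) (by clear * - hn; omega) (by clear * - hn; omega)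
  have b53 := F.fw (n+4) (n+5) (by clear * - hn; omega) (by clear * - hn; omega) (by clear * - hn; omega)
  have b54 := F.nfo (n+4) (n+5) (by clear * - hn; omega) (by clear * - hn; omega) (by clear * - hn; omega) (by clear * - hn; omega) (by clear * - hn; omega)
  have b56 := F.cL
  have b57 := F.cT 1 2 (by clear * - hn; omega) (by clear * - hn; omega) (by clear * - hn; omega) (by clear * - hn; omega)
  have b59 := F.split 1 1 2 (n+3) (by clear * - hn; omega) (by clear * - hn; omega) (by clear * - hn; omega) (by clear * - hn; omega) (by clear * - hn; omega)
  have b60 := F.cT 1 (n+4) (by clear * - hn; omega) (by clear * - hn; omega) (by clear * - hn; omega) (by clear * - hn; omega)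
  have b67 := F.cT 2 (n+3) (by clear * - hn; omega) (by clear * - hn; omega) (by clear * - hn; omega) (by clear * - hn; omega)
  have b69 := F.cT 2 (n+5) (by clear * - hn; omega) (by clear * - hn; omega) (by clear * - hn; omega) (by clear * - hn; omega)
  have b70 := F.split 2 (n+3) (n+4) (n+5) (by clear * - hn; omega) (by clear * - hn; omega) (by clear * - hn; omega) (by clear * - hn; omega) (by clear * - hn; omega)
  have b73 := F.cT (n+3) (n+4) (by clear * - hn; omega) (by clear * - hn; omega) (by clear * - hn; omega) (by clear * - hn; omega)
  have b76 := F.split (n+3) (n+4) (n+5) (n+5) (by clear * - hn; omega) (by clear * - hn; omega) (by clear * - hn; omega) (by clear * - hn; omega) (by clear * - hn; omega)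
  have b78 := F.cT (n+4) (n+5) (by clear * - hn; omega) (by clear * - hn; omega) (by clear * - hn; omega) (by clear * - hn; omega)
  have b81 := F.cR (n+6) (by clear * - hn; omega)
  have b83 := F.gapE 1 2 (n+3) (n+4) (by clear * - hn; omega) (by clear * - hn; omega) (by clear * - hn; omega) (by clear * - hn; omega) (by clear * - hn; omega) (by clear * - hn; omega)
  have b93 := F.goal 1 (n+3) (by clear * - hn; omega) (by clear * - hn; omega) (by clear * - hn; omega) (by clear * - hn; omega)
  have b96 := F.g1 0 1 (n+5) (n+6) (by clear * - hn; omega) (by clear * - hn; omega) (by clear * - hn; omega) (by clear * - hn; omega)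
  have b110 := F.goal (n+3) (n+5) (by clear * - hn; omega) (by clear * - hn; omega) (by clear * - hn; omega) (by clear * - hn; omega)
  have b114 := F.goal (n+4) (n+5) (by clear * - hn; omega) (by clear * - hn; omega) (by clear * - hn; omega) (by clear * - hn; omega)
  have b117 := F.goalS
  have b118 := F.sL
  have b119 := F.sR (n+4) (n+6) (by clear * - hn; omega) (by clear * - hn; omega)
  have x0 := F.wpos 1 (by clear * - hn; omega) (by clear * - hn; omega)
  have x1 := F.wpos 2 (by clear * - hn; omega) (by clear * - hn; omega)
  have x2 := F.wpos (n+3) (by clear * - hn; omega) (by clear * - hn; omega)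
  have x3 := F.wpos (n+4) (by clear * - hn; omega) (by clear * - hn; omega)
  have x4 := F.wpos (n+5) (by clear * - hn; omega) (by clear * - hn; omega)
  have x5 := F.g0 1 1 (by clear * - hn; omega) (by clear * - hn; omega) (by clear * - hn; omega)
  have x6 := F.g0 1 2 (by clear * - hn; omega) (by clear * - hn; omega) (by clear * - hn; omega)
  have x7 := F.g0 1 (n+3) (by clear * - hn; omega) (by clear * - hn; omega) (by clear * - hn; omega)
  have x8 := F.g0 1 (n+4) (by clear * - hn; omega) (by clear * - hn; omega) (by clear * - hn; omega)
  have x9 := F.g0 1 (n+5) (by clear * - hn; omega) (by clear * - hn; omega) (by clear * - hn; omega)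
  have x10 := F.g0 2 2 (by clear * - hn; omega) (by clear * - hn; omega) (by clear * - hn; omega)
  have x11 := F.g0 2 (n+3) (by clear * - hn; omega) (by clear * - hn; omega) (by clear * - hn; omega)
  have x12 := F.g0 2 (n+4) (by clear * - hn; omega) (by clear * - hn; omega) (by clear * - hn; omega)
  have x13 := F.g0 2 (n+5) (by clear * - hn; omega) (by clear * - hn; omega) (by clear * - hn; omega)
  have x14 := F.g0 (n+3) (n+3) (by clear * - hn; omega) (by clear * - hn; omega) (by clear * - hn; omega)
  have x15 := F.g0 (n+3) (n+4) (by clear * - hn; omega) (by clear * - hn; omega) (by clear * - hn; omega)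
  have x16 := F.g0 (n+3) (n+5) (by clear * - hn; omega) (by clear * - hn; omega) (by clear * - hn; omega)
  have x17 := F.g0 (n+4) (n+4) (by clear * - hn; omega) (by clear * - hn; omega) (by clear * - hn; omega)
  have x18 := F.g0 (n+4) (n+5) (by clear * - hn; omega) (by clear * - hn; omega) (by clear * - hn; omega)
  have x19 := F.g0 (n+5) (n+5) (by clear * - hn; omega) (by clear * - hn; omega) (by clear * - hn; omega)
  rcases F.norm (n+4) (n+5) (n+6) (by clear * - hn; omega) (by clear * - hn; omega) (by clear * - hn; omega) with c4 | c4
  · linarith only [b30, c4, x4]
  · rcases F.norm 0 1 2 (by clear * - hn; omega) (by clear * - hn; omega) (by clear * - hn; omega) with c0 | c0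
    · rcases F.ga 0 1 1 (n+5) (n+6) (by clear * - hn; omega) (by clear * - hn; omega) (by clear * - hn; omega) (by clear * - hn; omega) (by clear * - hn; omega) with c70 | c70 | c70
      · rcases F.ga 0 1 (n+5) (n+5) (n+6) (by clear * - hn; omega) (by clear * - hn; omega) (by clear * - hn; omega) (by clear * - hn; omega) (by clear * - hn; omega) with c78 | c78 | c78
        · rcases F.gc 0 1 1 (n+5) (n+5) (n+6) (by clear * - hn; omega) (by clear * - hn; omega) (by clear * - hn; omega) (by clear * - hn; omega) (by clear * - hn; omega) (by clear * - hn; omega) with c89 | c89 | c89 | c89 | c89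
          · rcases F.gd 0 1 1 (n+5) (n+5) (n+6) (by clear * - hn; omega) (by clear * - hn; omega) (by clear * - hn; omega) (by clear * - hn; omega) (by clear * - hn; omega) (by clear * - hn; omega) with c90 | c90 | c90 | c90
            · rcases F.ge 0 1 1 (n+4) (n+5) (n+6) (by clear * - hn; omega) (by clear * - hn; omega) (by clear * - hn; omega) (by clear * - hn; omega) (by clear * - hn; omega) (by clear * - hn; omega) with c88 | c88 | c88 | c88
              · linarith only [b53, b117, c88, b119, c78, b60, x0, x3, x4, x9]
              · linarith only [c90, b119, b32, b69, c88, b117, b49, b118, b41, b30, b53, b31, c89, b60, c4, x0, x1, x2, x3, x4, x9]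
              · rcases F.gc 0 1 2 (n+5) (n+5) (n+6) (by clear * - hn; omega) (by clear * - hn; omega) (by clear * - hn; omega) (by clear * - hn; omega) (by clear * - hn; omega) (by clear * - hn; omega) with c98 | c98 | c98 | c98 | c98
                · linarith only [b53, c0, b31, b117, b29, b119, b60, c98, b96, x0, x1, x3, x4, x9]
                · rcases F.gc 0 1 1 (n+4) (n+5) (n+6) (by clear * - hn; omega) (by clear * - hn; omega) (by clear * - hn; omega) (by clear * - hn; omega) (by clear * - hn; omega) (by clear * - hn; omega) with c86 | c86 | c86 | c86 | c86
                  · linarith only [b53, b30, c4, b31, b118, c86, b69, b117, b96, x0, x1, x3, x4, x9]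
                  · linarith only [c86, b29, x0]
                  · rcases F.ga (n+3) (n+4) (n+5) (n+5) (n+6) (by clear * - hn; omega) (by clear * - hn; omega) (by clear * - hn; omega) (by clear * - hn; omega) (by clear * - hn; omega) with c204 | c204 | c204
                    · linarith only [b118, b69, b119, b60, b78, c4, c88, c204, b114, b29, c90, b30, c86, b31, b96, b117, b53, x0, x1, x3, x4, x9, x18]
                    · linarith only [c204, b30, x4]
                    · rcases F.gc 0 1 1 (n+3) (n+5) (n+6) (by clear * - hn; omega) (by clear * - hn; omega) (by clear * - hn; omega) (by clear * - hn; omega) (by clear * - hn; omega) (by clear * - hn; omega) with c83 | c83 | c83 | c83 | c83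
                      · linarith only [b117, b30, b78, b31, b70, c204, b67, b96, c86, c83, b50, b118, x0, x1, x2, x3, x4, x9]
                      · linarith only [c83, b29, x0]
                      · linarith only [b51, c83, b30, x2, x4]
                      · linarith only [b118, b119, b117, b53, c88, c83, b29, c86, b30, b96, b70, b20, c89, b67, b60, b78, c4, b31, x0, x1, x2, x3, x4, x9]
                      · linarith only [b30, b70, b119, b117, b29, b31, b60, c90, c83, c89, c86, b118, b14, b53, b78, b67, c4, c88, x0, x1, x2, x3, x4, x9]
                  · linarith only [b69, c86, b53, c88, b117, b32, c4, b118, c98, b30, c89, b29, b31, b119, b60, x0, x1, x3, x4, x9]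
                  · linarith only [c86, b29, b33, b117, b49, b119, b31, c89, b60, b69, c88, c4, b118, b53, c90, x0, x1, x2, x3, x4, x9]
                · linarith only [b30, c98, x4]
                · linarith only [b118, b30, c88, b69, c98, c4, b53, c89, b117, x0, x1, x3, x4, x9]
                · linarith only [b69, b35, b118, c90, b30, c98, b10, c89, b117, b50, x0, x1, x2, x4, x9]
              · rcases F.ge 0 1 1 (n+5) (n+5) (n+6) (by clear * - hn; omega) (by clear * - hn; omega) (by clear * - hn; omega) (by clear * - hn; omega) (by clear * - hn; omega) (by clear * - hn; omega) with c91 | c91 | c91 | c91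
                · linarith only [c91, b53, c89, b119, b60, b117, b0, x0, x3, x4, x9]
                · linarith only [c90, b30, b29, b50, b31, c88, b42, c91, b54, b118, b119, b69, b53, b60, b117, c89, x0, x1, x2, x3, x4, x9]
                · rcases F.ga (n+3) (n+4) (n+5) (n+5) (n+6) (by clear * - hn; omega) (by clear * - hn; omega) (by clear * - hn; omega) (by clear * - hn; omega) (by clear * - hn; omega) with c204 | c204 | c204
                  · rcases F.bord 1 (n+4) (n+5) (by clear * - hn; omega) (by clear * - hn; omega) (by clear * - hn; omega) (by clear * - hn; omega) with c10 | c10 | c10 | c10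
                    · linarith only [c90, b117, b119, b53, c204, b29, c4, b114, c10, b78, b60, c91, x0, x3, x4, x9, x18]
                    · rcases F.bord (n+3) (n+4) (n+5) (by clear * - hn; omega) (by clear * - hn; omega) (by clear * - hn; omega) (by clear * - hn; omega) with c14 | c14 | c14 | c14
                      · rcases F.gc 0 1 (n+3) (n+5) (n+5) (n+6) (by clear * - hn; omega) (by clear * - hn; omega) (by clear * - hn; omega) (by clear * - hn; omega) (by clear * - hn; omega) (by clear * - hn; omega) with c104 | c104 | c104 | c104 | c104
                        · linarith only [b119, c104, c4, b117, c14, b78, c90, b0, c204, b53, b60, b114, x0, x2, x3, x4, x9, x18]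
                        · linarith only [b35, c104, b29, x0, x2]
                        · linarith only [c104, b30, x4]
                        · rcases F.ga (n+2) (n+3) (n+5) (n+5) (n+6) (by clear * - hn; omega) (by clear * - hn; omega) (by clear * - hn; omega) (by clear * - hn; omega) (by clear * - hn; omega) with c188 | c188 | c188
                          · linarith only [b76, b53, c188, b73, c104, b81, b110, x2, x3, x4, x16]
                          · linarith only [c188, b30, x4]
                          · rcases F.ga 0 1 (n+3) (n+5) (n+6) (by clear * - hn; omega) (by clear * - hn; omega) (by clear * - hn; omega) (by clear * - hn; omega) (by clear * - hn; omega) with c74 | c74 | c74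
                            · linarith only [b0, c88, b117, b78, c204, b119, b114, b60, b19, c74, c90, b30, b50, b53, c188, x0, x2, x3, x4, x9, x18]
                            · linarith only [c74, b53, b30, b49, x2, x3, x4]
                            · linarith only [c74, b29, b35, x0, x2]
                        · linarith only [b60, b119, c10, b42, c91, c90, b53, b20, b29, b78, b118, b10, c104, b12, b11, c88, c204, b30, b31, b117, b114, b49, b69, x0, x1, x2, x3, x4, x9, x18]
                      · linarith only [b96, c89, b53, b118, b67, b31, b117, b78, c4, c14, b70, b30, x0, x1, x2, x3, x4, x9]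
                      · rcases F.ga 0 1 (n+3) (n+5) (n+6) (by clear * - hn; omega) (by clear * - hn; omega) (by clear * - hn; omega) (by clear * - hn; omega) (by clear * - hn; omega) with c74 | c74 | c74
                        · linarith only [c74, c204, b53, b0, c4, b78, b114, c88, b60, c90, b117, b30, b119, c14, x0, x2, x3, x4, x9, x18]
                        · linarith only [b30, c74, b51, x2, x4]
                        · linarith only [b35, c74, b29, x0, x2]
                      · linarith only [c88, b78, b119, b53, c91, b60, b118, b70, c90, b29, b30, b67, b96, b31, c4, c14, b117, x0, x1, x2, x3, x4, x9]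
                    · linarith only [b30, b119, b114, b32, c90, b78, c204, b53, b117, b49, b7, b60, b41, c4, c88, c10, x0, x1, x2, x3, x4, x9, x18]
                    · linarith only [b53, c90, b30, b117, b29, b78, b60, c10, b96, c4, b119, c88, c204, b0, b114, x0, x3, x4, x9, x18]
                  · linarith only [b30, c204, x4]
                  · rcases F.ge 0 1 1 (n+3) (n+5) (n+6) (by clear * - hn; omega) (by clear * - hn; omega) (by clear * - hn; omega) (by clear * - hn; omega) (by clear * - hn; omega) (by clear * - hn; omega) with c85 | c85 | c85 | c85
                    · linarith only [c91, b29, b117, b53, b119, b60, c85, x0, x3, x4, x9]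
                    · linarith only [c90, c85, c204, b118, b119, b29, b117, b60, c89, b31, b69, c91, b53, x0, x1, x3, x4, x9]
                    · rcases F.gc 0 1 1 (n+3) (n+5) (n+6) (by clear * - hn; omega) (by clear * - hn; omega) (by clear * - hn; omega) (by clear * - hn; omega) (by clear * - hn; omega) (by clear * - hn; omega) with c83 | c83 | c83 | c83 | c83
                      · linarith only [c88, b67, c83, b117, b50, b31, b78, b70, c204, b30, b96, b118, x0, x1, x2, x3, x4, x9]
                      · linarith only [b29, c83, x0]
                      · linarith only [b30, c83, b53, b49, x2, x3, x4]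
                      · linarith only [b119, b53, b60, b29, c85, b117, c83, c91, x0, x2, x3, x4, x9]
                      · linarith only [c204, b42, b29, b119, c83, c89, b118, b53, c90, b60, b117, b69, c85, b31, x0, x1, x2, x3, x4, x9]
                    · linarith only [c85, b51, b30, x2, x4]
                · linarith only [c91, b30, x4]
            · linarith only [b31, c89, b117, c90, b118, b69, b8, x0, x1, x4, x9]
            · rcases F.ga 0 1 (n+3) (n+5) (n+6) (by clear * - hn; omega) (by clear * - hn; omega) (by clear * - hn; omega) (by clear * - hn; omega) (by clear * - hn; omega) with c74 | c74 | c74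
              · rcases F.ga 0 1 1 (n+3) (n+4) (by clear * - hn; omega) (by clear * - hn; omega) (by clear * - hn; omega) (by clear * - hn; omega) (by clear * - hn; omega) with c24 | c24 | c24
                · rcases F.gc 0 1 1 (n+3) (n+5) (n+6) (by clear * - hn; omega) (by clear * - hn; omega) (by clear * - hn; omega) (by clear * - hn; omega) (by clear * - hn; omega) (by clear * - hn; omega) with c83 | c83 | c83 | c83 | c83
                  · rcases F.bord (n+3) (n+4) (n+5) (by clear * - hn; omega) (by clear * - hn; omega) (by clear * - hn; omega) (by clear * - hn; omega) with c14 | c14 | c14 | c14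
                    · rcases F.ga (n+3) (n+4) (n+5) (n+5) (n+6) (by clear * - hn; omega) (by clear * - hn; omega) (by clear * - hn; omega) (by clear * - hn; omega) (by clear * - hn; omega) with c204 | c204 | c204
                      · rcases F.g3 0 1 1 (n+3) (n+5) (n+5) (n+6) (by clear * - hn; omega) (by clear * - hn; omega) (by clear * - hn; omega) (by clear * - hn; omega) (by clear * - hn; omega) (by clear * - hn; omega) (by clear * - hn; omega) with c114 | c114 | c114 | c114 | c114 | c114 | c114
                        · linarith only [b67, b118, c114, b96, c14, b30, b50, b70, b117, b78, c4, b31, x0, x1, x2, x3, x4, x9]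
                        · rcases F.ga (n+2) (n+3) (n+5) (n+5) (n+6) (by clear * - hn; omega) (by clear * - hn; omega) (by clear * - hn; omega) (by clear * - hn; omega) (by clear * - hn; omega) with c188 | c188 | c188
                          · rcases F.gc 0 1 (n+3) (n+5) (n+5) (n+6) (by clear * - hn; omega) (by clear * - hn; omega) (by clear * - hn; omega) (by clear * - hn; omega) (by clear * - hn; omega) (by clear * - hn; omega) with c104 | c104 | c104 | c104 | c104
                            · linarith only [b117, b78, b32, b114, b119, b30, b49, b83, c114, b53, b73, b13, c204, c104, c4, b57, b41, x0, x1, x2, x3, x4, x9, x18]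
                            · linarith only [b42, b31, c104, b29, x0, x1, x2]
                            · linarith only [b30, c104, x4]
                            · linarith only [b53, b81, b110, c104, b73, c188, b76, x2, x3, x4, x16]
                            · linarith only [c90, b30, c104, c83, b118, b0, b117, b31, b69, x0, x1, x2, x4, x9]
                          · linarith only [c188, b30, x4]
                          · linarith only [c83, b117, b19, b50, b118, b31, b69, c188, b30, b96, x0, x1, x2, x4, x9]
                        · linarith only [c114, b29, x0]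
                        · rcases F.ga (n+2) (n+3) (n+5) (n+5) (n+6) (by clear * - hn; omega) (by clear * - hn; omega) (by clear * - hn; omega) (by clear * - hn; omega) (by clear * - hn; omega) with c188 | c188 | c188
                          · linarith only [c114, b73, c188, b110, b53, b81, b76, x2, x3, x4, x16]
                          · linarith only [b30, c188, x4]
                          · linarith only [b118, b50, b30, b31, b117, b96, b69, c83, b19, c188, x0, x1, x2, x4, x9]
                        · linarith only [c114, b118, c89, c4, c83, c14, b70, b117, b78, b31, b67, x0, x1, x2, x3, x4, x9]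
                        · linarith only [c114, b30, x4]
                        · linarith only [c114, b118, b31, c83, c90, b30, b69, b117, x0, x1, x2, x4, x9]
                      · linarith only [b30, c204, x4]
                      · linarith only [b69, b30, b118, b117, b31, c204, b50, c83, b96, x0, x1, x2, x4, x9]
                    · linarith only [c4, b96, c89, b30, b53, b78, c14, b118, b67, b117, b70, b31, x0, x1, x2, x3, x4, x9]
                    · linarith only [b30, b117, b118, b69, c14, b31, c83, c4, b96, x0, x1, x2, x4, x9]
                    · linarith only [b53, b69, b118, b96, b93, b67, b117, c24, c14, b56, c4, b31, b30, b59, x0, x1, x2, x3, x4, x7, x9]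
                  · linarith only [c83, b29, x0]
                  · linarith only [b53, b49, b30, c83, x2, x3, x4]
                  · linarith only [b117, b119, c83, c74, b60, b0, c89, b53, x0, x2, x3, x4, x9]
                  · linarith only [b59, b31, c83, b67, b56, b93, c24, x0, x1, x2, x7]
                · rcases F.gc 0 1 (n+3) (n+5) (n+5) (n+6) (by clear * - hn; omega) (by clear * - hn; omega) (by clear * - hn; omega) (by clear * - hn; omega) (by clear * - hn; omega) (by clear * - hn; omega) with c104 | c104 | c104 | c104 | c104
                  · linarith only [b29, c24, b96, b83, b117, b13, c104, b119, b33, b73, b53, b57, x0, x1, x2, x3, x4, x9]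
                  · linarith only [c104, b35, b29, x0, x2]
                  · linarith only [b30, c104, x4]
                  · rcases F.ga (n+2) (n+3) (n+5) (n+5) (n+6) (by clear * - hn; omega) (by clear * - hn; omega) (by clear * - hn; omega) (by clear * - hn; omega) (by clear * - hn; omega) with c188 | c188 | c188
                    · linarith only [c188, b53, b81, c104, b110, b76, b73, x2, x3, x4, x16]
                    · linarith only [b30, c188, x4]
                    · rcases F.gc 0 1 1 (n+3) (n+5) (n+6) (by clear * - hn; omega) (by clear * - hn; omega) (by clear * - hn; omega) (by clear * - hn; omega) (by clear * - hn; omega) (by clear * - hn; omega) with c83 | c83 | c83 | c83 | c83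
                      · linarith only [b118, b30, b117, b96, b31, b50, b69, c188, b19, c83, x0, x1, x2, x4, x9]
                      · linarith only [b29, c83, x0]
                      · linarith only [b30, c83, b49, b53, x2, x3, x4]
                      · linarith only [b117, b60, c89, b49, b53, b119, c83, b30, b11, c74, b10, b12, x0, x2, x3, x4, x9]
                      · linarith only [b118, c83, b117, c104, c89, c24, c188, b31, c74, b60, b119, b13, b53, b19, b69, x0, x1, x2, x3, x4, x9]
                  · linarith only [c104, b117, c90, b69, b30, b118, b31, c74, x0, x1, x2, x4, x9]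
                · linarith only [c24, b29, x0]
              · linarith only [c74, b51, b30, x2, x4]
              · linarith only [c74, b29, b42, b31, x0, x1, x2]
            · linarith only [b29, c90, x0]
          · linarith only [b29, c89, x0]
          · linarith only [b30, c89, x4]
          · linarith only [b53, c89, b119, b117, c78, b60, x0, x3, x4, x9]
          · linarith only [b117, b31, c89, b69, b118, c70, x0, x1, x4, x9]
        · linarith only [b30, c78, x4]
        · linarith only [c78, b31, b47, b29, x0, x1, x4]
      · linarith only [b30, c70, b45, b32, b53, x0, x1, x3, x4]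
      · linarith only [c70, b29, x0]
    · linarith only [c0, b29, x0]

theorem core {k : ℕ} (hk : 2 ≤ k) (F : Facts k β η w C g Cs)
    (h : Cs ≤ C 1 k ∨ ∃ wc, SFacts k β η w C g Cs wc) : False := by
  rcases Nat.mod_two_eq_zero_or_one k with h2 | h2
  · rcases h with hN | ⟨wc, S⟩
    · by_cases h2' : k = 2
      · subst h2'; exact core_k2N F hN
      by_cases h4 : k = 4
      · subst h4; exact core_k4N F hN
      obtain ⟨n, rfl⟩ : ∃ n, k = n + 6 := ⟨k - 6, by omega⟩
      exact core_evenN n (by omega) F hN
    · by_cases h2' : k = 2
      · subst h2'; exact core_k2S F S
      obtain ⟨n, rfl⟩ : ∃ n, k = n + 4 := ⟨k - 4, by omega⟩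
      exact core_evenS n (by omega) F S
  · by_cases h3 : k = 3
    · subst h3; exact core_k3 F
    obtain ⟨n, rfl⟩ : ∃ n, k = n + 5 := ⟨k - 5, by omega⟩
    exact core_odd n (by omega) F

end Crest.Agent.R287
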