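import Crest.Agent.R287.Steps

/-! Row 287: periodic sequences of nodes, positions, cutting out a block. -/

set_option autoImplicit false

namespace Crest.Agent.R287

namespace Sys
variable {N Cl Gr α : Type} [DecidableEq Gr] (S : Sys N Cl Gr α)

/-- left end of the overlap of the `i`-th node -/
def pos (z : ℕ → N) : ℕ → ℤ
  | 0 => 0
  | i + 1 => pos z i + S.o (z i) - S.Y (z i) (z (i + 1))

/-- right end of the overlap of the `i`-th node -/
def eta (z : ℕ → N) (i : ℕ) : ℤ := S.pos z i + S.o (z i)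

/-- the word of the `i`-th node in the common coordinates -/
def F (z : ℕ → N) (i : ℕ) (t : ℤ) : α := S.X (z i) (t - S.pos z i)

/-- gain when the positions in `(p, j]` are cut out -/
def gain (z : ℕ → N) (p j : ℕ) : ℤ := S.Y (z p) (z (j + 1)) - S.eta z p + S.pos z (j + 1)

lemma pos_zero (z : ℕ → N) : S.pos z 0 = 0 := rfl

lemma pos_succ (z : ℕ → N) (i : ℕ) :
    S.pos z (i + 1) = S.pos z i + S.o (z i) - S.Y (z i) (z (i + 1)) := rfl

lemma F_per (z : ℕ → N) (i : ℕ) (t : ℤ) : S.F z i (t + S.w (z i)) = S.F z i t := by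
  unfold F; rw [← S.per (z i) (t - _)]; congr 1; ring

lemma F_noAgree (z : ℕ → N) {i j : ℕ} (h : S.cl (z i) ≠ S.cl (z j)) :
    NoAgree (S.F z i) (S.F z j) (S.w (z i) + S.w (z j)) := S.noAgree h _ _

lemma F_agree (z : ℕ → N) (i : ℕ) (t : ℤ) (h1 : S.pos z (i + 1) ≤ t) (h2 : t < S.eta z i) :
    S.F z i t = S.F z (i + 1) t := by
  unfold F
  unfold eta at h2
  rw [pos_succ] at h1 ⊢
  rw [S.agree' (z i) (z (i + 1)) _ (by omega) (by omega)]; congr 1; ring

lemma pos_mono (z : ℕ → N) {a b : ℕ} (hab : a ≤ b)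
    (h : ∀ i, a ≤ i → i < b → S.Y (z i) (z (i + 1)) ≤ S.o (z i)) : S.pos z a ≤ S.pos z b := by
  induction b, hab using Nat.le_induction with
  | base => exact le_rfl
  | succ b hb ih =>
    have h1 := ih fun i e1 e2 => h i e1 (by omega)
    have h2 := h b hb (by omega)
    rw [pos_succ]; omega

lemma eta_mono (z : ℕ → N) {a b : ℕ} (hab : a ≤ b)
    (h : ∀ i, a ≤ i → i < b → S.Y (z i) (z (i + 1)) ≤ S.o (z (i + 1))) :
    S.eta z a ≤ S.eta z b := by
  induction b, hab using Nat.le_induction with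
  | base => exact le_rfl
  | succ b hb ih =>
    have h1 := ih fun i e1 e2 => h i e1 (by omega)
    have h2 := h b hb (by omega)
    unfold eta at *
    rw [pos_succ]; omega

lemma F_agree' (z : ℕ → N) {a b : ℕ} (hab : a ≤ b)
    (hB : ∀ i, a < i → i < b → S.Y (z i) (z (i + 1)) ≤ S.o (z i))
    (hE : ∀ i, a ≤ i → i + 1 < b → S.Y (z i) (z (i + 1)) ≤ S.o (z (i + 1))) (t : ℤ)
    (h1 : S.pos z b ≤ t) (h2 : t < S.eta z a) : S.F z a t = S.F z b t := by
  induction b, hab using Nat.le_induction with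
  | base => rfl
  | succ b hb ih =>
    rcases Nat.eq_or_lt_of_le hb with rfl | hlt
    · exact S.F_agree z a t h1 h2
    · have h6 := hB b hlt (by omega)
      have h7 := S.eta_mono z hb fun i e1 e2 => hE i e1 (by omega)
      have h8 := S.pos_succ z b
      rw [ih (fun i e1 e2 => hB i e1 (by omega)) (fun i e1 e2 => hE i e1 (by omega)) (by omega)]
      exact S.F_agree z b t h1 (by omega)

lemma gap_le_gain (z : ℕ → N) (p j : ℕ) : S.pos z (j + 1) - S.eta z p ≤ S.gain z p j := by
  have := S.Y_nonneg (z p) (z (j + 1))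
  unfold gain; omega

lemma le_gain (z : ℕ → N) (p j : ℕ) (D : ℤ) (h1 : S.pos z (p + 1) ≤ S.pos z (j + 1) - D)
    (h2 : S.eta z p + D ≤ S.eta z j)
    (h3 : ∀ x, S.pos z (j + 1) - D ≤ x → x < S.eta z p → S.F z (p + 1) x = S.F z j (x + D)) :
    D ≤ S.gain z p j := by
  have e1 := S.pos_succ z p
  have e2 := S.pos_succ z j
  have := S.maxl (z p) (z (j + 1)) (z (p + 1)) (z j) (S.eta z p - S.pos z (j + 1) + D)
    (by unfold eta at *; omega) (by unfold eta at *; omega) fun t e3 e4 => by
      have e5 := S.F_agree z p (S.pos z (j + 1) - D + t) (by omega) (by omega)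
      have e6 := h3 (S.pos z (j + 1) - D + t) (by omega) (by omega)
      have e7 := S.F_agree z j (S.pos z (j + 1) - D + t + D) (by omega) (by omega)
      rw [e6, e7] at e5
      unfold F eta at *
      convert e5 using 2 <;> ring
  unfold gain; omega

/-- cutting out a high node does not increase the total shift -/
lemma gain_high (z : ℕ → N) (p : ℕ) (h1 : S.Y (z p) (z (p + 1)) ≤ S.o (z (p + 1)))
    (h2 : S.Y (z (p + 1)) (z (p + 1 + 1)) ≤ S.o (z (p + 1))) : 0 ≤ S.gain z p (p + 1) := by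
  have e1 := S.pos_succ z p
  have e2 := S.pos_succ z (p + 1)
  refine S.le_gain z p (p + 1) 0 (by omega) (by unfold eta; omega) fun x _ _ => by rw [add_zero]

lemma pos_shift (z : ℕ → N) (r i : ℕ) :
    S.pos (fun t => z (t + r)) i = S.pos z (i + r) - S.pos z r := by
  induction i with
  | zero => simp [pos_zero]
  | succ i ih =>
    rw [pos_succ, ih, show i + 1 + r = i + r + 1 by omega, pos_succ]; ring

lemma pos_per {z : ℕ → N} {m : ℕ} (hz : ∀ i, z (i + m) = z i) (i : ℕ) :
    S.pos z (i + m) = S.pos z i + S.pos z m := by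
  induction i with
  | zero => simp [pos_zero]
  | succ i ih =>
    rw [show i + 1 + m = i + m + 1 by omega, pos_succ, ih, pos_succ, hz,
      show i + m + 1 = i + 1 + m by omega, hz]
    ring

lemma pos_shift_per {z : ℕ → N} {m : ℕ} (hz : ∀ i, z (i + m) = z i) (r : ℕ) :
    S.pos (fun t => z (t + r)) m = S.pos z m := by
  rw [pos_shift, add_comm m r, S.pos_per hz]; ring

lemma eta_per {z : ℕ → N} {m : ℕ} (hz : ∀ i, z (i + m) = z i) (i : ℕ) :
    S.eta z (i + m) = S.eta z i + S.pos z m := by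
  unfold eta; rw [S.pos_per hz, hz]; ring

lemma F_shift_per {z : ℕ → N} {m : ℕ} (hz : ∀ i, z (i + m) = z i) (i : ℕ) (t : ℤ) :
    S.F z (i + m) t = S.F z i (t - S.pos z m) := by
  unfold F; rw [S.pos_per hz, hz]; congr 1; ring

theorem remove {z : ℕ → N} {m : ℕ} (hz : ∀ i, z (i + m) = z i) {p j m' : ℕ} (hpj : p ≤ j)
    (hm : m' + j = m + p) (hm' : 0 < m') :
    ∃ z' : ℕ → N, (∀ t, z' (t + m') = z' t) ∧ S.pos z' m' = S.pos z m - S.gain z p j ∧
      (∀ t, ∃ s, j < s ∧ s ≤ p + m ∧ z' t = z s) ∧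
      (∀ s, j < s → s ≤ p + m → ∃ t, z' t = z s) := by
  refine ⟨fun t => z (j + 1 + t % m'), fun t => by simp, ?_, fun t => ?_, fun s e1 e2 => ?_⟩
  · have key : ∀ i, i < m' → S.pos (fun t => z (j + 1 + t % m')) i =
        S.pos z (j + 1 + i) - S.pos z (j + 1) := by
      intro i
      induction i with
      | zero => intro _; simp [pos_zero]
      | succ i ih =>
        intro hi
        rw [pos_succ, ih (by omega), Nat.mod_eq_of_lt (show i < m' by omega), Nat.mod_eq_of_lt hi,
          ← add_assoc (j + 1), S.pos_succ z (j + 1 + i)]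
        ring
    obtain ⟨q, rfl⟩ : ∃ q, m' = q + 1 := ⟨m' - 1, by omega⟩
    rw [pos_succ, key q (by omega), Nat.mod_eq_of_lt (show q < q + 1 by omega), Nat.mod_self,
      show j + 1 + q = p + m by omega, S.pos_per hz, hz]
    unfold gain eta
    simp only [add_zero]
    ring
  · have := Nat.mod_lt t hm'
    exact ⟨j + 1 + t % m', by omega, by omega, rfl⟩
  · refine ⟨s - (j + 1), ?_⟩
    show z (j + 1 + (s - (j + 1)) % m') = z s
    rw [Nat.mod_eq_of_lt (by omega)]; congr 1; omega

lemma per_mod {z : ℕ → N} {m : ℕ} (hz : ∀ i, z (i + m) = z i) (i : ℕ) : z (i % m) = z i :=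
  Function.Periodic.map_mod_nat (f := z) (a := m) hz i

/-- every node of a periodic sequence occurs in any window of length `m` -/
lemma exists_window {z : ℕ → N} {m : ℕ} (hz : ∀ i, z (i + m) = z i) (hm : 0 < m) (a i : ℕ) :
    ∃ s, a ≤ s ∧ s < a + m ∧ z s = z i ∧ s % m = i % m := by
  have h1 : (a + (i + (m - 1) * a) % m) % m = i % m := by
    obtain ⟨q, rfl⟩ : ∃ q, m = q + 1 := ⟨m - 1, by omega⟩
    rw [Nat.add_mod_mod, Nat.add_sub_cancel, show a + (i + q * a) = i + (q + 1) * a by ring,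
      Nat.add_mul_mod_self_left]
  refine ⟨a + (i + (m - 1) * a) % m, by omega, ?_, ?_, h1⟩
  · have := Nat.mod_lt (i + (m - 1) * a) hm; omega
  · rw [← per_mod hz, h1, per_mod hz]

theorem cyc_nonneg : ∀ (m : ℕ) (z : ℕ → N), 0 < m → (∀ i, z (i + m) = z i) → 0 ≤ S.pos z m := by
  intro m
  induction m with
  | zero => intro z h; omega
  | succ m ih =>
    intro z _ hz
    rcases Nat.eq_zero_or_pos m with rfl | hm
    · have := hz 0
      simp only [zero_add] at this
      rw [zero_add, pos_succ, pos_zero, zero_add 1, this, S.Y_self]; simp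
    · obtain ⟨p, hp, hmax⟩ := (Finset.range (m + 1)).exists_max_image (fun i => S.o (z (i + 1)))
        ⟨0, by simp⟩
      have hall : ∀ i, S.o (z i) ≤ S.o (z (p + 1)) := by
        intro i
        obtain ⟨s, e1, e2, e3, -⟩ := exists_window hz (by omega) 1 i
        obtain ⟨s, rfl⟩ : ∃ s', s = s' + 1 := ⟨s - 1, by omega⟩
        rw [← e3]
        exact hmax s (by simp; omega)
      have h1 := S.P2 (z p) (z (p + 1))
      have h2 := S.P2 (z (p + 1)) (z (p + 1 + 1))
      have h3 := hall p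
      have h4 := hall (p + 1 + 1)
      have h5 := S.gain_high z p (by omega) (by omega)
      obtain ⟨z', e1, e2, -⟩ := S.remove hz (p := p) (j := p + 1) (m' := m) (by omega) (by omega) hm
      have := ih z' hm e1
      omega

end Sys

end Crest.Agent.R287
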