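import Crest.Agent.R287.Sys
import Crest.Agent.R287.Run

/-! Row 287: consequences of the fields of `Sys` for a single step. -/

set_option autoImplicit false

namespace Crest.Agent.R287

/-- two `w`-periodic words agreeing on `w` consecutive letters are equal -/
lemma eq_of_agree {α : Type} {f g : ℤ → α} {w a : ℤ} (hw : 0 < w) (hf : ∀ t, f (t + w) = f t)
    (hg : ∀ t, g (t + w) = g t) (h : ∀ t, a ≤ t → t < a + w → f t = g t) (t : ℤ) : f t = g t := by
  obtain ⟨j, h1, h2⟩ := exists_floor_mul (t - a) w hw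
  have e : t = (t - j * w) + j * w := by ring
  rw [e, per_mul hf, per_mul hg]
  exact h _ (by omega) (by omega)

namespace Sys
variable {N Cl Gr α : Type} [DecidableEq Gr] (S : Sys N Cl Gr α)

lemma o_nonneg (n : N) : 0 ≤ S.o n := by
  rw [← S.Y_self]; exact S.Y_nonneg n n

lemma cl_ne {n n' : N} (h : S.gr n ≠ S.gr n') : S.cl n ≠ S.cl n' := fun e => h (S.same_gr _ _ e)

lemma noAgree {n n' : N} (h : S.cl n ≠ S.cl n') (c d : ℤ) :
    NoAgree (fun t => S.X n (t - c)) (fun t => S.X n' (t - d)) (S.w n + S.w n') := by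
  have : NoAgree (S.X n) (S.X n') (S.w n + S.w n') := fun x s H =>
    S.FW n n' h x s fun t h1 h2 => H t h1 (by omega)
  exact this.shift c d

lemma agree' (n n' : N) (t : ℤ) (h1 : S.o n - S.Y n n' ≤ t) (h2 : t < S.o n) :
    S.X n t = S.X n' (t - (S.o n - S.Y n n')) := by
  rw [← S.agree n n' _ (by omega) (by omega)]; congr 1; ring

lemma Y_lt_of_ne {n n' : N} (h : S.cl n ≠ S.cl n') : S.Y n n' < S.w n + S.w n' := by
  by_contra H
  refine S.FW n n' h (S.o n - S.Y n n') (-(S.o n - S.Y n n')) fun t h1 h2 => ?_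
  rw [S.agree' n n' t h1 (by omega)]; congr 1

lemma intra' {n n' : N} (hs : S.sink (S.gr n')) (h : S.cl n = S.cl n') :
    S.Y n n' ≤ S.o n ∧ S.Y n n' ≤ S.o n' :=
  S.intra n n' (by rwa [S.same_gr _ _ h]) h

/-! ### `V` steps -/

lemma V_le {n n' : N} (h : S.o n' < S.Y n n') : S.Y n n' ≤ S.o n := by
  have := S.P2 n n'; omega

lemma U_le {n n' : N} (h : S.o n < S.Y n n') : S.Y n n' ≤ S.o n' := by
  have := S.P2 n n'; omega

lemma V_P {n n' : N} (h : S.o n' < S.Y n n') : S.Pc n n' ≤ S.o n := by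
  have h1 := S.V_le h
  have := S.P_le n n' 0 (S.o n) 0 (S.Y n n') (S.o n - S.Y n n') (S.vtx_val n)
    (S.vtx_pre n n' h.le) (by omega) (by omega) fun t e1 e2 => S.agree' n n' t (by omega) e2
  omega

lemma V_L {n n' : N} (h : S.o n' < S.Y n n') {δ : ℤ} (h2 : S.w n ∣ δ)
    (h3 : S.o n - S.Y n n' ≤ δ) : S.Lc n n' ≤ δ := by
  have h1 := S.V_le h
  exact S.L_le n n' 0 (S.o n) 0 (S.Y n n') (S.o n - S.Y n n') δ (S.vtx_val n)
    (S.vtx_pre n n' h.le) h2 (by omega) (by omega) (by omega) (by omega)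
    (fun t e1 e2 => S.agree' n n' t (by omega) e2)
    (fun t e1 e2 => S.agree' n n' t (by omega) (by omega))

lemma V_single {n n' : N} (hs : S.sink (S.gr n)) (h : S.o n' < S.Y n n') :
    S.C {S.gr n} ≤ max 0 (S.o n - S.Y n n' - 1) := by
  have hc : S.cl n ≠ S.cl n' := fun e => by have := S.intra n n' hs e; omega
  have h1 := S.single n n' hs hc
  have h2 := S.V_P h
  have h3 := S.Y_lt_of_ne hc
  obtain ⟨j, e1, e2⟩ := exists_floor_mul (S.o n - S.Y n n' + S.w n - 1) (S.w n) (S.wpos n hs)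
  have h4 := S.V_L h (δ := j * S.w n) (Dvd.intro_left j rfl) (by omega)
  omega

lemma V_dep {n n' : N} (hs : S.sink (S.gr n)) (h : S.o n' < S.Y n n') (hg : S.gr n ≠ S.gr n') :
    S.w n < S.o n - S.Y n n' := by
  by_contra H
  have h1 := S.V_L h (δ := S.w n) dvd_rfl (by omega)
  have h2 := S.free n n' hs hg
  omega

lemma V_pair {n n' : N} (hs : S.sink (S.gr n)) (hs' : S.sink (S.gr n')) (h : S.o n' < S.Y n n')
    (hg : S.gr n ≠ S.gr n') : S.C {S.gr n, S.gr n'} < S.o n - S.Y n n' := by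
  have h1 := S.pair n n' hs hs' hg
  have h2 := S.V_P h
  have h3 := S.Y_lt_of_ne (S.cl_ne hg)
  omega

/-! ### `U` steps -/

lemma U_P {n n' : N} (h : S.o n < S.Y n n') : S.Pc n' n ≤ S.o n' := by
  have h1 := S.U_le h
  have := S.P_le n n' (S.o n - S.Y n n') (S.o n) 0 (S.o n') (S.o n - S.Y n n')
    (S.vtx_suf n n' h.le) (S.vtx_val n') (by omega) (by omega)
    fun t e1 e2 => S.agree' n n' t (by omega) e2
  rw [S.P_symm]
  omega

lemma U_L {n n' : N} (h : S.o n < S.Y n n') {δ : ℤ} (h2 : S.w n' ∣ δ)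
    (h3 : S.o n' - S.Y n n' ≤ δ) : S.Lc n' n ≤ δ := by
  have h1 := S.U_le h
  have key : ∀ t, δ ≤ t → t < S.Y n n' + δ →
      S.X n' t = S.X n (t - (S.Y n n' - S.o n + δ)) := by
    intro t e1 e2
    obtain ⟨j, rfl⟩ := h2
    have e3 := S.agree n n' (t - S.w n' * j) (by omega) (by omega)
    have e4 : t - (S.Y n n' - S.o n + S.w n' * j) = S.o n - S.Y n n' + (t - S.w n' * j) := by ring
    rw [e4, e3, ← per_mul (S.per n') j (t - S.w n' * j)]
    congr 1; ring
  exact S.L_le n' n 0 (S.o n') (S.o n - S.Y n n') (S.o n) (S.Y n n' - S.o n + δ) δ (S.vtx_val n')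
    (S.vtx_suf n n' h.le) h2 (by omega) (by omega) (by omega) (by omega)
    (fun t e1 e2 => key t (by omega) (by omega))
    (fun t e1 e2 => key t (by omega) (by omega))

lemma U_single {n n' : N} (hs : S.sink (S.gr n')) (h : S.o n < S.Y n n') :
    S.C {S.gr n'} ≤ max 0 (S.o n' - S.Y n n' - 1) := by
  have hc : S.cl n ≠ S.cl n' := fun e => by have := S.intra' hs e; omega
  have h1 := S.single n' n hs hc.symm
  have h2 := S.U_P h
  have h3 := S.Y_lt_of_ne hc
  obtain ⟨j, e1, e2⟩ := exists_floor_mul (S.o n' - S.Y n n' + S.w n' - 1) (S.w n') (S.wpos n' hs)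
  have h4 := S.U_L h (δ := j * S.w n') (Dvd.intro_left j rfl) (by omega)
  omega

lemma U_dep {n n' : N} (hs : S.sink (S.gr n')) (h : S.o n < S.Y n n') (hg : S.gr n ≠ S.gr n') :
    S.w n' < S.o n' - S.Y n n' := by
  by_contra H
  have h1 := S.U_L h (δ := S.w n') dvd_rfl (by omega)
  have h2 := S.free n' n hs hg.symm
  omega

lemma U_pair {n n' : N} (hs : S.sink (S.gr n)) (hs' : S.sink (S.gr n')) (h : S.o n < S.Y n n')
    (hg : S.gr n ≠ S.gr n') : S.C {S.gr n, S.gr n'} < S.o n' - S.Y n n' := by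
  have h1 := S.pair n n' hs hs' hg
  have h2 := S.U_P h
  have h3 := S.Y_lt_of_ne (S.cl_ne hg)
  rw [S.P_symm] at h2
  omega

/-! ### `C` steps -/

lemma C_pair {n n' : N} (hs : S.sink (S.gr n)) (hs' : S.sink (S.gr n')) (h : S.Y n n' ≤ S.o n)
    (h' : S.Y n n' ≤ S.o n') (hg : S.gr n ≠ S.gr n') :
    S.C {S.gr n, S.gr n'} ≤ S.o n + S.o n' - S.Y n n' - S.w n - S.w n' := by
  have h1 := S.pair n n' hs hs' hg
  have := S.P_le n n' 0 (S.o n) 0 (S.o n') (S.o n - S.Y n n') (S.vtx_val n)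
    (S.vtx_val n') (by omega) (by omega) fun t e1 e2 => S.agree' n n' t (by omega) e2
  omega

lemma C_free {n n' : N} (hs : S.sink (S.gr n)) (h : S.Y n n' = S.o n) (h' : S.Y n n' = S.o n')
    (hg : S.gr n ≠ S.gr n') : False := by
  have h1 := S.free n n' hs hg
  have h2 := S.wpos n hs
  have := S.L_le n n' 0 (S.o n) 0 (S.o n') (S.o n - S.Y n n') 0 (S.vtx_val n)
    (S.vtx_val n') (dvd_zero _) (by omega) (by omega) (by omega) (by omega)
    (fun t e1 e2 => S.agree' n n' t (by omega) e2)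
    (fun t e1 e2 => S.agree' n n' t (by omega) (by omega))
  omega

end Sys

end Crest.Agent.R287
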