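import Crest.Agent.R287.Defs

/-! Row 287: overlaps, walks and spelling. -/

set_option autoImplicit false

namespace Crest.Agent.R287

lemma foldr_max_filter_spec (n : ℕ) (p : ℕ → Bool) (k : ℕ) (hk : k < n) (hp : p k = true) :
    k ≤ ((List.range n).filter p).foldr max 0 := by
  have hm : k ∈ (List.range n).filter p := by simp [hk, hp]
  generalize (List.range n).filter p = l at hm
  induction l with
  | nil => simp at hm
  | cons a l ih =>
    simp only [List.foldr_cons]
    rcases List.mem_cons.1 hm with rfl | h
    · exact le_max_left _ _
    · exact (ih h).trans (le_max_right _ _)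

lemma foldr_max_mem (l : List ℕ) : l.foldr max 0 = 0 ∨ l.foldr max 0 ∈ l := by
  induction l with
  | nil => simp
  | cons a l ih =>
    simp only [List.foldr_cons, List.mem_cons]
    rcases le_total a (l.foldr max 0) with h | h
    · rw [max_eq_right h]; tauto
    · rw [max_eq_left h]; tauto

lemma ovf_spec (s t : Str) : ovf s t ≤ t.length ∧ t.take (ovf s t) <:+ s := by
  unfold ovf
  rcases foldr_max_mem ((List.range (t.length + 1)).filter (fun k => decide (t.take k <:+ s)))
    with h | h
  · rw [h]; simp
  · simp only [List.mem_filter, List.mem_range, decide_eq_true_eq] at h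
    exact ⟨by omega, h.2⟩

lemma ovf_le (s t : Str) : ovf s t ≤ t.length := (ovf_spec s t).1
lemma ovf_suffix (s t : Str) : t.take (ovf s t) <:+ s := (ovf_spec s t).2

lemma le_ovf {s t : Str} {k : ℕ} (hk : k ≤ t.length) (h : t.take k <:+ s) : k ≤ ovf s t :=
  foldr_max_filter_spec _ _ k (by omega) (by simpa using h)

lemma ovf_le_left (s t : Str) : ovf s t ≤ s.length := by
  have h := (ovf_suffix s t).length_le
  have := ovf_le s t
  simp at h; omega

lemma ovp_spec (s t : Str) : (ovp s t = 0 ∨ ovp s t < t.length) ∧ t.take (ovp s t) <:+ s := by
  unfold ovp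
  rcases foldr_max_mem ((List.range t.length).filter (fun k => decide (t.take k <:+ s)))
    with h | h
  · rw [h]; simp
  · simp only [List.mem_filter, List.mem_range, decide_eq_true_eq] at h
    exact ⟨Or.inr h.1, h.2⟩

lemma ovp_le (s t : Str) : ovp s t ≤ t.length := by
  rcases (ovp_spec s t).1 with h | h <;> omega

lemma ovp_lt (s : Str) {t : Str} (ht : t ≠ []) : ovp s t < t.length := by
  have := List.length_pos_iff.2 ht
  rcases (ovp_spec s t).1 with h | h <;> omega

lemma ovp_suffix (s t : Str) : t.take (ovp s t) <:+ s := (ovp_spec s t).2

lemma le_ovp {s t : Str} {k : ℕ} (hk : k < t.length) (h : t.take k <:+ s) : k ≤ ovp s t :=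
  foldr_max_filter_spec _ _ k hk (by simpa using h)

lemma ovp_le_left (s t : Str) : ovp s t ≤ s.length := by
  have h := (ovp_suffix s t).length_le
  have := ovp_le s t
  simp at h; omega

@[simp] lemma ovp_nil_left (t : Str) : ovp [] t = 0 := by
  have := ovp_le_left [] t; simpa using this

@[simp] lemma ovp_nil_right (s : Str) : ovp s [] = 0 := by
  have := ovp_le s []; simpa using this

lemma dist_le (x y : Str) : dist x y ≤ y.length := Nat.sub_le _ _

lemma dist_le_of_take {x y : Str} {k : ℕ} (hk : k ≤ y.length) (h : y.take k <:+ x) :
    dist x y ≤ y.length - k := by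
  have := le_ovf hk h
  unfold dist; omega

lemma dist_of_suffix {x y : Str} (h : y <:+ x) : dist x y = 0 := by
  have := dist_le_of_take (x := x) (y := y) le_rfl (by simpa using h)
  omega

@[simp] lemma dist_self (x : Str) : dist x x = 0 := dist_of_suffix List.suffix_rfl

@[simp] lemma dist_nil (x : Str) : dist x [] = 0 := dist_of_suffix List.nil_suffix

@[simp] lemma cost_nil : cost [] = 0 := rfl
@[simp] lemma cost_singleton (x : Str) : cost [x] = 0 := rfl
@[simp] lemma cost_cons_cons (x y : Str) (l : List Str) :
    cost (x :: y :: l) = dist x y + cost (y :: l) := by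
  simp [cost]

lemma cost_append_cons (l : List Str) (x : Str) (l' : List Str) :
    cost (l ++ x :: l') = cost (l ++ [x]) + cost (x :: l') := by
  induction l with
  | nil => simp
  | cons a l ih =>
    cases l with
    | nil => simp
    | cons b l =>
      simp only [List.cons_append, cost_cons_cons] at ih ⊢
      omega

/-- appending one vertex costs at most its length -/
lemma cost_concat_le (l : List Str) (x : Str) : cost (l ++ [x]) ≤ cost l + x.length := by
  induction l with
  | nil => simp
  | cons a l ih =>
    cases l with
    | nil => simpa using dist_le a x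
    | cons b l =>
      simp only [List.cons_append, cost_cons_cons] at ih ⊢
      omega

lemma cost_concat_concat (l : List Str) (x y : Str) :
    cost (l ++ [x] ++ [y]) = cost (l ++ [x]) + dist x y := by
  rw [List.append_assoc, List.singleton_append, cost_append_cons]; simp

lemma spell_aux (l : List Str) : ∀ (x T : Str), x <:+ T →
    (T ++ spell (x :: l)).length = T.length + cost (x :: l) ∧
      ∀ y ∈ x :: l, y <:+: T ++ spell (x :: l) := by
  induction l with
  | nil =>
    intro x T h
    simp [spell, h.isInfix]
  | cons y l ih =>
    intro x T h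
    have hs : spell (x :: y :: l) = y.drop (ovf x y) ++ spell (y :: l) := by simp [spell]
    have hy : y <:+ T ++ y.drop (ovf x y) := by
      obtain ⟨u, hu⟩ := (ovf_suffix x y).trans h
      refine ⟨u, ?_⟩
      rw [← hu, List.append_assoc, List.take_append_drop]
    obtain ⟨h1, h2⟩ := ih y _ hy
    rw [hs, ← List.append_assoc]
    refine ⟨?_, ?_⟩
    · rw [h1]; simp [dist]; omega
    · intro z hz
      rcases List.mem_cons.1 hz with rfl | hz
      · rw [List.append_assoc]
        exact h.isInfix.trans (List.prefix_append _ _).isInfix
      · exact h2 z hz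

lemma spell_spec {l : List Str} (h : l.head? = some []) :
    (spell l).length = cost l ∧ ∀ x ∈ l, x <:+: spell l := by
  cases l with
  | nil => simp at h
  | cons x l =>
    simp only [List.head?_cons, Option.some.injEq] at h
    subst h
    simpa using spell_aux l [] [] List.suffix_rfl

end Crest.Agent.R287
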