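import Mathlib

/-!
Row 287: the abstract setting of the analysis.

Nodes `n : N` are the arcs `s → σ s` of the greedy cycle cover.  `X n` is the bi-infinite periodic word
of the cycle of `n`, in coordinates where the overlap of `n` occupies `[0, o n)`.  `Y n n'` is the overlap
of the tail string of `n` with the head string of `n'`.
-/

set_option autoImplicit false

namespace Crest.Agent.R287

structure Sys (N Cl Gr α : Type) [DecidableEq Gr] where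
  o : N → ℤ
  w : N → ℤ
  Y : N → N → ℤ
  X : N → ℤ → α
  cl : N → Cl
  gr : N → Gr
  sink : Gr → Prop
  C : Finset Gr → ℤ
  Lc : N → N → ℤ
  Pc : N → N → ℤ
  Vtx : N → ℤ → ℤ → Prop
  Y_nonneg : ∀ n n', 0 ≤ Y n n'
  Y_self : ∀ n, Y n n = o n
  P2 : ∀ n n', Y n n' ≤ max (o n) (o n')
  agree : ∀ n n' t, 0 ≤ t → t < Y n n' → X n (o n - Y n n' + t) = X n' t
  maxl : ∀ n n' a b D, D ≤ Y n a → D ≤ Y b n' →
    (∀ t, 0 ≤ t → t < D → X n (o n - D + t) = X n' t) → D ≤ Y n n'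
  per : ∀ n t, X n (t + w n) = X n t
  FW : ∀ n n', cl n ≠ cl n' → ∀ a s, ¬ ∀ t, a ≤ t → t < a + w n + w n' → X n t = X n' (t + s)
  rigid : ∀ n δ, sink (gr n) → (∀ t, X n (t + δ) = X n t) → w n ∣ δ
  same_w : ∀ n n', cl n = cl n' → w n = w n'
  same_gr : ∀ n n', cl n = cl n' → gr n = gr n'
  same_X : ∀ n n', cl n = cl n' → ∃ δ, ∀ t, X n' t = X n (t + δ)
  wpos : ∀ n, sink (gr n) → 0 < w n
  long : ∀ n, sink (gr n) → w n < o n
  intra : ∀ n n', sink (gr n) → cl n = cl n' → Y n n' ≤ o n ∧ Y n n' ≤ o n'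
  Y_lt : ∀ b n, sink (gr n) → Y b n < o n + w n
  vtx_val : ∀ n, Vtx n 0 (o n)
  vtx_pre : ∀ b n, o n ≤ Y b n → Vtx n 0 (Y b n)
  vtx_suf : ∀ n b, o n ≤ Y n b → Vtx n (o n - Y n b) (o n)
  P_le : ∀ n n' a b a' b' s, Vtx n a b → Vtx n' a' b' → a ≤ a' + s → b ≤ b' + s →
    (∀ t, a' + s ≤ t → t < b → X n t = X n' (t - s)) → Pc n n' ≤ b' + s - a
  P_symm : ∀ n n', Pc n n' = Pc n' n
  P_congr : ∀ n n' x, cl n = cl n' → Pc n x = Pc n' x
  L_le : ∀ n n' a b a' b' s δ, Vtx n a b → Vtx n' a' b' → w n ∣ δ → a ≤ a' + s → b ≤ b' + s →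
    a' + s ≤ a + δ → b' + s ≤ b + δ → (∀ t, a' + s ≤ t → t < b → X n t = X n' (t - s)) →
    (∀ t, a + δ ≤ t → t < b' + s → X n t = X n' (t - s)) → Lc n n' ≤ δ
  single : ∀ n n', sink (gr n) → cl n ≠ cl n' →
    C {gr n} ≤ max 0 (max (Lc n n' - w n) (Pc n n' - w n - w n'))
  single0 : ∀ n, sink (gr n) → C {gr n} ≤ o n - w n
  pair : ∀ n n', sink (gr n) → sink (gr n') → gr n ≠ gr n' →
    C {gr n, gr n'} ≤ Pc n n' - w n - w n'
  free : ∀ n n', sink (gr n) → gr n ≠ gr n' → w n < Lc n n'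
  C_union : ∀ A B, Disjoint A B → C (A ∪ B) ≤ C A + C B
  C_empty : C ∅ = 0

end Crest.Agent.R287
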